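import Vale.Agent.P188.H754.Malcev10

/-!
Generator characters and crossed homomorphisms.
-/

universe u v

namespace Vale.Agent.P188.H754

open Module
open scoped commutatorElement

section chars

variable {Γ : Type u} [Group Γ]

/-- A generator weight: a nonzero homomorphism `φ : N → ℂ` with
`φ (g * n * g⁻¹) = ρ g * φ n` for a character `ρ` of `Γ`. -/
structure GenWeight (N : Subgroup Γ) where
  /-- the character -/
  ρ : Γ →* ℂ
  /-- the homomorphism on `N` -/
  φ : Γ → ℂ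
  φ_mul : ∀ x ∈ N, ∀ y ∈ N, φ (x * y) = φ x + φ y
  φ_conj : ∀ g : Γ, ∀ x ∈ N, φ (g * x * g⁻¹) = ρ g * φ x
  φ_ne : ∃ x ∈ N, φ x ≠ 0

theorem GenWeight.φ_one {N : Subgroup Γ} (w : GenWeight N) : w.φ 1 = 0 := by
  have h := w.φ_mul 1 N.one_mem 1 N.one_mem
  rw [mul_one] at h
  linear_combination -h

theorem GenWeight.φ_inv {N : Subgroup Γ} (w : GenWeight N) {x : Γ} (hx : x ∈ N) :
    w.φ x⁻¹ = - w.φ x := by
  have h := w.φ_mul x hx x⁻¹ (N.inv_mem hx)
  rw [mul_inv_cancel, w.φ_one] at h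
  linear_combination -h

theorem GenWeight.ρ_ne {N : Subgroup Γ} (w : GenWeight N) (g : Γ) : w.ρ g ≠ 0 := by
  intro h
  have h1 : w.ρ (g * g⁻¹) = 0 := by rw [map_mul, h, zero_mul]
  rw [mul_inv_cancel, map_one] at h1
  exact one_ne_zero h1

/-- characters are trivial on `N` -/
theorem GenWeight.ρ_of_mem {N : Subgroup Γ} (w : GenWeight N) {n : Γ} (hn : n ∈ N) :
    w.ρ n = 1 := by
  obtain ⟨x, hx, hx0⟩ := w.φ_ne
  have h1 := w.φ_conj n x hx
  rw [w.φ_mul _ (N.mul_mem hn hx) _ (N.inv_mem hn), w.φ_mul _ hn _ hx, w.φ_inv hn] at h1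
  have h2 : (w.ρ n - 1) * w.φ x = 0 := by linear_combination -h1
  rcases mul_eq_zero.1 h2 with h | h
  · exact sub_eq_zero.1 h
  · exact absurd h hx0

/-- A nontrivial generator weight extends to a crossed homomorphism on the whole group. -/
theorem GenWeight.exists_crossed {N : Subgroup Γ} (hcomm : ∀ a b : Γ, ⁅a, b⁆ ∈ N)
    (w : GenWeight N) (hw : ∃ g, w.ρ g ≠ 1) :
    ∃ D : Γ → ℂ, (∀ g h, D (g * h) = D g + w.ρ g * D h) ∧ ∀ n ∈ N, D n = w.φ n := by
  obtain ⟨g₀, hg₀⟩ := hw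
  have hne : 1 - w.ρ g₀ ≠ 0 := sub_ne_zero.2 (Ne.symm hg₀)
  refine ⟨fun g => (1 - w.ρ g₀)⁻¹ * w.φ ⁅g, g₀⁆, ?_, ?_⟩
  · intro g h
    have hN : ∀ a b : Γ, a * b * a⁻¹ ∈ N → b ∈ N → True := fun _ _ _ _ => trivial
    have h1 : ⁅g * h, g₀⁆ = (g * ⁅h, g₀⁆ * g⁻¹) * ⁅g, g₀⁆ := by
      simp only [commutatorElement_def]; group
    have h2 : g * ⁅h, g₀⁆ * g⁻¹ ∈ N := by
      have h3 : g * ⁅h, g₀⁆ * g⁻¹ = ⁅g, ⁅h, g₀⁆⁆ * ⁅h, g₀⁆ := by
        simp only [commutatorElement_def]; group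
      rw [h3]
      exact N.mul_mem (hcomm _ _) (hcomm _ _)
    simp only []
    rw [h1, w.φ_mul _ h2 _ (hcomm _ _), w.φ_conj _ _ (hcomm _ _)]
    ring
  · intro n hn
    have h2 : g₀ * n⁻¹ * g₀⁻¹ ∈ N := by
      have h3 : g₀ * n⁻¹ * g₀⁻¹ = ⁅g₀, n⁻¹⁆ * n⁻¹ := by
        simp only [commutatorElement_def]; group
      rw [h3]
      exact N.mul_mem (hcomm _ _) (N.inv_mem hn)
    have h1 : ⁅n, g₀⁆ = n * (g₀ * n⁻¹ * g₀⁻¹) := by
      simp only [commutatorElement_def]; group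
    simp only []
    rw [h1, w.φ_mul _ hn _ h2, w.φ_conj _ _ (N.inv_mem hn), w.φ_inv hn]
    field_simp
    ring

/-- an eigenvalue of a single element on `Hom(N, ℂ)` gives a generator weight -/
theorem exists_genWeight {N : Subgroup Γ} [N.Normal] (hN : N.FG) (hcomm : ∀ a b : Γ, ⁅a, b⁆ ∈ N)
    {g : Γ} {μ : ℂ} (hμ : (conjRep N g).HasEigenvalue μ) : ∃ w : GenWeight N, w.ρ g = μ⁻¹ := by
  classical
  have hfd : FiniteDimensional ℂ (Ch N) := finiteDimensional_ch hN
  -- `N` acts trivially on characters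
  have htriv : ∀ n ∈ N, ∀ φ : Ch N, conjRep N n φ = φ := by
    intro n hn φ
    apply ch_ext
    intro x hx
    rw [ev_conjRep]
    have h1 := ev_mul φ (N.mul_mem (N.inv_mem hn) hx) hn
    rw [h1, ev_mul φ (N.inv_mem hn) hx, ev_inv φ hn]
    ring
  have hc : ∀ a b : Γ, Commute (conjRep N a) (conjRep N b) := by
    intro a b
    refine LinearMap.ext fun φ => ?_
    have h1 : a * b = b * a * ⁅a⁻¹, b⁻¹⁆ := by rw [commutatorElement_def]; group
    rw [← map_mul, ← map_mul, h1, map_mul (conjRep N) (b * a), Module.End.mul_apply,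
      htriv _ (hcomm _ _)]
  set W := (conjRep N g).eigenspace μ with hW
  have hWne : Nontrivial W := Submodule.nontrivial_iff_ne_bot.2 hμ
  have hinv : ∀ a : Γ, ∀ x ∈ W, conjRep N a x ∈ W := by
    intro a x hx
    rw [hW, Module.End.mem_eigenspace_iff] at hx ⊢
    have := congrArg (fun A : Module.End ℂ (Ch N) => A x) (hc g a).eq
    simp only [Module.End.mul_apply] at this
    rw [this, hx, map_smul]
  obtain ⟨χ, x, hx0, hx⟩ := exists_common_eigenvector
    (fun a : Γ => (conjRep N a).restrict (hinv a)) (by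
      intro a b
      refine LinearMap.ext fun x => Subtype.ext ?_
      have := congrArg (fun A : Module.End ℂ (Ch N) => A (x : Ch N)) (hc a b).eq
      exact this)
  have hx0' : (x : Ch N) ≠ 0 := fun h => hx0 (Subtype.ext h)
  have hx' : ∀ a, conjRep N a (x : Ch N) = χ a • (x : Ch N) := fun a => congrArg Subtype.val (hx a)
  have hinj : ∀ c d : ℂ, c • (x : Ch N) = d • (x : Ch N) → c = d := by
    intro c d h
    by_contra hne
    apply hx0'
    have h1 : (c - d) • (x : Ch N) = 0 := by rw [sub_smul, h, sub_self]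
    exact (smul_eq_zero.1 h1).resolve_left (sub_ne_zero.2 hne)
  have hχmul : ∀ a b, χ (a * b) = χ a * χ b := by
    intro a b
    apply hinj
    rw [← hx', map_mul, Module.End.mul_apply, hx' b, map_smul, hx' a, smul_smul, mul_comm]
  have hχ1 : χ 1 = 1 := by
    apply hinj
    rw [← hx', map_one, Module.End.one_apply, one_smul]
  have hχg : χ g = μ := by
    apply hinj
    rw [← hx']
    exact Module.End.mem_eigenspace_iff.1 x.2
  have hχinv : ∀ a, χ a⁻¹ = (χ a)⁻¹ := by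
    intro a
    have h1 := hχmul a a⁻¹
    rw [mul_inv_cancel, hχ1] at h1
    exact eq_inv_of_mul_eq_one_right h1.symm
  let ρ : Γ →* ℂ :=
    { toFun := fun a => χ a⁻¹
      map_one' := by rw [inv_one, hχ1]
      map_mul' := by
        intro a b
        rw [mul_inv_rev, hχmul, mul_comm] }
  refine ⟨⟨ρ, fun y => if hy : y ∈ N then ev (x : Ch N) y hy else 0, ?_, ?_, ?_⟩, ?_⟩
  · intro a ha b hb
    rw [dif_pos ha, dif_pos hb, dif_pos (N.mul_mem ha hb), ev_mul _ ha hb]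
  · intro a y hy
    have h1 : a * y * a⁻¹ ∈ N := Subgroup.Normal.conj_mem inferInstance y hy a
    rw [dif_pos hy, dif_pos h1]
    have h2 := congrArg (fun ψ : Ch N => ev ψ y hy) (hx' a⁻¹)
    simp only [ev_conjRep, ev_smul] at h2
    change _ = χ a⁻¹ * _
    rw [← h2]
    exact ev_congr _ _ (by rw [inv_inv])
  · by_contra hcon
    push Not at hcon
    apply hx0'
    apply ch_ext
    intro y hy
    have := hcon y hy
    rw [dif_pos hy] at this
    exact this
  · change χ g⁻¹ = μ⁻¹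
    rw [hχinv, hχg]

/-- **Structure theorem (Z0), crossed homomorphism form.** A virtually polycyclic group has a
finite index torsion-free poly-`ℤ` subgroup `Γ`, an extension of `ℤ ^ k` by a finitely generated
nilpotent group `N = ker η`, such that every `g` is seen by some generator weight:
`c * ‖η g‖ ≤ |log ‖ρ g‖|`. -/
theorem virtPoly_genWeight {G : Type u} [Group G] (h : IsVirtuallyPolycyclic G) :
    ∃ (Γ : Type u) (_ : Group Γ) (ι : Γ →* G), Function.Injective ι ∧ ι.range.FiniteIndex ∧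
      ∃ (k : ℕ) (η : Γ →* Multiplicative (Fin k → ℤ)),
      Function.Surjective η ∧ η.ker.FG ∧ Group.IsNilpotent η.ker ∧
      (∀ M : Subgroup Γ, M.Normal → Group.IsNilpotent M → M ≤ η.ker) ∧
      (∃ m, PolyZ m Γ) ∧ (∃ m, PolyZ m η.ker) ∧
      (∀ (x : Γ) (e : ℕ), e ≠ 0 → x ^ e = 1 → x = 1) ∧
      ∃ c : ℝ, 0 < c ∧ ∀ g : Γ, η g ≠ 1 → ∃ w : GenWeight η.ker,
        c * ‖Multiplicative.toAdd (η g)‖ ≤ |Real.log ‖w.ρ g‖| := by
  obtain ⟨Γ, inst, ι, hι, hfi, k, η, hη, hfg, hnil, hfit, hm, hm', htf, c, hc, hcb⟩ :=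
    virtPoly_Z0 h
  refine ⟨Γ, inst, ι, hι, hfi, k, η, hη, hfg, hnil, hfit, hm, hm', htf, c, hc, ?_⟩
  intro g hg
  obtain ⟨μ, hμ, hb⟩ := hcb g hg
  have hcomm : ∀ a b : Γ, ⁅a, b⁆ ∈ η.ker := by
    intro a b
    rw [MonoidHom.mem_ker, map_commutatorElement, commutatorElement_def]
    rw [mul_comm (η a) (η b)]; group
  obtain ⟨w, hw⟩ := exists_genWeight hfg hcomm hμ
  refine ⟨w, ?_⟩
  rw [hw, norm_inv, Real.log_inv, abs_neg]
  exact hb

end chars

end Vale.Agent.P188.H754
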