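import Mathlib

/-!
Lie-Kolchin-Malcev: a solvable group all of whose subgroups are finitely generated, acting on a
finite dimensional complex vector space, has a finite index subgroup preserving a full flag, acting
by scalars on the successive quotients.
-/

universe u v

namespace Vale.Agent.P188.H754

open Module
open scoped commutatorElement

/-! ### finite index from finite range -/

theorem finiteIndex_of_finite_range {Γ : Type u} {X : Type v} [Group Γ] (H : Subgroup Γ)
    (f : Γ → X) (hf : (Set.range f).Finite) (h : ∀ a b, f a = f b → a⁻¹ * b ∈ H) :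
    H.FiniteIndex := by
  have : Finite (Set.range f) := hf
  have inj : Function.Injective (fun q : Γ ⧸ H => (⟨f q.out, ⟨_, rfl⟩⟩ : Set.range f)) := by
    intro q q' hq
    have h1 : f q.out = f q'.out := congrArg Subtype.val hq
    have h2 := h _ _ h1
    have h3 : (q.out : Γ ⧸ H) = (q'.out : Γ ⧸ H) := QuotientGroup.eq.2 h2
    simpa using h3
  have : Finite (Γ ⧸ H) := Finite.of_injective _ inj
  exact Subgroup.finiteIndex_of_finite_quotient

/-! ### representations as homomorphisms to `End` -/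

section rep

variable {Γ : Type u} [Group Γ] {V : Type v} [AddCommGroup V] [Module ℂ V]
  (ρ : Γ →* Module.End ℂ V)

theorem ρ_inv_mul (g : Γ) : ρ g⁻¹ * ρ g = 1 := by rw [← map_mul]; simp

theorem ρ_mul_inv (g : Γ) : ρ g * ρ g⁻¹ = 1 := by rw [← map_mul]; simp

theorem ρ_inv_apply (g : Γ) (x : V) : ρ g⁻¹ (ρ g x) = x := by
  have := congrArg (fun A : Module.End ℂ V => A x) (ρ_inv_mul ρ g)
  simpa using this

theorem ρ_apply_inv (g : Γ) (x : V) : ρ g (ρ g⁻¹ x) = x := by
  have := congrArg (fun A : Module.End ℂ V => A x) (ρ_mul_inv ρ g)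
  simpa using this

/-- no proper nonzero subspace is invariant under a finite index subgroup -/
def StrongIrr : Prop :=
  ∀ H : Subgroup Γ, H.FiniteIndex → ∀ W : Submodule ℂ V, (∀ g ∈ H, ∀ x ∈ W, ρ g x ∈ W) →
    W = ⊥ ∨ W = ⊤

/-- an element acting by a scalar -/
def Scal (g : Γ) : Prop := ∃ c : ℂ, ρ g = c • (1 : Module.End ℂ V)

variable [FiniteDimensional ℂ V]

/-- A commuting family has a common eigenvector. -/
theorem exists_common_eigenvector [Nontrivial V] {ι : Type*} (f : ι → Module.End ℂ V)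
    (hf : ∀ i j, Commute (f i) (f j)) :
    ∃ χ : ι → ℂ, ∃ x : V, x ≠ 0 ∧ ∀ i, f i x = χ i • x := by
  generalize hn : finrank ℂ V = n
  induction n using Nat.strong_induction_on generalizing V with
  | _ n ih =>
  by_cases hs : ∀ i, ∃ c : ℂ, f i = c • (1 : Module.End ℂ V)
  · choose χ hχ using hs
    obtain ⟨x, hx⟩ := exists_ne (0 : V)
    exact ⟨χ, x, hx, fun i => by rw [hχ i]; simp⟩
  · push Not at hs
    obtain ⟨i, hi⟩ := hs
    obtain ⟨c, hc⟩ := Module.End.exists_eigenvalue (f i)
    set W := (f i).eigenspace c with hW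
    have hWne : W ≠ ⊥ := hc
    have hWlt : W ≠ ⊤ := by
      intro hT
      apply hi c
      ext x
      have : x ∈ W := by rw [hT]; trivial
      rw [hW, Module.End.mem_eigenspace_iff] at this
      simpa using this
    have hmaps : ∀ j, ∀ x ∈ W, f j x ∈ W := by
      intro j x hx
      rw [hW, Module.End.mem_eigenspace_iff] at hx ⊢
      have := congrArg (fun A : Module.End ℂ V => A x) (hf i j).eq
      simp only [Module.End.mul_apply] at this
      rw [this, hx, map_smul]
    have : Nontrivial W := Submodule.nontrivial_iff_ne_bot.2 hWne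
    have hlt : finrank ℂ W < n := hn ▸ Submodule.finrank_lt hWlt
    obtain ⟨χ, x, hx0, hx⟩ := ih _ hlt (V := W) (fun j => (f j).restrict (hmaps j))
      (by
        intro a b
        ext x
        have := congrArg (fun A : Module.End ℂ V => A x) (hf a b).eq
        simpa using this) rfl
    refine ⟨χ, x, by simpa using hx0, fun j => ?_⟩
    have := congrArg Subtype.val (hx j)
    simpa using this

/-- Lemma A: a normal subgroup with commutative image acts by scalars, if the representation is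
strongly irreducible. -/
theorem scal_of_comm [Nontrivial V] (hirr : StrongIrr ρ) (N : Subgroup Γ) [N.Normal]
    (hN : ∀ a ∈ N, ∀ b ∈ N, Commute (ρ a) (ρ b)) : ∀ a ∈ N, Scal ρ a := by
  classical
  let f : N → Module.End ℂ V := fun a => ρ a
  have hf : ∀ i j, Commute (f i) (f j) := fun i j => hN _ i.2 _ j.2
  obtain ⟨χ₀, x₀, hx₀, hχ₀⟩ := exists_common_eigenvector f hf
  have hind : iSupIndep fun χ : N → ℂ ↦ ⨅ i, (f i).maxGenEigenspace (χ i) :=
    Module.End.independent_iInf_maxGenEigenspace_of_forall_mapsTo f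
      (fun i j φ => Module.End.mapsTo_maxGenEigenspace_of_comm (hf j i) φ)
  let E : (N → ℂ) → Submodule ℂ V := fun χ => ⨅ i, (f i).eigenspace (χ i)
  have hEle : ∀ χ, E χ ≤ ⨅ i, (f i).maxGenEigenspace (χ i) := fun χ =>
    iInf_mono fun i => Module.End.eigenspace_le_maxGenEigenspace
  have hEind : iSupIndep E := hind.mono hEle
  have hfin : {χ : N → ℂ | E χ ≠ ⊥}.Finite := WellFoundedGT.finite_ne_bot_of_iSupIndep hEind
  have hmemE : ∀ χ x, x ∈ E χ ↔ ∀ i, f i x = χ i • x := by
    intro χ x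
    simp [E, Submodule.mem_iInf, Module.End.mem_eigenspace_iff]
  -- conjugation of characters
  let cj : Γ → N → ℂ := fun g n => χ₀ (MulAut.conjNormal g⁻¹ n)
  have hcj : ∀ g, ∀ x ∈ E χ₀, ρ g x ∈ E (cj g) := by
    intro g x hx
    rw [hmemE] at hx ⊢
    intro n
    have h1 := hx (MulAut.conjNormal g⁻¹ n)
    have h2 : f (MulAut.conjNormal g⁻¹ n) = ρ g⁻¹ * ρ n * ρ g := by
      simp only [f, MulAut.conjNormal_apply, inv_inv]
      rw [map_mul, map_mul]
    rw [h2] at h1
    simp only [Module.End.mul_apply] at h1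
    have h3 := congrArg (ρ g) h1
    rw [ρ_apply_inv, map_smul] at h3
    exact h3
  have hmem₀ : x₀ ∈ E χ₀ := (hmemE _ _).2 hχ₀
  have hrange : (Set.range cj).Finite := by
    refine hfin.subset ?_
    rintro _ ⟨g, rfl⟩ hbot
    have := hcj g _ hmem₀
    rw [hbot, Submodule.mem_bot] at this
    apply hx₀
    rw [← ρ_inv_apply ρ g x₀, this, map_zero]
  let H : Subgroup Γ :=
    { carrier := {g | ∀ n : N, χ₀ (MulAut.conjNormal g⁻¹ n) = χ₀ n}
      one_mem' := by intro n; simp
      mul_mem' := by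
        intro a b ha hb n
        have : (MulAut.conjNormal (a * b)⁻¹ n : N)
            = MulAut.conjNormal b⁻¹ (MulAut.conjNormal a⁻¹ n) := by
          rw [mul_inv_rev, map_mul]; rfl
        rw [this, hb, ha]
      inv_mem' := by
        intro a ha n
        have := ha (MulAut.conjNormal a n)
        rw [inv_inv, ← this]
        congr 1
        rw [← MulAut.mul_apply, ← map_mul]; simp }
  have hH : H.FiniteIndex := by
    refine finiteIndex_of_finite_range H cj hrange ?_
    intro a b hab n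
    have h1 := congrFun hab (MulAut.conjNormal a n)
    simp only [cj] at h1
    rw [← MulAut.mul_apply, ← map_mul, inv_mul_cancel, map_one, MulAut.one_apply,
      ← MulAut.mul_apply, ← map_mul] at h1
    rw [mul_inv_rev, inv_inv]
    exact h1.symm
  have hEinv : ∀ g ∈ H, ∀ x ∈ E χ₀, ρ g x ∈ E χ₀ := by
    intro g hg x hx
    have h1 := hcj g x hx
    have h2 : cj g = χ₀ := funext fun n => hg n
    rwa [h2] at h1
  have htop : E χ₀ = ⊤ := by
    rcases hirr H hH (E χ₀) hEinv with h | h
    · rw [h, Submodule.mem_bot] at hmem₀; exact absurd hmem₀ hx₀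
    · exact h
  intro a ha
  refine ⟨χ₀ ⟨a, ha⟩, ?_⟩
  ext x
  have : x ∈ E χ₀ := by rw [htop]; trivial
  have := (hmemE _ _).1 this ⟨a, ha⟩
  simpa [f] using this

/-- An element with finitely many conjugates in the image acts by a scalar. -/
theorem scal_of_finite_orbit [Nontrivial V] (hirr : StrongIrr ρ) (c : Γ)
    (hfin : (Set.range fun g => ρ (g * c * g⁻¹)).Finite) : Scal ρ c := by
  let H : Subgroup Γ :=
    { carrier := {g | ρ g * ρ c = ρ c * ρ g}
      one_mem' := by simp
      mul_mem' := by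
        intro a b ha hb
        simp only [Set.mem_setOf_eq] at ha hb ⊢
        rw [map_mul, mul_assoc, hb, ← mul_assoc, ha, mul_assoc]
      inv_mem' := by
        intro a ha
        simp only [Set.mem_setOf_eq] at ha ⊢
        calc ρ a⁻¹ * ρ c = ρ a⁻¹ * ρ c * (ρ a * ρ a⁻¹) := by rw [ρ_mul_inv, mul_one]
          _ = ρ a⁻¹ * (ρ c * ρ a) * ρ a⁻¹ := by simp only [mul_assoc]
          _ = ρ a⁻¹ * (ρ a * ρ c) * ρ a⁻¹ := by rw [ha]
          _ = (ρ a⁻¹ * ρ a) * ρ c * ρ a⁻¹ := by simp only [mul_assoc]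
          _ = ρ c * ρ a⁻¹ := by rw [ρ_inv_mul, one_mul] }
  have hH : H.FiniteIndex := by
    refine finiteIndex_of_finite_range H _ hfin ?_
    intro a b hab
    simp only [map_mul] at hab
    change ρ (a⁻¹ * b) * ρ c = ρ c * ρ (a⁻¹ * b)
    rw [map_mul]
    calc ρ a⁻¹ * ρ b * ρ c = ρ a⁻¹ * (ρ b * ρ c * ρ b⁻¹) * ρ b := by
          simp only [mul_assoc]; rw [ρ_inv_mul, mul_one]
      _ = ρ a⁻¹ * (ρ a * ρ c * ρ a⁻¹) * ρ b := by rw [hab]
      _ = (ρ a⁻¹ * ρ a) * ρ c * (ρ a⁻¹ * ρ b) := by simp only [mul_assoc]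
      _ = ρ c * (ρ a⁻¹ * ρ b) := by rw [ρ_inv_mul, one_mul]
  obtain ⟨μ, hμ⟩ := Module.End.exists_eigenvalue (ρ c)
  have hinv : ∀ g ∈ H, ∀ x ∈ (ρ c).eigenspace μ, ρ g x ∈ (ρ c).eigenspace μ := by
    intro g hg x hx
    rw [Module.End.mem_eigenspace_iff] at hx ⊢
    have h1 : ρ g * ρ c = ρ c * ρ g := hg
    have := congrArg (fun A : Module.End ℂ V => A x) h1
    simp only [Module.End.mul_apply] at this
    rw [← this, hx, map_smul]
  rcases hirr H hH _ hinv with h | h
  · exact absurd h hμ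
  · refine ⟨μ, ?_⟩
    ext x
    have : x ∈ (ρ c).eigenspace μ := by rw [h]; trivial
    rw [Module.End.mem_eigenspace_iff] at this
    simpa using this


theorem det_ne_zero (g : Γ) : LinearMap.det (ρ g) ≠ 0 := by
  intro h
  have h1 := congrArg LinearMap.det (ρ_mul_inv ρ g)
  rw [map_mul, h, zero_mul, map_one] at h1
  exact zero_ne_one h1

theorem det_comm (g h : Γ) : LinearMap.det (ρ (g * h * g⁻¹)) = LinearMap.det (ρ h) := by
  rw [map_mul, map_mul, map_mul, map_mul]
  have h1 := congrArg LinearMap.det (ρ_mul_inv ρ g)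
  rw [map_mul, map_one] at h1
  calc LinearMap.det (ρ g) * LinearMap.det (ρ h) * LinearMap.det (ρ g⁻¹)
      = LinearMap.det (ρ h) * (LinearMap.det (ρ g) * LinearMap.det (ρ g⁻¹)) := by ring
    _ = LinearMap.det (ρ h) := by rw [h1, mul_one]

omit [FiniteDimensional ℂ V] in
theorem finite_roots {d : ℕ} (hd : 0 < d) (a : ℂ) : {z : ℂ | z ^ d = a}.Finite := by
  refine (Multiset.finite_toSet (Polynomial.nthRoots d a)).subset ?_
  intro z hz
  exact (Polynomial.mem_nthRoots hd).2 hz

/-- Lemma B. -/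
theorem scal_of_commutator [Nontrivial V] (hirr : StrongIrr ρ) (C : Subgroup Γ) [C.Normal]
    (hfg : C.FG) (hC : ∀ a ∈ C, ∀ b ∈ C, Scal ρ ⁅a, b⁆) : ∀ a ∈ C, Scal ρ a := by
  classical
  set d := finrank ℂ V with hd
  have hdpos : 0 < d := finrank_pos
  -- the commutation scalar
  have hlam : ∀ a ∈ C, ∀ b ∈ C, ∃ l : ℂ, l ^ d = 1 ∧ ρ a * ρ b = l • (ρ b * ρ a) := by
    intro a ha b hb
    obtain ⟨l, hl⟩ := hC a ha b hb
    refine ⟨l, ?_, ?_⟩
    · have h1 : LinearMap.det (ρ ⁅a, b⁆) = 1 := by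
        rw [commutatorElement_def, map_mul, map_mul, det_comm ρ a b, ← map_mul,
          ρ_mul_inv, map_one]
      rw [hl, LinearMap.det_smul, map_one, mul_one] at h1
      exact h1
    · have h2 : a * b = ⁅a, b⁆ * (b * a) := by rw [commutatorElement_def]; group
      rw [← map_mul, h2, map_mul, hl, smul_mul_assoc, one_mul, map_mul]
  let D : Subgroup Γ :=
    { carrier := {c | c ∈ C ∧ ∀ b ∈ C, ρ c * ρ b = ρ b * ρ c}
      one_mem' := ⟨C.one_mem, by simp⟩
      mul_mem' := by
        rintro a b ⟨ha, ha'⟩ ⟨hb, hb'⟩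
        refine ⟨C.mul_mem ha hb, fun c hc => ?_⟩
        rw [map_mul, mul_assoc, hb' c hc, ← mul_assoc, ha' c hc, mul_assoc]
      inv_mem' := by
        rintro a ⟨ha, ha'⟩
        refine ⟨C.inv_mem ha, fun c hc => ?_⟩
        calc ρ a⁻¹ * ρ c = ρ a⁻¹ * ρ c * (ρ a * ρ a⁻¹) := by rw [ρ_mul_inv, mul_one]
          _ = ρ a⁻¹ * (ρ c * ρ a) * ρ a⁻¹ := by simp only [mul_assoc]
          _ = ρ a⁻¹ * (ρ a * ρ c) * ρ a⁻¹ := by rw [ha' c hc]
          _ = (ρ a⁻¹ * ρ a) * ρ c * ρ a⁻¹ := by simp only [mul_assoc]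
          _ = ρ c * ρ a⁻¹ := by rw [ρ_inv_mul, one_mul] }
  have hDn : D.Normal := by
    constructor
    rintro a ⟨ha, ha'⟩ g
    refine ⟨Subgroup.Normal.conj_mem inferInstance a ha g, fun b hb => ?_⟩
    have hb1 : g⁻¹ * b * g ∈ C := by
      have := Subgroup.Normal.conj_mem (inferInstance : C.Normal) b hb g⁻¹
      simpa using this
    have h1 := ha' _ hb1
    rw [← map_mul, ← map_mul] at h1 ⊢
    have h2 : g * a * g⁻¹ * b = g * (a * (g⁻¹ * b * g)) * g⁻¹ := by group
    have h3 : b * (g * a * g⁻¹) = g * ((g⁻¹ * b * g) * a) * g⁻¹ := by group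
    rw [h2, h3, map_mul, map_mul, h1, ← map_mul, ← map_mul]
  have hDscal : ∀ a ∈ D, Scal ρ a := scal_of_comm ρ hirr D (fun a ha b hb => ha.2 b hb.1)
  -- the quotient
  have hnorm : (D.subgroupOf C).Normal := inferInstance
  have hfin : Finite (C ⧸ D.subgroupOf C) := by
    have hcomm : ∀ a b : C ⧸ D.subgroupOf C, a * b = b * a := by
      intro a b
      induction a using QuotientGroup.induction_on with | H a => ?_
      induction b using QuotientGroup.induction_on with | H b => ?_
      rw [← QuotientGroup.mk_mul, ← QuotientGroup.mk_mul, QuotientGroup.eq,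
        Subgroup.mem_subgroupOf]
      refine ⟨SetLike.coe_mem _, fun c hc => ?_⟩
      obtain ⟨l, hl⟩ := hC (b : Γ)⁻¹ (C.inv_mem b.2) (a : Γ)⁻¹ (C.inv_mem a.2)
      have h1 : (((a * b)⁻¹ * (b * a) : C) : Γ) = ⁅(b : Γ)⁻¹, (a : Γ)⁻¹⁆ := by
        rw [commutatorElement_def]; push_cast; group
      rw [h1, hl]; simp
    letI : CommGroup (C ⧸ D.subgroupOf C) :=
      { (inferInstance : Group (C ⧸ D.subgroupOf C)) with mul_comm := hcomm }
    have hfgC : Group.FG C := (Group.fg_iff_subgroup_fg C).2 hfg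
    have hfgQ : Group.FG (C ⧸ D.subgroupOf C) := QuotientGroup.fg _
    refine CommGroup.finite_of_fg_isMulTorsion _ ?_
    intro q
    rw [isOfFinOrder_iff_pow_eq_one]
    refine ⟨d, hdpos, ?_⟩
    induction q using QuotientGroup.induction_on with | H a => ?_
    rw [← QuotientGroup.mk_pow, QuotientGroup.eq_one_iff, Subgroup.mem_subgroupOf]
    refine ⟨SetLike.coe_mem _, fun c hc => ?_⟩
    obtain ⟨l, hl1, hl⟩ := hlam a a.2 c hc
    have h2 : ∀ k : ℕ, ρ a ^ k * ρ c = l ^ k • (ρ c * ρ a ^ k) := by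
      intro k
      induction k with
      | zero => simp
      | succ k ih =>
        rw [pow_succ', mul_assoc, ih, mul_smul_comm, ← mul_assoc, hl, smul_mul_assoc, smul_smul,
          ← pow_succ, mul_assoc, ← pow_succ']
    push_cast
    rw [map_pow, h2 d, hl1, one_smul]
  intro c hc
  refine scal_of_finite_orbit ρ hirr c ?_
  have hsub : (Set.range fun g => ρ (g * c * g⁻¹)) ⊆
      ⋃ q : C ⧸ D.subgroupOf C, (fun z : ℂ => z • ρ (q.out : Γ)) ''
        {z : ℂ | z ^ d = LinearMap.det (ρ c) / LinearMap.det (ρ (q.out : Γ))} := by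
    rintro _ ⟨g, rfl⟩
    have hx : g * c * g⁻¹ ∈ C := Subgroup.Normal.conj_mem inferInstance c hc g
    refine Set.mem_iUnion.2 ⟨((⟨g * c * g⁻¹, hx⟩ : C) : C ⧸ D.subgroupOf C), ?_⟩
    set q : C ⧸ D.subgroupOf C := ((⟨g * c * g⁻¹, hx⟩ : C) : C ⧸ D.subgroupOf C) with hq
    have h1 : ((q.out : C) : C ⧸ D.subgroupOf C) = ((⟨g * c * g⁻¹, hx⟩ : C) : C ⧸ _) := by
      rw [← hq]; simp
    rw [QuotientGroup.eq, Subgroup.mem_subgroupOf] at h1
    obtain ⟨z, hz⟩ := hDscal _ h1
    have h2 : ρ (g * c * g⁻¹) = z • ρ (q.out : Γ) := by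
      have h3 : g * c * g⁻¹ = (q.out : Γ) * ((((q.out : C))⁻¹ * ⟨g * c * g⁻¹, hx⟩ : C) : Γ) := by
        push_cast; group
      rw [h3, map_mul, hz, mul_smul_comm, mul_one]
    refine ⟨z, ?_, h2.symm⟩
    have h4 := congrArg LinearMap.det h2
    rw [det_comm, LinearMap.det_smul] at h4
    change z ^ d = _
    rw [h4, mul_div_assoc, div_self (det_ne_zero ρ _), mul_one]
  refine Set.Finite.subset (Set.finite_iUnion fun q => ?_) hsub
  exact (finite_roots hdpos _).image _

/-- A strongly irreducible representation of a solvable group with all subgroups finitely generated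
is by scalars. -/
theorem scal_of_strongIrr [Nontrivial V] (hirr : StrongIrr ρ) (hs : Group.IsSolvable Γ)
    (hfg : ∀ H : Subgroup Γ, H.FG) : ∀ a, Scal ρ a := by
  obtain ⟨n, hn⟩ := hs.solvable
  have key : ∀ i, i ≤ n → ∀ a ∈ derivedSeries Γ (n - i), Scal ρ a := by
    intro i
    induction i with
    | zero =>
      intro _ a ha
      rw [Nat.sub_zero, hn, Subgroup.mem_bot] at ha
      subst ha
      exact ⟨1, by simp⟩
    | succ i ih =>
      intro hi
      refine scal_of_commutator ρ hirr _ (hfg _) ?_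
      intro a ha b hb
      refine ih (by omega) _ ?_
      have : n - i = (n - (i + 1)) + 1 := by omega
      rw [this, derivedSeries_succ]
      exact Subgroup.commutator_mem_commutator ha hb
  intro a
  refine key n le_rfl a ?_
  rw [Nat.sub_self, derivedSeries_zero]; trivial

omit [FiniteDimensional ℂ V] in
/-- A finite index subgroup preserves a full flag, and acts on the quotients by scalars. -/
def HasFlag : Prop :=
  ∃ Γ1 : Subgroup Γ, Γ1.FiniteIndex ∧ ∃ (F : ℕ → Submodule ℂ V) (m : ℕ), F 0 = ⊥ ∧ F m = ⊤ ∧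
    Monotone F ∧ ∀ g ∈ Γ1, ∀ i, ∃ c : ℂ, ∀ x ∈ F (i + 1), ρ g x - c • x ∈ F i


/-- restriction of a representation to an invariant subspace -/
def resRep (H : Subgroup Γ) (W : Submodule ℂ V) (hW : ∀ g ∈ H, ∀ x ∈ W, ρ g x ∈ W) :
    H →* Module.End ℂ W where
  toFun g := (ρ g).restrict (hW g g.2)
  map_one' := by ext x; simp
  map_mul' a b := by ext x; simp

/-- the quotient of a representation by an invariant subspace -/
def quoRep (H : Subgroup Γ) (W : Submodule ℂ V) (hW : ∀ g ∈ H, ∀ x ∈ W, ρ g x ∈ W) :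
    H →* Module.End ℂ (V ⧸ W) where
  toFun g := W.mapQ W (ρ g) (fun x hx => hW g g.2 x hx)
  map_one' := by
    apply Submodule.linearMap_qext
    ext x; simp
  map_mul' a b := by
    apply Submodule.linearMap_qext
    ext x; simp

theorem finiteIndex_map_subtype (H : Subgroup Γ) (K : Subgroup H) (hH : H.FiniteIndex)
    (hK : K.FiniteIndex) : (K.map H.subtype).FiniteIndex := by
  refine ⟨?_⟩
  rw [Subgroup.index_map, Subgroup.ker_subtype, sup_bot_eq, Subgroup.range_subtype]
  exact mul_ne_zero hK.index_ne_zero hH.index_ne_zero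

theorem hasFlag_combine (H : Subgroup Γ) (hH : H.FiniteIndex) (W : Submodule ℂ V)
    (hW : ∀ g ∈ H, ∀ x ∈ W, ρ g x ∈ W) (h1 : HasFlag (resRep ρ H W hW))
    (h2 : HasFlag (quoRep ρ H W hW)) : HasFlag ρ := by
  obtain ⟨Γ1, hΓ1, F, m, hF0, hFm, hFmono, hF⟩ := h1
  obtain ⟨Γ2, hΓ2, E, k, hE0, hEk, hEmono, hE⟩ := h2
  refine ⟨(Γ1 ⊓ Γ2).map H.subtype, finiteIndex_map_subtype H _ hH inferInstance,
    fun i => if i ≤ m then (F i).map W.subtype else (E (i - m)).comap W.mkQ, m + k, ?_, ?_, ?_, ?_⟩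
  · simp [hF0]
  · by_cases hk : k = 0
    · subst hk
      simp only [add_zero, le_refl, if_true, hFm, Submodule.map_top, Submodule.range_subtype]
      have h3 : (E 0).comap W.mkQ = (⊤ : Submodule ℂ (V ⧸ W)).comap W.mkQ := by rw [hEk]
      rw [hE0] at h3
      simpa using h3
    · have : ¬ (m + k ≤ m) := by omega
      simp only [this, if_false]
      have e : m + k - m = k := by omega
      rw [e, hEk, Submodule.comap_top]
  · apply monotone_nat_of_le_succ
    intro i
    by_cases h1 : i + 1 ≤ m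
    · have h2 : i ≤ m := by omega
      simp only [h1, h2, if_true]
      exact Submodule.map_mono (hFmono (Nat.le_succ i))
    · by_cases h2 : i ≤ m
      · simp only [h1, h2, if_true, if_false]
        rintro _ ⟨x, _, rfl⟩
        rw [Submodule.mem_comap]
        have h3 : W.mkQ (W.subtype x) = 0 := by simp
        rw [h3]
        exact zero_mem _
      · simp only [h1, h2, if_false]
        exact Submodule.comap_mono (hEmono (by omega))
  · rintro _ ⟨g, hg, rfl⟩ i
    obtain ⟨hg1, hg2⟩ := hg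
    by_cases h1 : i + 1 ≤ m
    · have h2 : i ≤ m := by omega
      obtain ⟨c, hc⟩ := hF g hg1 i
      refine ⟨c, ?_⟩
      simp only [h1, h2, if_true]
      rintro _ ⟨x, hx, rfl⟩
      exact ⟨_, hc x hx, by simp [resRep]⟩
    · obtain ⟨c, hc⟩ := hE g hg2 (i - m)
      refine ⟨c, ?_⟩
      by_cases h2 : i ≤ m
      · simp only [h1, h2, if_true, if_false]
        have e : m = i := by omega
        subst e
        rw [hFm, Submodule.map_top, Submodule.range_subtype]
        intro x hx
        rw [Submodule.mem_comap] at hx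
        have e2 : m + 1 - m = m - m + 1 := by omega
        rw [e2] at hx
        have h3 := hc _ hx
        rw [Nat.sub_self, hE0, Submodule.mem_bot] at h3
        rw [← Submodule.Quotient.mk_eq_zero]
        simpa [quoRep] using h3
      · simp only [h1, h2, if_false]
        intro x hx
        rw [Submodule.mem_comap] at hx ⊢
        have e2 : i + 1 - m = i - m + 1 := by omega
        rw [e2] at hx
        have h3 := hc _ hx
        simpa [quoRep] using h3

end rep

/-- **Lie-Kolchin-Malcev.** -/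
theorem exists_flag {V : Type v} [AddCommGroup V] [Module ℂ V] [FiniteDimensional ℂ V]
    {Γ : Type u} [Group Γ] (ρ : Γ →* Module.End ℂ V) (hs : Group.IsSolvable Γ)
    (hfg : ∀ H : Subgroup Γ, H.FG) : HasFlag ρ := by
  classical
  generalize hn : finrank ℂ V = n
  induction n using Nat.strong_induction_on generalizing V Γ with
  | _ n ih =>
  rcases subsingleton_or_nontrivial V with hV | hV
  · refine ⟨⊤, inferInstance, fun _ => ⊤, 0, Subsingleton.elim _ _, rfl, fun _ _ _ => le_rfl, ?_⟩
    intro g _ i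
    exact ⟨0, fun x _ => trivial⟩
  by_cases hirr : StrongIrr ρ
  · have hsc := scal_of_strongIrr ρ hirr hs hfg
    refine ⟨⊤, inferInstance, fun i => if i = 0 then ⊥ else ⊤, 1, by simp, by simp, ?_, ?_⟩
    · apply monotone_nat_of_le_succ
      intro i
      simp
    · intro g _ i
      obtain ⟨c, hc⟩ := hsc g
      refine ⟨c, fun x _ => ?_⟩
      rw [hc]; simp
  · unfold StrongIrr at hirr
    push Not at hirr
    obtain ⟨H, hH, W, hW, hW0, hW1⟩ := hirr
    have hsol : Group.IsSolvable H := inferInstance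
    have hfgH : ∀ K : Subgroup H, K.FG := by
      intro K
      have h1 := hfg (K.map H.subtype)
      rw [Subgroup.fg_iff_submonoid_fg] at h1 ⊢
      exact Submonoid.FG.map_injective H.subtype H.subtype_injective h1
    have hlt1 : finrank ℂ W < n := hn ▸ Submodule.finrank_lt hW1
    have hlt2 : finrank ℂ (V ⧸ W) < n := by
      have h1 := Submodule.finrank_quotient_add_finrank W
      have h2 : 0 < finrank ℂ W := by
        have : Nontrivial W := Submodule.nontrivial_iff_ne_bot.2 hW0
        exact finrank_pos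
      omega
    exact hasFlag_combine ρ H hH W hW (ih _ hlt1 (resRep ρ H W hW) hsol hfgH rfl)
      (ih _ hlt2 (quoRep ρ H W hW) hsol hfgH rfl)

end Vale.Agent.P188.H754
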