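import Vale.Agent.P188.H754.Neu4

/-!
# P188, block NEU, part 5: the comparison along paths with bounded heights
-/

set_option linter.all false

universe u v w

open Real

namespace Vale.Agent.P188.H754

open Vale.Agent.P188.H530 (Crossed)

namespace NM

variable {S : Type u} {Γ : Type v} {Ht : Type w} [Group S] [Group Γ]
  [NormedAddCommGroup Ht] [NormedSpace ℝ Ht] (M : NM S Γ Ht)

/-- one-sided bounds on all generating weights give a bound of the norm -/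
theorem two_sided : ∃ C : ℝ, 1 ≤ C ∧ ∀ (v : Ht) (r : ℝ), 0 ≤ r →
    (∀ b : M.Φ, -r ≤ (b : Ht →L[ℝ] ℝ) v) → ‖v‖ ≤ C * r := by
  classical
  have hC := M.C0_pos
  have hC1 := M.one_le_C0
  obtain ⟨H, hH⟩ : ∃ H : ℝ, H = ∑ b ∈ M.Φ, M.hw b := ⟨_, rfl⟩
  have hH0 : 0 ≤ H := by
    rw [hH]; exact Finset.sum_nonneg fun b hb => (M.hw_pos b hb).le
  obtain ⟨C7, hC7⟩ : ∃ C7 : ℝ, C7 = 1 + ∑ b ∈ M.Φ, H / M.hw b := ⟨_, rfl⟩
  have hq : ∀ b ∈ M.Φ, 0 ≤ H / M.hw b := fun b hb => div_nonneg hH0 (M.hw_pos b hb).le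
  have hC71 : 1 ≤ C7 := by
    rw [hC7]
    have := Finset.sum_nonneg hq
    linarith
  refine ⟨M.C0 * C7, by nlinarith, fun v r hr h => ?_⟩
  rw [mul_assoc]
  refine M.Φ_norm v (C7 * r) (by positivity) fun b hb => ?_
  rw [abs_le]
  constructor
  · have := h ⟨b, hb⟩
    have h2 : r ≤ C7 * r := le_mul_of_one_le_left hr hC71
    simp only at this
    linarith
  · have h1 := M.hw_sum v
    rw [← Finset.add_sum_erase _ _ hb] at h1
    have h2 : -(H * r) ≤ ∑ x ∈ M.Φ.erase b, M.hw x * x v := by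
      have h3 : ∑ x ∈ M.Φ.erase b, -(M.hw x * r) ≤ ∑ x ∈ M.Φ.erase b, M.hw x * x v := by
        refine Finset.sum_le_sum fun x hx => ?_
        have h4 := h ⟨x, Finset.mem_of_mem_erase hx⟩
        have h5 := M.hw_pos x (Finset.mem_of_mem_erase hx)
        simp only at h4
        have : M.hw x * (-r) ≤ M.hw x * x v := mul_le_mul_of_nonneg_left h4 h5.le
        linarith
      rw [Finset.sum_neg_distrib, ← Finset.sum_mul] at h3
      have h4 : ∑ x ∈ M.Φ.erase b, M.hw x ≤ H := by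
        rw [hH]
        exact Finset.sum_le_sum_of_subset_of_nonneg (Finset.erase_subset _ _)
          fun x hx _ => (M.hw_pos x hx).le
      have h5 : (∑ x ∈ M.Φ.erase b, M.hw x) * r ≤ H * r := mul_le_mul_of_nonneg_right h4 hr
      linarith
    have h6 := M.hw_pos b hb
    have h7 : M.hw b * b v ≤ H * r := by linarith
    have h8 : b v ≤ H / M.hw b * r := by
      rw [div_mul_eq_mul_div, le_div_iff₀ h6]
      linarith
    have h9 : H / M.hw b ≤ C7 := by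
      rw [hC7]
      have := Finset.single_le_sum (f := fun b => H / M.hw b) hq hb
      linarith
    exact h8.trans (mul_le_mul_of_nonneg_right h9 hr)

/-- elementary: from the inequality of exponentials to the one of heights -/
theorem exp_compare {h0 h1 ρ Ci Cs Cu C4 R δ : ℝ} (hδ : 1 ≤ δ) (hCi : 1 ≤ Ci) (hC4 : 1 ≤ C4)
    (hCs : Cs * δ ≤ R) (hCi2 : Ci ≤ R) (hR : 1 ≤ R) (hρ : ρ = (C4 + Ci + 3) * R)
    (h : exp (h0 + ρ - Ci) ≤ exp (h0 + Ci) + exp (h0 + Cs * δ) + 2 * exp (h0 + C4 * R) +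
      exp (h1 + ρ + Cu * δ)) : h0 ≤ h1 + (Ci + Cu + 1) * δ := by
  have e8 : (8 : ℝ) ≤ exp 3 := by
    have h2 : (2 : ℝ) ≤ exp 1 := by have := add_one_le_exp (1 : ℝ); linarith
    have h3 : exp 3 = exp 1 * exp 1 * exp 1 := by
      rw [← exp_add, ← exp_add]; norm_num
    rw [h3]
    nlinarith
  have hR4 : R ≤ C4 * R := le_mul_of_one_le_left (by linarith) hC4
  have a1 : exp (h0 + Ci) ≤ exp (h0 + C4 * R) := exp_le_exp.2 (by linarith)
  have a2 : exp (h0 + Cs * δ) ≤ exp (h0 + C4 * R) := exp_le_exp.2 (by linarith)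
  have a3 : 8 * exp (h0 + C4 * R) ≤ exp (h0 + ρ - Ci) := by
    have e1 : exp 3 * exp (h0 + C4 * R) ≤ exp (h0 + ρ - Ci) := by
      rw [← exp_add]
      refine exp_le_exp.2 ?_
      have : Ci ≤ Ci * R := le_mul_of_one_le_right (by linarith) hR
      rw [hρ]
      linarith
    have := exp_pos (h0 + C4 * R)
    nlinarith
  have a4 : exp (h0 + ρ - Ci) ≤ 2 * exp (h1 + ρ + Cu * δ) := by linarith
  have a5 : exp (h0 + ρ - Ci) ≤ exp (h1 + ρ + Cu * δ + 1) := by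
    rw [exp_add _ (1 : ℝ)]
    have h2 : (2 : ℝ) ≤ exp 1 := by have := add_one_le_exp (1 : ℝ); linarith
    have := exp_pos (h1 + ρ + Cu * δ)
    nlinarith
  have a6 := exp_le_exp.1 a5
  have a7 : Ci ≤ Ci * δ := le_mul_of_one_le_right (by linarith) hδ
  nlinarith

/-- **NEU.** Along a path with bounded heights in source and target, `f - T θ` changes little. -/
theorem neu {K L0 CT : ℝ} (hK : 0 ≤ K) (hL0 : 0 ≤ L0) (hCT : 0 ≤ CT) :
    ∃ B C : ℝ, 1 ≤ B ∧ 1 ≤ C ∧ ∀ F F' : Γ → Γ, M.QI K F F' → ∀ T T' : Ht →L[ℝ] Ht,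
    ‖T‖ ≤ CT → ‖T'‖ ≤ CT → (∀ v, T (T' v) = v) → ∀ (R δ : ℝ) (m : ℕ), 1 ≤ δ → C * δ ≤ R →
    (m : ℝ) + 1 ≤ exp δ → R + 1 ≤ exp δ → ∀ z : ℕ → S,
    (∀ i ≤ m, ∀ x, M.l x ≤ B * R → ‖M.f F (z i * x) - M.f F (z i) - T (M.θ x)‖ ≤ δ) →
    (∀ x, M.l x ≤ B * R → ‖M.f F' (M.inG (M.Ψ F (z 0)) * x) - M.f F' (M.inG (M.Ψ F (z 0))) -
      T' (M.θ x)‖ ≤ δ) →
    (∀ i < m, M.l ((z i)⁻¹ * z (i + 1)) ≤ L0) →
    (∀ i ≤ m, ‖M.θ (z i) - M.θ (z 0)‖ ≤ R) →
    (∀ i ≤ m, ‖M.f F (z i) - M.f F (z 0)‖ ≤ 2 * R) →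
    ‖M.f F (z m) - M.f F (z 0) - T (M.θ (z m) - M.θ (z 0))‖ ≤ C * δ := by
  have hC0 := M.C0_pos
  have hC01 := M.one_le_C0
  obtain ⟨C4, hC41, htr⟩ := M.transport K hL0
  obtain ⟨Ci, hCi1, hinv⟩ := M.inv_path hCT hK
  obtain ⟨Ct, hCt1, htwo⟩ := M.two_sided
  obtain ⟨k, hk⟩ : ∃ k : ℕ, k = ⌈M.C0 * Ci⌉₊ := ⟨_, rfl⟩
  have hk0 : (0 : ℝ) ≤ k := Nat.cast_nonneg _
  obtain ⟨C2, hC2⟩ : ∃ C2 : ℝ, C2 = C4 + Ci + 3 := ⟨_, rfl⟩
  have hC21 : 1 ≤ C2 := by rw [hC2]; linarith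
  obtain ⟨Q, hQ⟩ : ∃ Q : ℝ, Q = Ci * C2 + 1 := ⟨_, rfl⟩
  have hQ1 : 1 ≤ Q := by
    rw [hQ]
    have : 0 ≤ Ci * C2 := by positivity
    linarith
  obtain ⟨C3, hC3⟩ : ∃ C3 : ℝ, C3 = (Ci + M.C0 * k) * Q := ⟨_, rfl⟩
  have hC30 : 0 ≤ C3 := by rw [hC3]; positivity
  obtain ⟨Bt, hBt1, htr⟩ := htr C3 hC30
  have hkQ : 0 ≤ (k + 1) * Q := by positivity
  have hkC : 0 ≤ M.C0 * k := by positivity
  obtain ⟨C5, hC5⟩ : ∃ C5 : ℝ, C5 = C4 + (Ci + M.C0 * k) + C3 + (k + 1) * Q + Q := ⟨_, rfl⟩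
  have hC51 : 1 ≤ C5 := by rw [hC5]; linarith
  obtain ⟨Cs, hCs1, hsm⟩ := M.small_c hK hCT hC51
  obtain ⟨Cu, hCu1, hup⟩ := M.upper hK hCT hC51 k
  obtain ⟨B, hB⟩ : ∃ B : ℝ, B = Bt + Ci * C2 + Cs + C4 + Cu := ⟨_, rfl⟩
  have hCiC2 : 0 ≤ Ci * C2 := by positivity
  obtain ⟨C, hC⟩ : ∃ C : ℝ, C = Ct * (Ci + Cu + 1) + Cs + Ci + 1 := ⟨_, rfl⟩
  have hCt0 : 0 ≤ Ct * (Ci + Cu + 1) := by positivity
  refine ⟨B, C, by rw [hB]; linarith, by rw [hC]; linarith, ?_⟩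
  intro F F' hF T T' hT hT' hTT R δ m hδ hCR hm hR z hES hES' hstep hθ hf
  have hδR : δ ≤ R := by
    have : δ ≤ C * δ := le_mul_of_one_le_left (by linarith) (by rw [hC]; linarith)
    linarith
  have hR1 : 1 ≤ R := hδ.trans hδR
  have hR0 : 0 ≤ R := by linarith
  have hρ1 : 1 ≤ C2 * R := by nlinarith
  obtain ⟨ζ, y, n, hzm, hζ, hθζ, hn, hy, htr⟩ := htr F F' hF T R δ m hδ hδR hm hR z
    (fun i hi x hx => hES i hi x (hx.trans (mul_le_mul_of_nonneg_right (by rw [hB]; linarith) hR0)))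
    hstep hθ hf
  -- ES at the transported point
  have hESζ : ∀ x, M.l x ≤ Cu * R →
      ‖M.f F (z 0 * ζ * x) - M.f F (z 0 * ζ) - T (M.θ x)‖ ≤ 2 * δ := by
    intro x hx
    have a1 := hES m le_rfl (y⁻¹ * x) (by
      refine (M.l_mul _ _).trans ?_
      rw [M.l_inv]
      have : (C4 + Cu) * R ≤ B * R := mul_le_mul_of_nonneg_right (by rw [hB]; linarith) hR0
      linarith)
    have a2 := hES m le_rfl y⁻¹ (by
      rw [M.l_inv]
      have : C4 * R ≤ B * R := mul_le_mul_of_nonneg_right (by rw [hB]; linarith) hR0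
      linarith)
    have e1 : z m * (y⁻¹ * x) = z 0 * ζ * x := by rw [hzm]; group
    have e2 : z m * y⁻¹ = z 0 * ζ := by rw [hzm]; group
    rw [e1] at a1
    rw [e2] at a2
    have e3 : M.f F (z 0 * ζ * x) - M.f F (z 0 * ζ) - T (M.θ x) =
        (M.f F (z 0 * ζ * x) - M.f F (z m) - T (M.θ (y⁻¹ * x))) -
        (M.f F (z 0 * ζ) - M.f F (z m) - T (M.θ y⁻¹)) := by
      rw [M.θ_mul, map_add]; abel
    rw [e3]
    refine (norm_sub_le _ _).trans ?_
    linarith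
  -- comparison for every weight
  have hcmp : ∀ b : M.Φ, (b : Ht →L[ℝ] ℝ) (M.f F (z 0)) ≤
      (b : Ht →L[ℝ] ℝ) (M.f F (z 0 * ζ)) + (Ci + Cu + 1) * δ := by
    intro b
    obtain ⟨u, N, p, hu, hN, hp0, hp1, hp2, hp3, hp4⟩ := hinv F F' hF T' hT' b (C2 * R) δ hρ1 hδ
      (z 0) (fun x hx => hES' x (hx.trans (by
        rw [← mul_assoc]
        exact mul_le_mul_of_nonneg_right (by rw [hB]; linarith) hR0)))
    have hNQ : (N : ℝ) + 1 ≤ Q * R := by
      rw [hQ, add_mul, one_mul, mul_assoc]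
      linarith
    obtain ⟨ε, c, e, h1, h2, h3, h4, h5⟩ := M.pc_le (by linarith : 0 ≤ Ci) p N hp0 hp1
    rw [← hk] at h3 h5
    have hlp : ∀ i ≤ N, M.l (p i) ≤ Ci * (i + 1) := by
      intro i
      induction i with
      | zero => intro _; simpa using hp0
      | succ i ih =>
        intro hi
        have a1 := ih (by omega)
        have a2 := hp1 i (by omega)
        have e1 : p (i + 1) = p i * ((p i)⁻¹ * p (i + 1)) := by group
        rw [e1]
        refine (M.l_mul _ _).trans ?_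
        push_cast
        linarith
    have hlε : ∀ i ≤ N, M.l (ε i) ≤ (Ci + M.C0 * k) * (i + 1) := by
      intro i hi
      have e1 : ε i = p i * (c i)⁻¹ := eq_mul_inv_of_mul_eq (h1 i).symm
      rw [e1]
      refine (M.l_mul _ _).trans ?_
      rw [M.l_inv]
      have a1 := hlp i hi
      have a2 := M.CW_l _ _ (h3 i hi)
      push_cast at a2
      linarith
    have hlε3 : ∀ i ≤ N, M.l (ε i) ≤ C3 * R := by
      intro i hi
      refine (hlε i hi).trans ?_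
      rw [hC3, mul_assoc]
      refine mul_le_mul_of_nonneg_left ?_ (by linarith)
      have : (i : ℝ) ≤ N := by exact_mod_cast hi
      linarith
    have hC35 : C3 * R ≤ C5 * R := mul_le_mul_of_nonneg_right (by rw [hC5]; linarith) hR0
    have hCi5 : Ci * δ ≤ C5 * δ :=
      mul_le_mul_of_nonneg_right (by rw [hC5]; linarith) (by linarith)
    have b1 := hsm F F' hF T hT R δ hδ hδR hR (z 0) (ε N) (c N) (k * (N + 1)) (h2 N)
      ((hlε3 N le_rfl).trans hC35) (h3 N le_rfl) (by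
        push_cast
        have a1 : (k : ℝ) * (N + 1) + 1 ≤ (k + 1) * (Q * R) := by nlinarith
        refine a1.trans ?_
        rw [← mul_assoc]
        exact mul_le_mul_of_nonneg_right (by rw [hC5]; linarith) hR0)
      (by rw [h4]; exact hp3.trans hCi5)
      (fun x hx => hES 0 (Nat.zero_le _) x (hx.trans
        (mul_le_mul_of_nonneg_right (by rw [hB]; linarith) hR0))) b
    have b2 := htr b (ε N) (h2 N) (hlε3 N le_rfl)
    have b3 := htr b 1 M.E.one_mem (by rw [M.l_one]; positivity)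
    rw [mul_one] at b3
    have b4 := hup F F' hF T T' hT hTT R δ (C2 * R) hδ hδR hR (by linarith) (z 0) ζ n hζ hθζ
      (hn.trans (exp_le_exp.2 (mul_le_mul_of_nonneg_right (by rw [hC5]; linarith) (by linarith))))
      hESζ b u hu N ε c e (hNQ.trans (mul_le_mul_of_nonneg_right (by rw [hC5]; linarith) hR0)) h2 h3
      (fun i hi => (hlε3 i hi).trans hC35)
      (by
        have := hlε 0 (Nat.zero_le _)
        simp only [Nat.cast_zero, zero_add, mul_one] at this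
        refine this.trans ?_
        rw [hC5]; linarith)
      (fun i hi => by
        obtain ⟨s, hs, hs2⟩ := hp2 i hi
        exact ⟨s, hs, by rw [h4]; exact hs2.trans hCi5⟩)
      (fun i hi => by
        obtain ⟨a1, a2, a3, a4⟩ := h5 i hi
        exact ⟨a1, a2, a3.trans (by rw [hC5]; linarith), a4.trans (by rw [hC5]; linarith)⟩)
    -- sum up
    have e1 : z 0 * p N = z 0 * ε N * c N := by rw [h1 N, mul_assoc]
    rw [e1] at hp4
    refine exp_compare (ρ := C2 * R) (Cs := Cs) hδ hCi1 hC41 ?_ ?_ hR1 (by rw [hC2]) ?_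
    · refine le_trans ?_ hCR
      exact mul_le_mul_of_nonneg_right (by rw [hC]; linarith) (by linarith)
    · have a1 : Ci * 1 ≤ C * δ := mul_le_mul (by rw [hC]; linarith) hδ zero_le_one
        (by rw [hC]; linarith)
      linarith
    · refine hp4.trans ?_
      have t1 := norm_add_le ((M.cr b).D (M.Ψ F (z 0 * ε N * c N)) -
        (M.cr b).D (M.Ψ F (z 0 * ε N))) ((M.cr b).D (M.Ψ F (z 0 * ε N)) -
        (M.cr b).D (M.Ψ F (z 0)))
      have t2 := norm_add_le ((M.cr b).D (M.Ψ F (z 0 * ε N)) -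
        (M.cr b).D (M.Ψ F (z 0 * ε N * ζ))) ((M.cr b).D (M.Ψ F (z 0 * ε N * ζ)) -
        (M.cr b).D (M.Ψ F (z 0)))
      have t3 := norm_add_le ((M.cr b).D (M.Ψ F (z 0 * ε N * ζ)) -
        (M.cr b).D (M.Ψ F (z 0 * ζ))) ((M.cr b).D (M.Ψ F (z 0 * ζ)) -
        (M.cr b).D (M.Ψ F (z 0)))
      rw [sub_add_sub_cancel] at t1 t2 t3
      rw [norm_sub_rev ((M.cr b).D (M.Ψ F (z 0 * ε N)))
        ((M.cr b).D (M.Ψ F (z 0 * ε N * ζ)))] at t2
      linarith
  -- conclusion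
  have hv := htwo (M.f F (z 0 * ζ) - M.f F (z 0)) ((Ci + Cu + 1) * δ) (by positivity) (fun b => by
    rw [map_sub]
    have := hcmp b
    linarith)
  have a2 := hES m le_rfl y⁻¹ (by
    rw [M.l_inv]
    have : C4 * R ≤ B * R := mul_le_mul_of_nonneg_right (by rw [hB]; linarith) hR0
    linarith)
  have e2 : z m * y⁻¹ = z 0 * ζ := by rw [hzm]; group
  have e3 : M.θ y⁻¹ = -(M.θ (z m) - M.θ (z 0)) := by
    have : M.θ (z m) = M.θ (z 0) + 0 + M.θ y := by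
      conv_lhs => rw [hzm]
      rw [M.θ_mul, M.θ_mul, hθζ]
    rw [this, M.θ_inv]; abel
  rw [e2, e3, map_neg] at a2
  have e4 : M.f F (z m) - M.f F (z 0) - T (M.θ (z m) - M.θ (z 0)) =
      (M.f F (z 0 * ζ) - M.f F (z 0)) -
      (M.f F (z 0 * ζ) - M.f F (z m) - -T (M.θ (z m) - M.θ (z 0))) := by abel
  rw [e4]
  refine (norm_sub_le _ _).trans ((add_le_add hv a2).trans ?_)
  have : (Ct * (Ci + Cu + 1) + 1) * δ ≤ C * δ :=
    mul_le_mul_of_nonneg_right (by rw [hC]; linarith) (by linarith)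
  linarith

end NM

end Vale.Agent.P188.H754
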