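import Vale.Agent.P188.H754.NPath2
import Vale.Agent.P188.H754.Neu5
import Vale.Agent.P188.Z1.Extra

/-!
# P188, block NEU: the instance `NM` from the real model
-/

set_option linter.all false

open Set
open Agent.P188.H428 (IsLen)
open Vale.Agent.P188.H530 (hgt hgt_mul Crossed)
open Vale.Agent.P188.H789 (Bl Bl_mono Bl_finite)
open Vale.Agent.P188.Z1

namespace Vale.Agent.P188.H754

variable {S : Type} [Group S] [MeasurableSpace S] {Γ : Type} [Group Γ]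
  {V : Type} [AddCommGroup V] [Module ℝ V] {k : ℕ} (M : RModel S Γ V k)

theorem bd_le {U : ℝ} (hU : 0 ≤ U) (c n x : ℕ) (hx : x ≤ c * (n + 1)) :
    (bd M U x : ℝ) ≤ (M.C0 * U * (c + 1) ^ M.deg + 2) * (n + 1) ^ M.deg := by
  have hC := M.C0_pos
  unfold bd
  have h1 : (x : ℝ) ≤ c * (n + 1) := by exact_mod_cast hx
  have h2 : (0 : ℝ) ≤ M.C0 * (1 + x) ^ M.deg * U := by positivity
  have h3 := (Nat.ceil_lt_add_one h2).le
  have h4 : (1 + x : ℝ) ≤ (c + 1) * (n + 1) := by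
    have : (0 : ℝ) ≤ n := Nat.cast_nonneg _
    linarith
  have h5 : M.C0 * (1 + x : ℝ) ^ M.deg * U ≤ M.C0 * U * (c + 1) ^ M.deg * (n + 1) ^ M.deg := by
    calc M.C0 * (1 + x : ℝ) ^ M.deg * U ≤ M.C0 * ((c + 1) * (n + 1)) ^ M.deg * U := by gcongr
      _ = _ := by rw [mul_pow]; ring
  have h6 : (1 : ℝ) ≤ (n + 1 : ℝ) ^ M.deg := by
    refine one_le_pow₀ ?_
    have : (0 : ℝ) ≤ n := Nat.cast_nonneg _
    linarith
  push_cast
  linarith

/-- **Cartan paths.** -/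
theorem cpath_R : ∃ (C : ℝ) (D : ℕ), 1 ≤ C ∧ ∀ n : ℕ, ∀ c ∈ M.CB n, ∃ (m : ℕ) (p : ℕ → S),
    (m : ℝ) ≤ C * ((n : ℝ) + 1) ^ D ∧ p 0 = 1 ∧ p m = c ∧
    (∀ i < m, (M.l ((p i)⁻¹ * p (i + 1)) : ℝ) ≤ C) ∧
    ∀ i ≤ m, (M.l (p i) : ℝ) ≤ C * (n + 1) ∧ ‖M.θ (p i)‖ ≤ C * (‖M.θ c‖ + 1) := by
  have hC := M.C0_pos
  obtain ⟨Cl, hCl, hl⟩ := M.l_CB
  obtain ⟨U, hUd⟩ : ∃ U : ℝ, U = M.C0 * (1 + (4 : ℕ)) ^ M.deg + M.C0 * (1 + (1 + k : ℕ)) ^ M.deg :=
    ⟨_, rfl⟩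
  have hu1 : 0 ≤ M.C0 * (1 + (4 : ℕ)) ^ M.deg := by positivity
  have hu2 : 0 ≤ M.C0 * (1 + (1 + k : ℕ)) ^ M.deg := by positivity
  have hU : M.C0 * (1 + (4 : ℕ)) ^ M.deg ≤ U := by rw [hUd]; linarith
  have hU2 : M.C0 * (1 + (1 + k : ℕ)) ^ M.deg ≤ U := by rw [hUd]; linarith
  have hU0 : 0 ≤ U := hu1.trans hU
  obtain ⟨A, hA⟩ : ∃ A : ℝ, A = 4 * Cl + M.C0 * (1 + U) := ⟨_, rfl⟩
  have hA0 : 0 ≤ A := by rw [hA]; positivity
  -- radius
  obtain ⟨R5, hR5⟩ : ∃ R5 : ℝ, R5 = Cl * (1 + k) + 2 * (Cl * k) + M.C0 * (1 + U) +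
    k * (k * (A * (k + 2))) + k * Cl := ⟨_, rfl⟩
  have hR50 : 0 ≤ R5 := by rw [hR5]; positivity
  -- steps
  obtain ⟨B, hB⟩ : ∃ B : ℝ, B = M.C0 * U * ((k + 1 : ℕ) + 1) ^ M.deg + 2 := ⟨_, rfl⟩
  have hB0 : 0 ≤ B := by rw [hB]; positivity
  refine ⟨R5 + (B + k * (k * B) + k) + (2 * M.C0 + Cl) + k, M.deg + 2, ?_, ?_⟩
  · have : 0 ≤ (B + k * (k * B) + k) + (2 * M.C0) + (k : ℝ) := by positivity
    linarith
  intro n c hc
  have hn0 : (0 : ℝ) ≤ n := Nat.cast_nonneg _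
  obtain ⟨L, hL1, hL2, hL3⟩ := hc
  have hLm : ∀ a ∈ L, a ∈ M.CB 1 := fun a ha => ⟨[a], by simp, by simp, by
    intro b hb
    rw [List.mem_singleton] at hb
    subst hb
    exact hL3 b ha⟩
  have h1 := NP.neutral M hCl hl hU hU2 n L hL1 hLm
  rw [hL2] at h1
  have hcn : c ∈ M.CB n := ⟨L, hL1, hL2, hL3⟩
  have hθn : ‖M.θ c‖ ≤ n := by
    rw [pi_norm_le_iff_of_nonneg hn0]
    intro i
    have h2 := natAbs_CB M hcn i
    rw [Real.norm_eq_abs]
    unfold RModel.θ hgt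
    rw [← Int.cast_abs, Int.abs_eq_natAbs]
    exact_mod_cast h2
  obtain ⟨N, hN⟩ : ∃ N : ℕ, N = ⌈‖M.θ c‖⌉₊ := ⟨_, rfl⟩
  have hNn : N ≤ n := by rw [hN]; exact Nat.ceil_le.2 hθn
  have hNθ : (N : ℝ) ≤ ‖M.θ c‖ + 1 := by
    rw [hN]; exact (Nat.ceil_lt_add_one (norm_nonneg _)).le
  have hw : ∀ i, (Multiplicative.toAdd (M.η c) i).natAbs ≤ N := by
    intro i
    have h2 := norm_le_pi_norm (M.θ c) i
    rw [Real.norm_eq_abs] at h2
    unfold RModel.θ hgt at h2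
    rw [← Int.cast_abs, Int.abs_eq_natAbs] at h2
    have h3 := h2.trans (Nat.le_ceil _)
    rw [hN]
    exact_mod_cast h3
  have h2 := NP.sw_path M hl (exz_natAbs hw) k
  have hNR : (N : ℝ) ≤ n := by exact_mod_cast hNn
  have h3 := (h1.mono (C' := 2 * M.C0 + Cl) (by linarith) le_rfl le_rfl).mul'
    (h2.mono (C' := 2 * M.C0 + Cl) (by linarith) le_rfl le_rfl) (by positivity) (by positivity)
  have e : c * (sw M (exz (Multiplicative.toAdd (M.η c))) k)⁻¹ *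
      sw M (exz (Multiplicative.toAdd (M.η c))) k = c := by group
  rw [e] at h3
  obtain ⟨p, q0, q1, q2, q3⟩ := h3
  refine ⟨_, p, ?_, q0, q1, ?_, ?_⟩
  · -- number of steps
    push_cast
    have b1 := bd_le M hU0 (k + 1) n (k * (n + 1)) (Nat.mul_le_mul_right _ (Nat.le_succ k))
    have b2 := bd_le M hU0 (k + 1) n (k * (n + 1) + (n + 1)) (le_of_eq (by ring))
    rw [← hB] at b1 b2
    have hn1 : (1 : ℝ) ≤ n + 1 := by linarith
    have hp0 : (0 : ℝ) ≤ (n + 1 : ℝ) ^ M.deg := by positivity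
    have b3 : ((n : ℝ) + 1) * bd M U (k * (n + 1) + (n + 1)) ≤ B * (n + 1) ^ (M.deg + 1) := by
      rw [pow_succ]
      calc ((n : ℝ) + 1) * bd M U (k * (n + 1) + (n + 1)) ≤ (n + 1) * (B * (n + 1) ^ M.deg) := by
            gcongr
        _ = _ := by ring
    have b4 : (bd M U (k * (n + 1)) : ℝ) ≤ B * (n + 1) ^ (M.deg + 1) := by
      refine b1.trans ?_
      rw [pow_succ]
      have : B * (n + 1 : ℝ) ^ M.deg ≤ B * (n + 1) ^ M.deg * (n + 1) :=
        le_mul_of_one_le_right (by positivity) hn1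
      linarith
    have hLn : (L.length : ℝ) ≤ n + 1 := by
      have : (L.length : ℝ) ≤ n := by exact_mod_cast hL1
      linarith
    have b5 : (L.length : ℝ) * (bd M U (k * (n + 1)) +
        k * (k * (((n : ℝ) + 1) * bd M U (k * (n + 1) + (n + 1))))) ≤
        (n + 1) * ((B + k * (k * B)) * (n + 1) ^ (M.deg + 1)) := by
      refine mul_le_mul hLn ?_ (by positivity) (by linarith)
      have : (k : ℝ) * (k * (((n : ℝ) + 1) * bd M U (k * (n + 1) + (n + 1)))) ≤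
          k * (k * (B * (n + 1) ^ (M.deg + 1))) := by gcongr
      linarith
    have b6 : (k : ℝ) * N ≤ k * (n + 1) ^ (M.deg + 2) := by
      have : (n + 1 : ℝ) ≤ (n + 1) ^ (M.deg + 2) := le_self_pow₀ hn1 (by omega)
      gcongr
      linarith
    have e2 : (n + 1) * ((B + k * (k * B)) * (n + 1 : ℝ) ^ (M.deg + 1)) =
        (B + k * (k * B)) * (n + 1) ^ (M.deg + 2) := by ring
    rw [e2] at b5
    have h9 : 0 ≤ (R5 + (2 * M.C0 + Cl) + k) * (n + 1 : ℝ) ^ (M.deg + 2) := by positivity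
    linarith
  · intro i hi
    refine (q2 i hi).trans ?_
    have : 0 ≤ R5 + (B + k * (k * B) + k) + (k : ℝ) := by positivity
    linarith
  · intro i hi
    refine ⟨(q3 i hi).1.trans ?_, (q3 i hi).2.trans ?_⟩
    · rw [← hA]
      push_cast
      have c1 : Cl * (n + k * n) ≤ Cl * (1 + k) * (n + 1) := by
        have : 0 ≤ Cl * (1 + k) := by positivity
        nlinarith
      have c2 : k * (k * (A * (k * ((n : ℝ) + 1) + (n + 1) + 1))) ≤
          k * (k * (A * (k + 2))) * (n + 1) := by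
        have : A * (k * ((n : ℝ) + 1) + (n + 1) + 1) ≤ A * (k + 2) * (n + 1) := by
          have : 0 ≤ A * n := by positivity
          nlinarith
        calc k * (k * (A * (k * ((n : ℝ) + 1) + (n + 1) + 1))) ≤
            k * (k * (A * (k + 2) * (n + 1))) := by gcongr
          _ = _ := by ring
      have c3 : (k : ℝ) * (Cl * N) ≤ k * Cl * (n + 1) := by
        have : (N : ℝ) ≤ n + 1 := by linarith
        calc (k : ℝ) * (Cl * N) ≤ k * (Cl * (n + 1)) := by gcongr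
          _ = _ := by ring
      have c4 : M.C0 * (1 + U) ≤ M.C0 * (1 + U) * (n + 1) :=
        le_mul_of_one_le_right (by positivity) (by linarith)
      have c5 : R5 * (n + 1) = Cl * (1 + k) * (n + 1) + 2 * (Cl * k) * (n + 1) +
          M.C0 * (1 + U) * (n + 1) + k * (k * (A * (k + 2))) * (n + 1) + k * Cl * (n + 1) := by
        rw [hR5]; ring
      have h9 : 0 ≤ ((B + k * (k * B) + k) + (2 * M.C0 + Cl) + k) * (n + 1 : ℝ) := by positivity
      linarith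
    · rw [zero_add]
      have c1 : (k : ℝ) * N ≤ k * (‖M.θ c‖ + 1) := by gcongr
      have h9 : 0 ≤ (R5 + (B + k * (k * B) + k) + (2 * M.C0 + Cl)) * (‖M.θ c‖ + 1) := by positivity
      linarith

end Vale.Agent.P188.H754
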