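import Vale.Agent.P188.H754.Inst

/-!
# P188, block NEU: the instance `NM` from the real model, metric part
-/

set_option linter.all false

open Set
open Agent.P188.H428 (IsLen)
open Vale.Agent.P188.H530 (hgt hgt_mul Crossed)
open Vale.Agent.P188.H789 (Bl Bl_mono Bl_finite)
open Vale.Agent.P188.Z1

namespace Vale.Agent.P188.H754

variable {S : Type} [Group S] [MeasurableSpace S] {Γ : Type} [Group Γ]
  {V : Type} [AddCommGroup V] [Module ℝ V] {k : ℕ} (M : RModel S Γ V k)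

/-- products of many elements of `E` -/
theorem E_prod_R (hX : M.Extra) : ∃ C : ℝ, 0 ≤ C ∧ ∀ (L : ℝ) (es : List S), 0 ≤ L →
    (∀ e ∈ es, e ∈ M.E ∧ (M.l e : ℝ) ≤ L) →
    (M.l es.prod : ℝ) ≤ C * (L + Real.log (es.length + 1) + 1) := by
  classical
  obtain ⟨C, e', hC⟩ := hX.ex_list
  have hC0 := M.C0_pos
  refine ⟨2 * M.C0 * (|C| + e' * (1 + 2 * M.C0 + 1) + 1), by positivity, ?_⟩
  intro L es hL hes
  have hφ : ∀ s : S, ∃ v : V, s ∈ M.E → v ∈ M.e ∧ M.ex v = s := by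
    intro s
    by_cases h : s ∈ M.E
    · obtain ⟨v, hv, hv2⟩ := (M.mem_E s).1 h
      exact ⟨v, fun _ => ⟨hv, hv2⟩⟩
    · exact ⟨0, fun h' => absurd h' h⟩
  choose φ hφ using hφ
  have h1 : (es.map φ).map M.ex = es := by
    rw [List.map_map]
    conv_rhs => rw [← List.map_id es]
    refine List.map_congr_left fun a ha => ?_
    exact (hφ a (hes a ha).1).2
  obtain ⟨u, hu1, hu2⟩ := hC (Real.exp (M.C0 * (1 + L))) (Real.exp_pos _).le (es.map φ) (by
    intro v hv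
    obtain ⟨a, ha, rfl⟩ := List.mem_map.1 hv
    refine (M.met_lo _).trans ?_
    rw [(hφ a (hes a ha).1).2]
    refine Real.exp_le_exp.2 ?_
    have := (hes a ha).2
    gcongr)
  rw [h1] at hu1
  rw [List.length_map] at hu2
  have hmem : es.prod ∈ M.E := by
    refine Subgroup.list_prod_mem _ fun a ha => (hes a ha).1
  have hue : u ∈ M.e := by
    obtain ⟨v, hv, hv2⟩ := (M.mem_E _).1 hmem
    rw [← hu1] at hv2
    rwa [M.ex_inj hv2] at hv
  obtain ⟨n, hn⟩ : ∃ n : ℝ, n = es.length := ⟨_, rfl⟩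
  have hn0 : 0 ≤ n := by rw [hn]; exact Nat.cast_nonneg _
  rw [← hn] at hu2 ⊢
  have hlog : 0 ≤ Real.log (n + 1) := Real.log_nonneg (by linarith)
  have hE1 : (1 : ℝ) ≤ Real.exp (M.C0 * (1 + L)) := Real.one_le_exp (by positivity)
  have hx : 1 + Real.exp (M.C0 * (1 + L)) + n ≤
      Real.exp (1 + M.C0 * (1 + L) + Real.log (n + 1)) := by
    rw [Real.exp_add, Real.exp_add, Real.exp_log (by linarith)]
    have h2 : (2 : ℝ) ≤ Real.exp 1 := by have := Real.add_one_le_exp (1 : ℝ); linarith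
    have h3 : 1 + Real.exp (M.C0 * (1 + L)) + n ≤ (2 * Real.exp (M.C0 * (1 + L))) * (n + 1) := by
      nlinarith
    refine h3.trans ?_
    gcongr
  have hnm : M.nm u ≤ Real.exp (|C| + e' * (1 + M.C0 * (1 + L) + Real.log (n + 1))) := by
    refine hu2.trans ?_
    rw [Real.exp_add, Real.exp_nat_mul]
    have h2 : C ≤ Real.exp |C| := (le_abs_self C).trans
      ((by linarith : |C| ≤ |C| + 1).trans (Real.add_one_le_exp _))
    have h3 : (0 : ℝ) ≤ 1 + Real.exp (M.C0 * (1 + L)) + n := by positivity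
    calc C * (1 + Real.exp (M.C0 * (1 + L)) + n) ^ e' ≤
        Real.exp |C| * (1 + Real.exp (M.C0 * (1 + L)) + n) ^ e' := by gcongr
      _ ≤ _ := by gcongr
  rw [← hu1]
  refine (M.len_e hue (by positivity) hnm).trans ?_
  rw [mul_assoc (2 * M.C0)]
  refine mul_le_mul_of_nonneg_left ?_ (by positivity)
  obtain ⟨X, hXd⟩ : ∃ X : ℝ, X = L + Real.log (n + 1) + 1 := ⟨_, rfl⟩
  have hX1 : 1 ≤ X := by rw [hXd]; linarith
  have a1 : |C| + 1 ≤ (|C| + 1) * X := le_mul_of_one_le_right (by positivity) hX1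
  have a2 : 1 + M.C0 * (1 + L) + Real.log (n + 1) ≤ (1 + 2 * M.C0 + 1) * X := by
    have b1 : M.C0 * (1 + L) ≤ 2 * M.C0 * X := by
      have : M.C0 * (1 + L) ≤ M.C0 * (2 * X) := by
        refine mul_le_mul_of_nonneg_left ?_ hC0.le
        rw [hXd]; linarith
      linarith
    have b2 : Real.log (n + 1) ≤ X := by rw [hXd]; linarith
    linarith
  have a3 : (e' : ℝ) * (1 + M.C0 * (1 + L) + Real.log (n + 1)) ≤
      e' * ((1 + 2 * M.C0 + 1) * X) := mul_le_mul_of_nonneg_left a2 (Nat.cast_nonneg _)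
  rw [← hXd]
  linarith

/-- conjugation of elements of `E` by Cartan words -/
theorem con_R : ∃ C : ℝ, 0 ≤ C ∧ ∀ n : ℕ, ∀ c ∈ M.CB n, ∀ s ∈ M.E,
    (M.l (c * s * c⁻¹) : ℝ) ≤ C * (M.l s + ‖M.θ c‖ + Real.log (n + 1) + 1) := by
  classical
  have hC0 := M.C0_pos
  obtain ⟨Cb, hCb0, hCb⟩ : ∃ Cb : ℝ, 0 ≤ Cb ∧ ∀ b ∈ M.Φ, ‖b‖ ≤ Cb := by
    refine ⟨∑ b ∈ M.Φ, ‖b‖, Finset.sum_nonneg fun _ _ => norm_nonneg _, fun b hb => ?_⟩
    exact Finset.single_le_sum (f := fun b : Z1.Ht k →L[ℝ] ℝ => ‖b‖) (fun _ _ => norm_nonneg _) hb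
  obtain ⟨Cz, hCz⟩ : ∃ Cz : ℝ, Cz = M.C0 * (1 + M.C0) + 2 * M.C0 + M.deg + Cb := ⟨_, rfl⟩
  have hCz0 : 0 ≤ Cz := by rw [hCz]; positivity
  refine ⟨M.mE * (2 * M.C0 * (Cz + 1)), by positivity, ?_⟩
  intro n c hc s hs
  obtain ⟨v, hv, rfl⟩ := (M.mem_E s).1 hs
  obtain ⟨x, hx, hvx⟩ := M.gen_e v hv
  obtain ⟨ℓ, hℓ⟩ : ∃ ℓ : ℝ, ℓ = M.l (M.ex v) := ⟨_, rfl⟩
  have hℓ0 : 0 ≤ ℓ := by rw [hℓ]; exact Nat.cast_nonneg _
  rw [← hℓ]
  have hn0 : (0 : ℝ) ≤ n := Nat.cast_nonneg _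
  have hlog : 0 ≤ Real.log ((n : ℝ) + 1) := Real.log_nonneg (by linarith)
  obtain ⟨X, hXd⟩ : ∃ X : ℝ, X = ℓ + ‖M.θ c‖ + Real.log (n + 1) + 1 := ⟨_, rfl⟩
  have hθ0 := norm_nonneg (M.θ c)
  have hX1 : 1 ≤ X := by rw [hXd]; linarith
  rw [← hXd]
  -- one letter
  have hone : ∀ t, (M.l (c * M.ex (x t • M.X (M.jE t)) * c⁻¹) : ℝ) ≤
      2 * M.C0 * (Cz + 1) * X := by
    intro t
    have hb : M.wt (M.jE t) ∈ M.Φ := (M.wt_mem _).resolve_right (M.jE_ne t)
    rw [← M.ex_Ad, map_smul]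
    have h1 : M.Ad c (M.X (M.jE t)) ∈ M.Vw (M.wt (M.jE t)) := M.Ad_CB hc (M.X_mem _)
    have h2 : x t • M.Ad c (M.X (M.jE t)) ∈ M.e :=
      Submodule.smul_mem _ _ (M.Vw_e _ (M.jE_ne t) h1)
    have h3 := M.C_le n c hc _ (M.Φ_sub hb) _ (M.X_mem (M.jE t))
    have hnm : M.nm (x t • M.Ad c (M.X (M.jE t))) ≤ Real.exp (Cz * X) := by
      rw [map_smul_eq_mul, Real.norm_eq_abs]
      have b1 : |x t| ≤ Real.exp M.C0 * Real.exp ((1 + M.C0 * (1 + ℓ)) * M.C0) := by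
        refine (hx t).trans ?_
        have c1 : M.C0 ≤ Real.exp M.C0 :=
          (by linarith : M.C0 ≤ M.C0 + 1).trans (Real.add_one_le_exp _)
        have c2 : 1 + M.nm v ≤ Real.exp (1 + M.C0 * (1 + ℓ)) := by
          have := M.met_lo v
          rw [← hℓ] at this
          rw [Real.exp_add]
          have h2 : (2 : ℝ) ≤ Real.exp 1 := by have := Real.add_one_le_exp (1 : ℝ); linarith
          have h3 : 1 ≤ Real.exp (M.C0 * (1 + ℓ)) := Real.one_le_exp (by positivity)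
          nlinarith
        have c3 : (1 + M.nm v) ^ M.C0 ≤ Real.exp ((1 + M.C0 * (1 + ℓ)) * M.C0) := by
          rw [Real.exp_mul]
          exact Real.rpow_le_rpow (by have := M.nm_nonneg v; linarith) c2 hC0.le
        have c4 : 0 ≤ (1 + M.nm v) ^ M.C0 := Real.rpow_nonneg (by
          have := M.nm_nonneg v; linarith) _
        gcongr
      have b2 : M.nm (M.Ad c (M.X (M.jE t))) ≤ Real.exp M.C0 *
          Real.exp (M.deg * Real.log ((n : ℝ) + 1)) * Real.exp (Cb * ‖M.θ c‖) := by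
        refine h3.trans ?_
        have c1 : M.C0 ≤ Real.exp M.C0 :=
          (by linarith : M.C0 ≤ M.C0 + 1).trans (Real.add_one_le_exp _)
        have c2 : (1 + (n : ℝ)) ^ M.deg = Real.exp (M.deg * Real.log ((n : ℝ) + 1)) := by
          rw [Real.exp_nat_mul, Real.exp_log (by linarith), add_comm]
        have c3 : (M.wt (M.jE t)) (hgt M.η c) ≤ Cb * ‖M.θ c‖ := by
          refine (le_abs_self _).trans ?_
          rw [← Real.norm_eq_abs]
          refine ((M.wt (M.jE t)).le_opNorm _).trans ?_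
          exact mul_le_mul_of_nonneg_right (hCb _ hb) (norm_nonneg _)
        rw [c2]
        have c4 := M.X_le (M.jE t)
        have c5 := M.nm_nonneg (M.X (M.jE t))
        calc M.C0 * Real.exp (M.deg * Real.log ((n : ℝ) + 1)) *
              Real.exp ((M.wt (M.jE t)) (hgt M.η c)) * M.nm (M.X (M.jE t)) ≤
            Real.exp M.C0 * Real.exp (M.deg * Real.log ((n : ℝ) + 1)) *
              Real.exp (Cb * ‖M.θ c‖) * 1 := by gcongr
          _ = _ := mul_one _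
      have b3 : (0 : ℝ) ≤ M.nm (M.Ad c (M.X (M.jE t))) := M.nm_nonneg _
      calc |x t| * M.nm (M.Ad c (M.X (M.jE t))) ≤
          (Real.exp M.C0 * Real.exp ((1 + M.C0 * (1 + ℓ)) * M.C0)) * (Real.exp M.C0 *
            Real.exp (M.deg * Real.log ((n : ℝ) + 1)) * Real.exp (Cb * ‖M.θ c‖)) := by gcongr
        _ = Real.exp (M.C0 + (1 + M.C0 * (1 + ℓ)) * M.C0 + (M.C0 +
            M.deg * Real.log ((n : ℝ) + 1) + Cb * ‖M.θ c‖)) := by
            rw [← Real.exp_add, ← Real.exp_add, ← Real.exp_add, ← Real.exp_add]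
        _ ≤ _ := by
            refine Real.exp_le_exp.2 ?_
            have d1 : 2 * M.C0 ≤ 2 * M.C0 * X := le_mul_of_one_le_right (by positivity) hX1
            have d2 : (1 + M.C0 * (1 + ℓ)) * M.C0 ≤ M.C0 * (1 + M.C0) * X := by
              have e1 : 1 + M.C0 * (1 + ℓ) ≤ (1 + M.C0) * X := by
                have e2 : 1 + ℓ ≤ X := by rw [hXd]; linarith
                have e3 : M.C0 * (1 + ℓ) ≤ M.C0 * X := by gcongr
                linarith
              calc (1 + M.C0 * (1 + ℓ)) * M.C0 ≤ (1 + M.C0) * X * M.C0 := by gcongr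
                _ = _ := by ring
            have d3 : (M.deg : ℝ) * Real.log ((n : ℝ) + 1) ≤ M.deg * X := by
              refine mul_le_mul_of_nonneg_left ?_ (Nat.cast_nonneg _)
              rw [hXd]; linarith
            have d4 : Cb * ‖M.θ c‖ ≤ Cb * X := by
              refine mul_le_mul_of_nonneg_left ?_ hCb0
              rw [hXd]; linarith
            rw [hCz]
            linarith
    have h4 := M.len_e h2 (by positivity : 0 ≤ Cz * X) hnm
    refine h4.trans ?_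
    rw [mul_assoc (2 * M.C0)]
    refine mul_le_mul_of_nonneg_left ?_ (by positivity)
    linarith
  -- the product
  have hlist : ∀ L : List S, (∀ a ∈ L, (M.l (c * a * c⁻¹) : ℝ) ≤ 2 * M.C0 * (Cz + 1) * X) →
      (M.l (c * L.prod * c⁻¹) : ℝ) ≤ L.length * (2 * M.C0 * (Cz + 1) * X) := by
    intro L
    induction L with
    | nil =>
      intro _
      have e : c * ([] : List S).prod * c⁻¹ = 1 := by simp
      rw [e, M.len.one]; simp
    | cons a L ih =>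
      intro h
      have e : c * (a :: L).prod * c⁻¹ = (c * a * c⁻¹) * (c * L.prod * c⁻¹) := by
        rw [List.prod_cons]; group
      rw [e]
      have a1 : (M.l ((c * a * c⁻¹) * (c * L.prod * c⁻¹)) : ℝ) ≤
          M.l (c * a * c⁻¹) + M.l (c * L.prod * c⁻¹) := by exact_mod_cast M.len.mul _ _
      have a2 := h a (by simp)
      have a3 := ih fun b hb => h b (List.mem_cons_of_mem _ hb)
      rw [List.length_cons]
      push_cast
      linarith
  have h5 := hlist (List.ofFn fun t => M.ex (x t • M.X (M.jE t))) (by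
    intro a ha
    obtain ⟨t, rfl⟩ := (List.mem_ofFn' _ _).1 ha
    exact hone t)
  rw [List.length_ofFn, ← hvx] at h5
  refine h5.trans (le_of_eq ?_)
  ring

/-- the norm of heights is controlled by the generating weights -/
theorem Φ_norm_R : ∃ C : ℝ, 0 ≤ C ∧ ∀ (v : Z1.Ht k) (r : ℝ), 0 ≤ r → (∀ b ∈ M.Φ, |b v| ≤ r) →
    ‖v‖ ≤ C * r := by
  classical
  let f : Z1.Ht k →ₗ[ℝ] (M.Φ → ℝ) := LinearMap.pi fun b => ((b : Z1.Ht k →L[ℝ] ℝ) : Z1.Ht k →ₗ[ℝ] ℝ)
  have hf : LinearMap.ker f = ⊥ := by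
    rw [LinearMap.ker_eq_bot']
    intro v hv
    refine M.Φ_span v fun b hb => ?_
    exact congrFun hv ⟨b, hb⟩
  obtain ⟨K, hK, hK2⟩ := LinearMap.exists_antilipschitzWith f hf
  refine ⟨K, K.2, fun v r hr h => ?_⟩
  have h1 := hK2.le_mul_dist v 0
  rw [map_zero, dist_zero_right, dist_zero_right] at h1
  refine h1.trans (mul_le_mul_of_nonneg_left ?_ K.2)
  rw [pi_norm_le_iff_of_nonneg hr]
  intro b
  exact h b b.2

/-- segments are followed in `Γ` -/
theorem seg_R : ∃ C : ℝ, 0 ≤ C ∧ ∀ u : Z1.Ht k, ∃ (n : ℕ) (g : ℕ → Γ), (n : ℝ) ≤ C * (‖u‖ + 1) ∧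
    g 0 = 1 ∧ (∀ i < n, (M.l (M.inG ((g i)⁻¹ * g (i + 1))) : ℝ) ≤ C) ∧
    (∀ i ≤ n, ∃ s ∈ Set.Icc (0 : ℝ) 1, ‖M.θ (M.inG (g i)) - s • u‖ ≤ C) ∧
    ‖M.θ (M.inG (g n)) - u‖ ≤ C := by
  have hC0 := M.one_le_C0
  have hr := M.md.hr₀
  refine ⟨M.C0 + M.md.r₀, by linarith, fun u => ?_⟩
  obtain ⟨p, h0, h1, h2⟩ := H530.exists_segment (θ := hgt (M.η.comp M.inG)) M.md.hr₀
    (H530.add_one M.md.add) M.md.seg u (Nat.le_ceil ‖u‖)
  refine ⟨⌈‖u‖⌉₊, p, ?_, h0, fun i _ => (M.A_len _ (h1 i)).trans (by linarith), ?_, ?_⟩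
  · have := (Nat.ceil_lt_add_one (norm_nonneg u)).le
    have hu := norm_nonneg u
    nlinarith
  · intro i _
    obtain ⟨t, ht0, ht1, ht2, _⟩ := h2 i
    exact ⟨t, ⟨ht0, ht1⟩, ht2.trans (by linarith)⟩
  · obtain ⟨t, ht0, ht1, ht2, ht3⟩ := h2 ⌈‖u‖⌉₊
    rw [ht3 le_rfl] at ht2
    exact ht2.trans (by linarith)

end Vale.Agent.P188.H754
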