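import Vale.Agent.P188.H754.Inst2
import Vale.Agent.P188.H789.Model

/-!
# P188, block NEU: `ESF` implies `NEUF`
-/

set_option linter.all false

open Set
open Agent.P188.H428 (IsLen)
open Vale.Agent.P188.H530 (hgt hgt_mul Crossed)
open Vale.Agent.P188.H789 (Bl Bl_mono Bl_finite ESF NEUF)
open Vale.Agent.P188.Z1

namespace Vale.Agent.P188.H754

variable {S : Type} [Group S] [MeasurableSpace S] {Γ : Type} [Group Γ]
  {V : Type} [AddCommGroup V] [Module ℝ V] {k : ℕ} (M : RModel S Γ V k)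

/-- **The instance.** -/
theorem exists_NM (hX : M.Extra) : ∃ N : NM S Γ (Z1.Ht k), (∀ x, N.l x = M.l x) ∧ N.θ = M.θ ∧
    N.inG = M.inG ∧ N.fl = M.fl ∧ N.E = M.E ∧ N.CW = M.CB := by
  classical
  obtain ⟨Cl, hCl, hl⟩ := M.l_CB
  obtain ⟨Cp, D, hCp1, hcp⟩ := cpath_R M
  obtain ⟨Ce, hCe0, hprod⟩ := E_prod_R M hX
  obtain ⟨Cc, hCc0, hcon⟩ := con_R M
  obtain ⟨Cn, hCn0, hnorm⟩ := Φ_norm_R M
  obtain ⟨Cs, hCs0, hseg⟩ := seg_R M
  have hC01 := M.one_le_C0
  obtain ⟨C, hC⟩ : ∃ C : ℝ, C = M.C0 + Cl + Cp + D + Ce + Cc + Cn + Cs := ⟨_, rfl⟩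
  have hD : (0 : ℝ) ≤ D := Nat.cast_nonneg _
  have l1 : M.C0 ≤ C := by rw [hC]; linarith
  have l2 : Cl ≤ C := by rw [hC]; linarith
  have l3 : Cp ≤ C := by rw [hC]; linarith
  have l4 : (D : ℝ) ≤ C := by rw [hC]; linarith
  have l5 : Ce ≤ C := by rw [hC]; linarith
  have l6 : Cc ≤ C := by rw [hC]; linarith
  have l7 : Cn ≤ C := by rw [hC]; linarith
  have l8 : Cs ≤ C := by rw [hC]; linarith
  have hC1 : 1 ≤ C := hC01.trans l1
  choose cr hcr using M.crossed
  refine ⟨{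
    C0 := C
    one_le_C0 := hC1
    l := fun x => M.l x
    l_nonneg := fun x => Nat.cast_nonneg _
    l_one := by rw [M.len.one]; simp
    l_inv := fun x => by rw [M.len.inv]
    l_mul := fun x y => by exact_mod_cast M.len.mul x y
    l_path := ?_
    θ := M.θ
    θ_mul := M.θ_mul
    θ_le := fun x => (M.η_le x).trans (mul_le_mul_of_nonneg_right l1 (Nat.cast_nonneg _))
    E := M.E
    E_normal := M.E_normal
    θ_E := ?_
    E_prod := ?_
    CW := M.CB
    CW_mul := fun m n c hc d hd => M.CB_mul hc hd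
    CW_inv := fun n c hc => M.CB_inv hc
    CW_mono := fun m n h => M.CB_mono h
    CW_l := fun n c hc => (hl n c hc).trans (mul_le_mul_of_nonneg_right l2 (Nat.cast_nonneg _))
    dec := ?_
    con := ?_
    cpath := ?_
    sec := ?_
    inG := M.inG
    fl := M.fl
    fl_mul := M.fl_mul
    fl_close := fun z => (M.fl_close z).trans l1
    seg := ?_
    Φ := M.Φ
    Φ_ne := M.Φ_ne
    cr := fun b => cr b b.2
    cr_le := ?_
    hw := M.mult
    hw_pos := M.mult_pos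
    hw_sum := ?_
    Φ_norm := fun v r hr h => (hnorm v r hr h).trans (mul_le_mul_of_nonneg_right l7 hr) },
    fun x => rfl, rfl, rfl, rfl, rfl, rfl⟩
  · -- l_path
    intro x
    obtain ⟨p, h0, h1, h2⟩ := M.l_path x
    have key : ∀ i, M.l (p i) ≤ i := by
      intro i
      induction i with
      | zero => rw [h0, M.len.one]
      | succ i ih =>
        have e : p (i + 1) = p i * ((p i)⁻¹ * p (i + 1)) := by group
        rw [e]
        exact (M.len.mul _ _).trans (Nat.add_le_add ih (h2 i))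
    have hx : (0 : ℝ) ≤ M.l x := Nat.cast_nonneg _
    refine ⟨M.l x, p, by nlinarith, h0, h1, fun i _ => ?_, fun i hi => ?_⟩
    · have : (M.l ((p i)⁻¹ * p (i + 1)) : ℝ) ≤ 1 := by exact_mod_cast h2 i
      linarith
    · have : (M.l (p i) : ℝ) ≤ M.l x := by exact_mod_cast (key i).trans hi
      nlinarith
  · intro e he
    obtain ⟨v, _, rfl⟩ := (M.mem_E e).1 he
    exact M.θ_ex v
  · intro L es hL hes
    refine (hprod L es hL hes).trans (mul_le_mul_of_nonneg_right l5 ?_)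
    have : 0 ≤ Real.log ((es.length : ℝ) + 1) := Real.log_nonneg (by
      have : (0 : ℝ) ≤ es.length := Nat.cast_nonneg _
      linarith)
    linarith
  · intro s
    obtain ⟨v, hv, c, hc, hs⟩ := M.dec s
    exact ⟨M.ex v, (M.mem_E _).2 ⟨v, hv, rfl⟩, c, M.CB_mono (Nat.ceil_le_ceil
      (mul_le_mul_of_nonneg_right l1 (Nat.cast_nonneg _))) hc, hs⟩
  · intro n c hc e he
    refine (hcon n c hc e he).trans (mul_le_mul_of_nonneg_right l6 ?_)
    have h1 : 0 ≤ Real.log ((n : ℝ) + 1) := Real.log_nonneg (by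
      have : (0 : ℝ) ≤ n := Nat.cast_nonneg _
      linarith)
    have h2 : (0 : ℝ) ≤ M.l e := Nat.cast_nonneg _
    have h3 := norm_nonneg (M.θ c)
    linarith
  · intro n c hc
    obtain ⟨m, p, h1, h2, h3, h4, h5⟩ := hcp n c hc
    have hn : (1 : ℝ) ≤ (n : ℝ) + 1 := by
      have : (0 : ℝ) ≤ n := Nat.cast_nonneg _
      linarith
    refine ⟨m, p, h1.trans ?_, h2, h3, fun i hi => (h4 i hi).trans l3, fun i hi =>
      ⟨(h5 i hi).1.trans (mul_le_mul_of_nonneg_right l3 (by linarith)),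
        (h5 i hi).2.trans (mul_le_mul_of_nonneg_right l3 (by positivity))⟩⟩
    have h6 : ((n : ℝ) + 1) ^ D ≤ ((n : ℝ) + 1) ^ C := by
      rw [← Real.rpow_natCast]
      exact Real.rpow_le_rpow_of_exponent_le hn l4
    exact mul_le_mul l3 h6 (by positivity) (by linarith)
  · intro s
    refine ⟨M.τ (Multiplicative.toAdd (M.η s)), ?_, ?_⟩
    · have h1 := M.τ_CB (Multiplicative.toAdd (M.η s))
      refine M.CB_mono ?_ h1
      refine Nat.ceil_le_ceil ?_
      have e : (fun i => ((Multiplicative.toAdd (M.η s) i : ℤ) : ℝ)) = M.θ s := rfl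
      rw [e, add_comm]
      exact mul_le_mul_of_nonneg_right l1 (by positivity)
    · rw [M.θ_τ]; rfl
  · intro u
    obtain ⟨n, g, h1, h2, h3, h4, h5⟩ := hseg u
    refine ⟨n, g, h1.trans (mul_le_mul_of_nonneg_right l8 (by positivity)), h2,
      fun i hi => (h3 i hi).trans l8, fun i hi => ?_, h5.trans l8⟩
    obtain ⟨s, hs, hs2⟩ := h4 i hi
    exact ⟨s, hs, hs2.trans l8⟩
  · intro b L
    have hfin : (Bl M.A ⌈M.C0 * (L + 1)⌉₊).Finite := Bl_finite M.md.fin _
    obtain ⟨A, hA⟩ := (hfin.image fun g => ‖(cr b b.2).D g‖).bddAbove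
    refine ⟨A, fun g hg => hA ⟨g, Bl_mono ?_ (M.wordG g), rfl⟩⟩
    exact Nat.ceil_le_ceil (mul_le_mul_of_nonneg_left (by linarith) (by linarith))
  · intro v
    have h1 := congrArg (fun b : Z1.Ht k →L[ℝ] ℝ => b v) M.unimod
    simpa using h1

/-- **`ESF` implies `NEUF`** for a family closed under coarse inverses. -/
theorem neuf_of_esf (hX : M.Extra) {𝓕 : Set (Γ → Γ)} {K : ℝ}
    (hQ : ∀ F ∈ 𝓕, ∃ F' ∈ 𝓕, M.QIm K F F') (hES : ESF M 𝓕) : NEUF M 𝓕 := by
  obtain ⟨N, hNl, hNθ, hNG, hNf, _, _⟩ := exists_NM M hX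
  intro A B ε₀ hε₀
  have hA0 : 0 ≤ max A 0 := le_max_right _ _
  obtain ⟨B₀, C₀, hB₀, hC₀, hneu⟩ := N.neu (K := |K|) (CT := 1) (abs_nonneg K) hA0 zero_le_one
  -- the parameters
  obtain ⟨ε, hε⟩ : ∃ ε : ℝ, ε = min ε₀ 1 := ⟨_, rfl⟩
  have hε0 : 0 < ε := by rw [hε]; exact lt_min hε₀ one_pos
  have hε1 : ε ≤ 1 := by rw [hε]; exact min_le_right _ _
  have hεε : ε ≤ ε₀ := by rw [hε]; exact min_le_left _ _
  obtain ⟨B1, hB1⟩ : ∃ B1 : ℝ, B1 = max |B| 1 := ⟨_, rfl⟩
  have hB11 : 1 ≤ B1 := by rw [hB1]; exact le_max_right _ _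
  have hBB : B ≤ B1 := by rw [hB1]; exact (le_abs_self _).trans (le_max_left _ _)
  have hc0 : 0 < C₀ := by linarith
  have hb0 : 0 < B₀ := by linarith
  obtain ⟨C₁, hC₁⟩ := hES (ε / (2 * C₀ * (B₀ * B1))) (by positivity)
  obtain ⟨P, hP⟩ : ∃ P : ℝ, P = C₀ / ε := ⟨_, rfl⟩
  have hP1 : 1 ≤ P := by rw [hP, le_div_iff₀ hε0]; linarith
  refine ⟨P + 2 * (B1 + 1) * P ^ 2 + 2 * P * |C₁|, ?_⟩
  intro R m hRm F hF z hstep hθ hf
  obtain ⟨F', hF', hQF⟩ := hQ F hF
  have hlog : 0 ≤ Real.log ((m : ℝ) + 1) := Real.log_nonneg (by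
    have : (0 : ℝ) ≤ m := Nat.cast_nonneg _
    linarith)
  have hP0 : 0 < P := by linarith
  have q1 : 0 ≤ 2 * (B1 + 1) * P ^ 2 := by positivity
  have q2 : 0 ≤ 2 * P * |C₁| := by positivity
  have hRge : P + 2 * (B1 + 1) * P ^ 2 + 2 * P * |C₁| ≤ R := by
    refine le_trans ?_ hRm
    exact le_mul_of_one_le_right (by positivity) (by linarith)
  have hR1 : 1 ≤ R := by linarith
  obtain ⟨δ, hδ⟩ : ∃ δ : ℝ, δ = ε * R / C₀ := ⟨_, rfl⟩
  have hδP : δ = R / P := by
    rw [hδ, hP]; field_simp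
  have hδ1 : 1 ≤ δ := by rw [hδP, le_div_iff₀ hP0]; linarith
  have hCδ : C₀ * δ = ε * R := by rw [hδ]; field_simp
  have hm : (m : ℝ) + 1 ≤ Real.exp δ := by
    have hm0 : (0 : ℝ) < (m : ℝ) + 1 := by positivity
    rw [← Real.log_le_iff_le_exp hm0, hδP, le_div_iff₀ hP0]
    refine le_trans ?_ hRm
    have : Real.log ((m : ℝ) + 1) * P ≤ P * (1 + Real.log ((m : ℝ) + 1)) := by nlinarith
    refine this.trans (mul_le_mul_of_nonneg_right (by linarith) (by linarith))
  have hRexp : B1 * R + 1 ≤ Real.exp δ := by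
    have h1 := Real.quadratic_le_exp_of_nonneg (by linarith : 0 ≤ δ)
    have h2 : B1 * R + 1 ≤ δ ^ 2 / 2 := by
      rw [hδP, div_pow, div_div, le_div_iff₀ (by positivity)]
      have h3 : B1 * R + 1 ≤ (B1 + 1) * R := by linarith
      calc (B1 * R + 1) * (P ^ 2 * 2) ≤ (B1 + 1) * R * (P ^ 2 * 2) := by gcongr
        _ = R * (2 * (B1 + 1) * P ^ 2) := by ring
        _ ≤ R * R := by
            refine mul_le_mul_of_nonneg_left ?_ (by linarith)
            linarith
        _ = R ^ 2 := by ring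
    linarith
  -- everywhere sublinear
  have hES' : ∀ F ∈ 𝓕, ∀ x y : S, (M.l y : ℝ) ≤ B₀ * (B1 * R) →
      ‖M.f F (x * y) - M.f F x - M.θ y‖ ≤ δ := by
    intro F hF x y hy
    have h1 := hC₁ F hF x (x * y)
    rw [inv_mul_cancel_left] at h1
    have e : M.f F (x * y) - M.θ (x * y) - (M.f F x - M.θ x) =
        M.f F (x * y) - M.f F x - M.θ y := by
      rw [M.θ_mul]; abel
    rw [e] at h1
    refine h1.trans ?_
    have h2 : ε / (2 * C₀ * (B₀ * B1)) * (M.l y : ℝ) ≤ δ / 2 := by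
      have : ε / (2 * C₀ * (B₀ * B1)) * (M.l y : ℝ) ≤
          ε / (2 * C₀ * (B₀ * B1)) * (B₀ * (B1 * R)) := by gcongr
      refine this.trans (le_of_eq ?_)
      rw [hδ]
      field_simp
    have h3 : C₁ ≤ δ / 2 := by
      refine (le_abs_self _).trans ?_
      rw [hδP, div_div, le_div_iff₀ (by positivity)]
      linarith
    linarith
  have hNf' : ∀ (F : Γ → Γ) (x : S), N.f F x = M.f F x := by
    intro F x
    unfold NM.f RModel.f
    rw [hNθ, hNG, hNf]
  have hNΨ : ∀ (F : Γ → Γ) (x : S), N.Ψ F x = F (M.fl x) := by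
    intro F x
    unfold NM.Ψ
    rw [hNf]
  have hK : K ≤ |K| := le_abs_self K
  have hQN : N.QI |K| F F' := by
    refine ⟨fun g y => ?_, fun g y => ?_, fun g => ?_, fun g => ?_⟩
    · rw [hNl, hNl, hNG]
      exact (hQF.lip g y).trans (mul_le_mul_of_nonneg_right hK (by positivity))
    · rw [hNl, hNl, hNG]
      exact (hQF.lip' g y).trans (mul_le_mul_of_nonneg_right hK (by positivity))
    · rw [hNl, hNG]
      exact (hQF.inv g).trans hK
    · rw [hNl, hNG]
      exact (hQF.inv' g).trans hK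
  have h1 : (B * R : ℝ) ≤ B1 * R := mul_le_mul_of_nonneg_right hBB (by linarith)
  have hfin := hneu F F' hQN (ContinuousLinearMap.id ℝ _) (ContinuousLinearMap.id ℝ _)
    ContinuousLinearMap.norm_id_le ContinuousLinearMap.norm_id_le (fun v => rfl) (B1 * R) δ m hδ1
    (by rw [hCδ]; nlinarith) hm hRexp z
    (fun i _ x hx => by
      rw [hNf', hNf', hNθ]
      rw [hNl] at hx
      exact hES' F hF _ _ hx)
    (fun x hx => by
      rw [hNf', hNf', hNθ]
      rw [hNl] at hx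
      exact hES' F' hF' _ _ hx)
    (fun i hi => by
      rw [hNl]
      exact (hstep i hi).trans (le_max_left _ _))
    (fun i hi => by
      rw [hNθ]
      exact (hθ i hi).trans h1)
    (fun i hi => by
      rw [hNf', hNf']
      refine (hf i hi).trans ?_
      have : 0 ≤ B1 * R := by positivity
      linarith)
  rw [hNf', hNf', hNθ, hCδ] at hfin
  have e : M.f F (z m) - M.θ (z m) - (M.f F (z 0) - M.θ (z 0)) =
      M.f F (z m) - M.f F (z 0) - (ContinuousLinearMap.id ℝ (Z1.Ht k)) (M.θ (z m) - M.θ (z 0)) := by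
    rw [ContinuousLinearMap.id_apply]; abel
  rw [e]
  refine hfin.trans (mul_le_mul_of_nonneg_right hεε (by linarith))

end Vale.Agent.P188.H754
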