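import Vale.Agent.P188.H754.Malcev9
import Vale.Agent.P188.Poly3

/-!
The structure theorem for virtually polycyclic groups.
-/

universe u v

namespace Vale.Agent.P188.H754

open Module
open scoped commutatorElement

section final

variable {Γ : Type u} [Group Γ]

theorem exists_flag_invCh {H N : Subgroup Γ} [hNn : N.Normal] [H.Normal] (hH : H.FG)
    (hcomm : ∀ a b : Γ, ⁅a, b⁆ ∈ N) : ∃ F m, FlagData (invRep H N) ⊤ F m := by
  have hfd : FiniteDimensional ℂ (Ch H) := finiteDimensional_ch hH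
  obtain ⟨F, m, hF, _⟩ := trig N hcomm (invRep H N) (fun j => if j = 0 then ⊥ else ⊤) 1
    (by simp) (by simp) (by
      intro n hn j x hx
      by_cases hj : j = 0
      · subst hj
        simp only [if_true]
        rw [Submodule.mem_bot, sub_eq_zero]
        exact Subtype.ext (mem_invCh_iff.1 x.2 n hn)
      · simp [hj])
  exact ⟨F, m, hF⟩

theorem eig_all_one {n : ℕ} (hΓ : PolyZ n Γ) {N : Subgroup Γ} [N.Normal] {g : Γ}
    (hg : ∀ ν, (conjRep N g).HasEigenvalue ν → ν = 1) (i : ℕ) :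
    ∀ μ, (invRep (lser N i) N g).HasEigenvalue μ → μ = 1 := by
  induction i with
  | zero =>
    intro μ hμ
    obtain ⟨φ, hφe⟩ := hμ.exists_hasEigenvector
    have hφ1 : invRep (lser N 0) N g φ = μ • φ := Module.End.mem_eigenspace_iff.1 hφe.1
    have hφ0 : (φ : Ch (lser N 0)) ≠ 0 := fun h => hφe.2 (Subtype.ext h)
    apply hg
    refine Module.End.hasEigenvalue_of_hasEigenvector (x := φ.1) ⟨?_, hφ0⟩
    exact Module.End.mem_eigenspace_iff.2 (congrArg Subtype.val hφ1)
  | succ i ih =>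
    intro lam hlam
    obtain ⟨μ, ν, hμ, hν, rfl⟩ := prod_lemma (PolyZ.subgroup_fg hΓ _) (lser_le N i) g lam hlam
    rw [ih μ hμ, hg ν hν, one_mul]

theorem FlagData.scal_unique {V : Type v} [AddCommGroup V] [Module ℂ V]
    {ρ : Γ →* Module.End ℂ V} {Γ1 : Subgroup Γ} {F : ℕ → Submodule ℂ V} {m : ℕ}
    (h : FlagData ρ Γ1 F m) {g : Γ} {j : ℕ} (hj : F j ≠ F (j + 1)) {c d : ℂ}
    (hc : ∀ x ∈ F (j + 1), ρ g x - c • x ∈ F j) (hd : ∀ x ∈ F (j + 1), ρ g x - d • x ∈ F j) :
    c = d := by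
  by_contra hne
  apply hj
  refine le_antisymm (h.mono (Nat.le_succ j)) fun x hx => ?_
  have h1 := (F j).sub_mem (hd x hx) (hc x hx)
  have e : (ρ g) x - d • x - ((ρ g) x - c • x) = (c - d) • x := by rw [sub_smul]; abel
  rw [e] at h1
  have h2 := (F j).smul_mem (c - d)⁻¹ h1
  rwa [smul_smul, inv_mul_cancel₀ (sub_ne_zero.2 hne), one_smul] at h2

theorem unip_le {n : ℕ} (hΓ : PolyZ n Γ) {N : Subgroup Γ} [hNn : N.Normal]
    (hnil : Group.IsNilpotent N) (hcomm : ∀ a b : Γ, ⁅a, b⁆ ∈ N)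
    (hfit : ∀ M : Subgroup Γ, M.Normal → Group.IsNilpotent M → M ≤ N)
    {F : ℕ → Submodule ℂ (Ch N)} {m : ℕ} (hF : FlagData (conjRep N) ⊤ F m) : hF.unip ≤ N := by
  have hfd : FiniteDimensional ℂ (Ch N) := finiteDimensional_ch (PolyZ.subgroup_fg hΓ _)
  apply hfit
  · constructor
    intro u hu g
    exact hF.conj_mem trivial hu
  · obtain ⟨n', _, hn'⟩ := PolyZ.of_injective n N.subtype N.subtype_injective hΓ
    refine isNilpotent_of_unip' (N := N) (lser_eq_bot hnil hn') ⟨1, ?_⟩ ?_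
    · rw [Subgroup.lowerCentralSeries_succ, Subgroup.commutator_le]
      intro a _ b _
      exact hcomm a b
    · intro i _
      have hfdi : FiniteDimensional ℂ (Ch (lser N i)) :=
        finiteDimensional_ch (PolyZ.subgroup_fg hΓ _)
      obtain ⟨E, d, hE⟩ := exists_flag_invCh (H := lser N i) (N := N)
        (PolyZ.subgroup_fg hΓ _) hcomm
      refine ⟨E, d, hE.zero, hE.top, ?_⟩
      intro u hu j φ hφ
      obtain ⟨c, hc⟩ := hE.scal u trivial j
      by_cases hj : E j = E (j + 1)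
      · rw [hj]
        exact (E (j + 1)).sub_mem (hE.inv trivial _ hφ) hφ
      · obtain ⟨x, hx0, hx⟩ := hE.exists_eigen trivial hc hj
        have h1 : (invRep (lser N i) N u).HasEigenvalue c :=
          Module.End.hasEigenvalue_of_hasEigenvector
            ⟨Module.End.mem_eigenspace_iff.2 hx, hx0⟩
        have h2 : ∀ ν, (conjRep N u).HasEigenvalue ν → ν = 1 := by
          intro ν hν
          obtain ⟨φ, hφe⟩ := hν.exists_hasEigenvector
          obtain ⟨l, hl, hlne, hl2⟩ := hF.eigen_mem (g := u) trivial hφe.2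
            (Module.End.mem_eigenspace_iff.1 hφe.1)
          refine hF.scal_unique hlne hl2 ?_
          intro x hx
          rw [one_smul]
          exact hu.2 l x hx
        have h3 := eig_all_one hΓ h2 i c h1
        have h4 := hc φ hφ
        rwa [h3, one_smul] at h4

/-- the generator weights are bounded below on `ℤ^k` -/
theorem generator_bound {n : ℕ} (hΓ : PolyZ n Γ) {k : ℕ} (η : Γ →* Multiplicative (Fin k → ℤ))
    (hη : Function.Surjective η) (hnil : Group.IsNilpotent η.ker)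
    (hfit : ∀ M : Subgroup Γ, M.Normal → Group.IsNilpotent M → M ≤ η.ker) :
    ∃ c : ℝ, 0 < c ∧ ∀ g : Γ, η g ≠ 1 → ∃ μ, (conjRep η.ker g).HasEigenvalue μ ∧
      c * ‖Multiplicative.toAdd (η g)‖ ≤ |Real.log ‖μ‖| := by
  classical
  set N := η.ker with hN
  have hcomm : ∀ a b : Γ, ⁅a, b⁆ ∈ N := by
    intro a b
    rw [hN, MonoidHom.mem_ker, map_commutatorElement, commutatorElement_def]
    rw [mul_comm (η a) (η b)]; group
  have hfd : FiniteDimensional ℂ (Ch N) := finiteDimensional_ch (PolyZ.subgroup_fg hΓ _)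
  obtain ⟨F, m, hF, hFN⟩ := exists_flag_nil (N := N) (H := N) (PolyZ.subgroup_fg hΓ _) le_rfl
    hcomm hnil
  have hunip := unip_le hΓ hnil hcomm hfit hF
  have hscal : ∀ g : Γ, ∀ j, ∃ c : ℂ, (∀ x ∈ F (j + 1), conjRep N g x - c • x ∈ F j) ∧
      (F j = F (j + 1) → c = 1) := by
    intro g j
    by_cases hj : F j = F (j + 1)
    · refine ⟨1, fun x hx => ?_, fun _ => rfl⟩
      rw [one_smul, hj]
      exact (F (j + 1)).sub_mem (hF.inv trivial _ hx) hx
    · obtain ⟨c, hc⟩ := hF.scal g trivial j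
      exact ⟨c, hc, fun h => absurd h hj⟩
  choose χ hχ hχ1 using hscal
  have hmul : ∀ g h j, χ (g * h) j = χ g j * χ h j := by
    intro g h j
    by_cases hj : F j = F (j + 1)
    · rw [hχ1 _ _ hj, hχ1 _ _ hj, hχ1 _ _ hj, mul_one]
    · exact hF.scal_unique hj (hχ _ j) (hF.scal_mul trivial trivial (hχ g j) (hχ h j))
  have hNone : ∀ g ∈ N, ∀ j, χ g j = 1 := by
    intro g hg j
    by_cases hj : F j = F (j + 1)
    · exact hχ1 _ _ hj
    · refine hF.scal_unique hj (hχ g j) ?_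
      intro x hx
      rw [one_smul]
      exact hFN g hg j x hx
  have hne : ∀ g j, χ g j ≠ 0 := by
    intro g j h0
    have h1 := hmul g g⁻¹ j
    rw [mul_inv_cancel, hNone 1 N.one_mem, h0, zero_mul] at h1
    exact one_ne_zero h1
  have hsame : ∀ g h j, η g = η h → χ g j = χ h j := by
    intro g h j hgh
    have h1 : h⁻¹ * g ∈ N := by
      rw [hN, MonoidHom.mem_ker, map_mul, map_inv, hgh, inv_mul_cancel]
    have h2 := hmul h (h⁻¹ * g) j
    rw [hNone _ h1, mul_one] at h2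
    rw [← h2]; congr 1; group
  choose s hs using hη
  let L : (Fin k → ℤ) →+ (Fin m → ℝ) :=
    { toFun := fun v j => Real.log ‖χ (s (Multiplicative.ofAdd v)) j‖
      map_zero' := by
        funext j
        rw [hsame (s (Multiplicative.ofAdd 0)) 1 j (by rw [hs, map_one, ofAdd_zero]),
          hNone 1 N.one_mem]
        simp
      map_add' := by
        intro v w
        funext j
        rw [hsame (s (Multiplicative.ofAdd (v + w)))
          (s (Multiplicative.ofAdd v) * s (Multiplicative.ofAdd w)) j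
          (by rw [map_mul, hs, hs, hs, ofAdd_add]), hmul, norm_mul,
          Real.log_mul (norm_ne_zero_iff.2 (hne _ _)) (norm_ne_zero_iff.2 (hne _ _))]
        rfl }
  have hL : ∀ g : Γ, ∀ j, L (Multiplicative.toAdd (η g)) j = Real.log ‖χ g j‖ := by
    intro g j
    change Real.log ‖χ (s (Multiplicative.ofAdd (Multiplicative.toAdd (η g)))) j‖ = _
    rw [hsame _ g j (by rw [hs]; rfl)]
  have heig : ∀ g μ, (conjRep N g).HasEigenvalue μ → ∃ j < m, μ = χ g j := by
    intro g μ hμ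
    obtain ⟨φ, hφe⟩ := hμ.exists_hasEigenvector
    obtain ⟨l, hl, hlne, hl2⟩ := hF.eigen_mem (g := g) trivial hφe.2
      (Module.End.mem_eigenspace_iff.1 hφe.1)
    exact ⟨l, hl, hF.scal_unique hlne hl2 (hχ g l)⟩
  have heig' : ∀ g j, F j ≠ F (j + 1) → (conjRep N g).HasEigenvalue (χ g j) := by
    intro g j hj
    obtain ⟨x, hx0, hx⟩ := hF.exists_eigen (g := g) trivial (hχ g j) hj
    exact Module.End.hasEigenvalue_of_hasEigenvector ⟨Module.End.mem_eigenspace_iff.2 hx, hx0⟩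
  have hfin : ∀ R : ℝ, {v : Fin k → ℤ | ‖L v‖ ≤ R}.Finite := by
    intro R
    obtain ⟨E, hE, hEg⟩ := finite_eig (H := N) (PolyZ.subgroup_fg hΓ _) (Real.exp R)
    have hfinE : (insert (1 : ℂ) E).Finite := hE.insert _
    have hpi : (Set.univ.pi (fun _ : Fin m => (insert (1 : ℂ) E))).Finite :=
      Set.Finite.pi' (fun _ => hfinE) |>.subset (by
        intro f hf i
        exact hf i trivial)
    let Φ : (Fin k → ℤ) → (Fin m → ℂ) := fun v j => χ (s (Multiplicative.ofAdd v)) j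
    refine Set.Finite.of_finite_image (f := Φ) (hpi.subset ?_) ?_
    · rintro _ ⟨v, hv, rfl⟩ j _
      have hv' : ‖L v‖ ≤ R := hv
      change χ (s (Multiplicative.ofAdd v)) j ∈ _
      by_cases hj : F j = F (j + 1)
      · rw [hχ1 _ _ hj]; exact Set.mem_insert _ _
      · refine Set.mem_insert_of_mem _ (hEg _ ?_ _ (heig' _ _ hj))
        intro μ hμ
        obtain ⟨l, hl, rfl⟩ := heig _ μ hμ
        have h1 : |Real.log ‖χ (s (Multiplicative.ofAdd v)) l‖| ≤ R := by
          have h2 := norm_le_pi_norm (L v) ⟨l, hl⟩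
          exact (Real.norm_eq_abs _ ▸ h2).trans hv'
        have h3 : 0 < ‖χ (s (Multiplicative.ofAdd v)) l‖ := norm_pos_iff.2 (hne _ _)
        rw [← Real.exp_log h3]
        exact Real.exp_le_exp.2 ((le_abs_self _).trans h1)
    · intro v _ w _ hvw
      have h1 : (s (Multiplicative.ofAdd w))⁻¹ * s (Multiplicative.ofAdd v) ∈ hF.unip := by
        refine hF.quot_mem trivial trivial fun j => ?_
        refine ⟨χ (s (Multiplicative.ofAdd v)) j, hχ _ j, ?_⟩
        by_cases hj : j < m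
        · have h2 : χ (s (Multiplicative.ofAdd v)) j = χ (s (Multiplicative.ofAdd w)) j :=
            congrFun hvw ⟨j, hj⟩
          rw [h2]
          exact hχ _ j
        · have h3 : F j = ⊤ := by
            rw [eq_top_iff, ← hF.top]
            exact hF.mono (by omega)
          have h4 : F (j + 1) = ⊤ := by
            rw [eq_top_iff, ← hF.top]
            exact hF.mono (by omega)
          intro x _
          rw [h3]; trivial
      have h2 := hunip h1
      rw [hN, MonoidHom.mem_ker, map_mul, map_inv, hs, hs] at h2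
      have h3 := inv_mul_eq_one.1 h2
      exact (Multiplicative.ofAdd.injective h3).symm
  obtain ⟨c, hc, hcL⟩ := discrete_bound L hfin
  refine ⟨c, hc, fun g hg => ?_⟩
  set v := Multiplicative.toAdd (η g) with hv
  have hv0 : v ≠ 0 := by
    intro h0
    apply hg
    rw [← ofAdd_toAdd (η g), ← hv, h0, ofAdd_zero]
  have hpos : 0 < c * ‖v‖ := mul_pos hc (norm_pos_iff.2 hv0)
  obtain ⟨j, hj⟩ : ∃ j, c * ‖v‖ ≤ |L v j| := by
    by_contra hcon
    push Not at hcon
    have h1 : ‖L v‖ < c * ‖v‖ := (pi_norm_lt_iff hpos).2 hcon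
    exact absurd (hcL v) (not_le.2 h1)
  have hLj : L v j = Real.log ‖χ g j‖ := hL g j
  rw [hLj] at hj
  refine ⟨χ g j, heig' g j ?_, hj⟩
  intro heq
  rw [hχ1 _ _ heq] at hj
  simp at hj
  linarith

end final

/-- **Structure theorem (Z0)**, for poly-`ℤ` groups. -/
theorem polyZ_Z0 {G : Type u} [Group G] {n : ℕ} (h : PolyZ n G) :
    ∃ G1 : Subgroup G, G1.FiniteIndex ∧ ∃ (k : ℕ) (η : G1 →* Multiplicative (Fin k → ℤ)),
      Function.Surjective η ∧ η.ker.FG ∧ Group.IsNilpotent η.ker ∧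
      (∀ M : Subgroup G1, M.Normal → Group.IsNilpotent M → M ≤ η.ker) ∧
      (∃ m, PolyZ m G1) ∧ (∃ m, PolyZ m η.ker) ∧
      ∃ c : ℝ, 0 < c ∧ ∀ g : G1, η g ≠ 1 → ∃ μ, (conjRep η.ker g).HasEigenvalue μ ∧
        c * ‖Multiplicative.toAdd (η g)‖ ≤ |Real.log ‖μ‖| := by
  obtain ⟨G1, hG1, k, η, hη, hnil, hfit⟩ := polyZ_structure h
  obtain ⟨m, _, hm⟩ := PolyZ.of_injective n G1.subtype G1.subtype_injective h
  obtain ⟨m', _, hm'⟩ := PolyZ.of_injective m η.ker.subtype η.ker.subtype_injective hm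
  exact ⟨G1, hG1, k, η, hη, PolyZ.subgroup_fg hm _, hnil, hfit, ⟨m, hm⟩, ⟨m', hm'⟩,
    generator_bound hm η hη hnil hfit⟩

/-- **Structure theorem (Z0)** for virtually polycyclic groups: a virtually polycyclic group `G`
has a finite index subgroup `Γ` (given by an injective homomorphism `ι` with range of finite index)
which is torsion-free (poly-`ℤ`) and an extension of `ℤ ^ k` by a finitely generated nilpotent
group `N = ker η`, such that `N` is the largest nilpotent normal subgroup of `Γ`, and the weights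
of `ℤ ^ k` on `Hom(N, ℂ)` are bounded below: every `g` with `η g ≠ 1` has an eigenvalue `μ` on
`Hom(N, ℂ)` with `c * ‖η g‖ ≤ |log ‖μ‖|`. -/
theorem virtPoly_Z0 {G : Type u} [Group G] (h : IsVirtuallyPolycyclic G) :
    ∃ (Γ : Type u) (_ : Group Γ) (ι : Γ →* G), Function.Injective ι ∧ ι.range.FiniteIndex ∧
      ∃ (k : ℕ) (η : Γ →* Multiplicative (Fin k → ℤ)),
      Function.Surjective η ∧ η.ker.FG ∧ Group.IsNilpotent η.ker ∧
      (∀ M : Subgroup Γ, M.Normal → Group.IsNilpotent M → M ≤ η.ker) ∧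
      (∃ m, PolyZ m Γ) ∧ (∃ m, PolyZ m η.ker) ∧
      (∀ (x : Γ) (e : ℕ), e ≠ 0 → x ^ e = 1 → x = 1) ∧
      ∃ c : ℝ, 0 < c ∧ ∀ g : Γ, η g ≠ 1 → ∃ μ, (conjRep η.ker g).HasEigenvalue μ ∧
        c * ‖Multiplicative.toAdd (η g)‖ ≤ |Real.log ‖μ‖| := by
  obtain ⟨P, hP, hPCS⟩ := isVirtuallyPolycyclic_iff.1 h
  obtain ⟨Q, hQP, hQ, hrel⟩ := PCS.exists_pzs hPCS
  obtain ⟨n, hn⟩ := PZS.polyZ hQ
  have hQfin : Q.FiniteIndex := by
    refine ⟨?_⟩
    rw [← Subgroup.relIndex_mul_index hQP]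
    exact mul_ne_zero hrel hP.index_ne_zero
  obtain ⟨G1, hG1, k, η, hη, hfg, hnil, hfit, ⟨m, hm⟩, hm', hc⟩ := polyZ_Z0 hn
  refine ⟨G1, inferInstance, Q.subtype.comp G1.subtype,
    Q.subtype_injective.comp G1.subtype_injective, ?_, k, η, hη, hfg, hnil, hfit, ⟨m, hm⟩, hm',
    fun x e he hx => PolyZ.torsionFree m hm x e he hx, hc⟩
  rw [MonoidHom.range_comp, Subgroup.range_subtype]
  exact finiteIndex_map_subtype Q G1 hQfin hG1

end Vale.Agent.P188.H754
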