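import Vale.Agent.P188.H754.Malcev1
import Vale.Agent.P188.Poly3

/-!
The isolated derived series of a subgroup of a poly-`ℤ` group, the conjugation representation on
its pieces, and a nilpotency criterion.
-/

universe u v

namespace Vale.Agent.P188.H754

open Module
open scoped commutatorElement

/-! ### poly-`ℤ` groups -/

theorem PolyZ.of_injective : ∀ (n : ℕ) {G : Type u} [Group G] {H : Type u} [Group H]
    (f : H →* G), Function.Injective f → PolyZ n G → ∃ m ≤ n, PolyZ m H
  | 0, _, _, _, _, f, hf, h => by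
    have h' : Subsingleton _ := h
    exact ⟨0, le_rfl, (hf.subsingleton : Subsingleton _)⟩
  | n + 1, G, _, H, _, f, hf, h => by
    obtain ⟨φ, hφ, hk⟩ := h
    let ψ : H →* Multiplicative ℤ := φ.comp f
    have hker : ∃ m ≤ n, PolyZ m ψ.ker := by
      let f' : ψ.ker →* φ.ker :=
        { toFun := fun x => ⟨f x, x.2⟩
          map_one' := by ext; simp
          map_mul' := by intro a b; ext; simp }
      refine PolyZ.of_injective n f' ?_ hk
      intro a b hab
      have h1 : f a = f b := congrArg Subtype.val hab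
      exact Subtype.ext (hf h1)
    obtain ⟨m, hm, hmk⟩ := hker
    by_cases htriv : ∀ x, ψ x = 1
    · refine ⟨m, hm.trans (Nat.le_succ n), PolyZ.of_equiv m ?_ hmk⟩
      have : ψ.ker = ⊤ := by
        rw [eq_top_iff]; intro x _; exact htriv x
      exact (MulEquiv.subgroupCongr this).trans Subgroup.topEquiv
    · push Not at htriv
      obtain ⟨x₀, hx₀⟩ := htriv
      -- the image is `d ℤ`
      let D : AddSubgroup ℤ :=
        { carrier := {k | ∃ x, ψ x = Multiplicative.ofAdd k}
          zero_mem' := ⟨1, by simp⟩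
          add_mem' := by
            rintro a b ⟨x, hx⟩ ⟨y, hy⟩
            exact ⟨x * y, by rw [map_mul, hx, hy, ofAdd_add]⟩
          neg_mem' := by
            rintro a ⟨x, hx⟩
            exact ⟨x⁻¹, by rw [map_inv, hx, ofAdd_neg]⟩ }
      obtain ⟨d, hd⟩ := Int.subgroup_cyclic D
      have hmem : ∀ x, ∃ c : ℤ, Multiplicative.toAdd (ψ x) = c * d := by
        intro x
        have : Multiplicative.toAdd (ψ x) ∈ D := ⟨x, rfl⟩
        rw [hd, AddSubgroup.mem_closure_singleton] at this
        obtain ⟨c, hc⟩ := this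
        exact ⟨c, by rw [← hc]; simp⟩
      have hd0 : d ≠ 0 := by
        rintro rfl
        obtain ⟨c, hc⟩ := hmem x₀
        apply hx₀
        rw [mul_zero] at hc
        rw [← ofAdd_toAdd (ψ x₀), hc, ofAdd_zero]
      choose q hq using hmem
      let θ : H →* Multiplicative ℤ :=
        { toFun := fun x => Multiplicative.ofAdd (q x)
          map_one' := by
            have h1 := hq 1
            rw [map_one, toAdd_one] at h1
            have h2 : q 1 = 0 := by
              rcases mul_eq_zero.1 h1.symm with h | h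
              · exact h
              · exact absurd h hd0
            rw [h2, ofAdd_zero]
          map_mul' := by
            intro x y
            have h1 := hq (x * y)
            rw [map_mul, toAdd_mul, hq x, hq y, ← add_mul] at h1
            have h2 := mul_right_cancel₀ hd0 h1
            rw [← h2, ofAdd_add] }
      refine ⟨m + 1, Nat.succ_le_succ hm, θ, ?_, ?_⟩
      · intro k
        have h1 : d ∈ D := by rw [hd]; exact AddSubgroup.subset_closure rfl
        obtain ⟨x, hx⟩ := h1
        have h2 := hq x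
        rw [hx, toAdd_ofAdd] at h2
        have h3 : q x = 1 := by
          have : (q x - 1) * d = 0 := by linarith
          rcases mul_eq_zero.1 this with h | h
          · omega
          · exact absurd h hd0
        refine ⟨x ^ (Multiplicative.toAdd k), ?_⟩
        rw [map_zpow]
        change (Multiplicative.ofAdd (q x)) ^ _ = k
        rw [h3, ← ofAdd_zsmul]
        simp
      · refine PolyZ.of_equiv m (MulEquiv.subgroupCongr ?_) hmk
        ext x
        rw [MonoidHom.mem_ker, MonoidHom.mem_ker]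
        change _ ↔ Multiplicative.ofAdd (q x) = 1
        constructor
        · intro h
          have h1 := hq x
          rw [h, toAdd_one] at h1
          rcases mul_eq_zero.1 h1.symm with h | h
          · rw [h, ofAdd_zero]
          · exact absurd h hd0
        · intro h
          have h1 : q x = 0 := by simpa using h
          have h2 := hq x
          rw [h1, zero_mul] at h2
          rw [← ofAdd_toAdd (ψ x), h2, ofAdd_zero]

theorem PolyZ.torsionFree : ∀ (n : ℕ) {G : Type u} [Group G], PolyZ n G →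
    ∀ (x : G) (e : ℕ), e ≠ 0 → x ^ e = 1 → x = 1
  | 0, _, _, h, x, _, _, _ => by
    have h' : Subsingleton _ := h
    exact Subsingleton.elim _ _
  | n + 1, G, _, h, x, e, he, hx => by
    obtain ⟨φ, hφ, hk⟩ := h
    have h1 : φ x = 1 := by
      have h2 : φ x ^ e = 1 := by rw [← map_pow, hx, map_one]
      have h3 : (e : ℤ) * Multiplicative.toAdd (φ x) = 0 := by
        have := congrArg Multiplicative.toAdd h2
        simpa using this
      rcases mul_eq_zero.1 h3 with h | h
      · exact absurd (by exact_mod_cast h) he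
      · rw [← ofAdd_toAdd (φ x), h, ofAdd_zero]
    have h4 := PolyZ.torsionFree n hk ⟨x, h1⟩ e he (by ext; simpa using hx)
    exact congrArg Subtype.val h4

theorem PolyZ.fg : ∀ (n : ℕ) {G : Type u} [Group G], PolyZ n G → Group.FG G
  | 0, G, _, h => by
    have h' : Subsingleton G := h
    have : Finite G := inferInstance
    exact inferInstance
  | n + 1, G, _, h => by
    obtain ⟨φ, hφ, hk⟩ := h
    have h1 : Group.FG φ.ker := PolyZ.fg n hk
    obtain ⟨t, ht⟩ := hφ (Multiplicative.ofAdd 1)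
    obtain ⟨S, hS⟩ := (Group.fg_iff_subgroup_fg _).1 h1
    classical
    refine Group.fg_iff.2 ⟨(S : Set G) ∪ {t}, ?_, S.finite_toSet.union (Set.finite_singleton t)⟩
    rw [eq_top_iff]
    intro x _
    have h2 : φ (x * (t ^ (Multiplicative.toAdd (φ x)))⁻¹) = 1 := by
      rw [map_mul, map_inv, map_zpow, ht, ← ofAdd_zsmul]
      simp
    have h3 : x * (t ^ (Multiplicative.toAdd (φ x)))⁻¹ ∈ φ.ker := h2
    rw [← hS] at h3
    have h4 := Subgroup.closure_mono (Set.subset_union_left (s := (S : Set G)) (t := {t})) h3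
    have h5 : t ∈ Subgroup.closure ((S : Set G) ∪ {t}) :=
      Subgroup.subset_closure (Or.inr rfl)
    have h6 := Subgroup.mul_mem _ h4 (Subgroup.zpow_mem _ h5 (Multiplicative.toAdd (φ x)))
    simpa using h6

theorem PolyZ.subgroup_fg {n : ℕ} {G : Type u} [Group G] (h : PolyZ n G) (H : Subgroup G) :
    H.FG := by
  obtain ⟨m, _, hm⟩ := PolyZ.of_injective n H.subtype H.subtype_injective h
  exact (Group.fg_iff_subgroup_fg _).1 (PolyZ.fg m hm)

theorem PolyZ.solvable : ∀ (n : ℕ) {G : Type u} [Group G], PolyZ n G → Group.IsSolvable G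
  | 0, G, _, h => by
    have h' : Subsingleton G := h
    exact inferInstance
  | n + 1, G, _, h => by
    obtain ⟨φ, hφ, hk⟩ := h
    have h1 : Group.IsSolvable φ.ker := PolyZ.solvable n hk
    exact Group.isSolvable_of_ker_le_range φ.ker.subtype φ (by rw [Subgroup.range_subtype])

/-! ### complex characters of a subgroup -/

section iso

variable {G : Type u} [Group G]

/-- additive homomorphisms to `ℂ` -/
abbrev Ch (H : Subgroup G) : Type u := Additive H →+ ℂ

/-- evaluation -/
def ev {H : Subgroup G} (φ : Ch H) (x : G) (hx : x ∈ H) : ℂ := φ (Additive.ofMul ⟨x, hx⟩)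

theorem ev_one {H : Subgroup G} (φ : Ch H) : ev φ 1 H.one_mem = 0 := by
  unfold ev
  exact map_zero φ

theorem ev_mul {H : Subgroup G} (φ : Ch H) {x y : G} (hx : x ∈ H) (hy : y ∈ H) :
    ev φ (x * y) (H.mul_mem hx hy) = ev φ x hx + ev φ y hy := by
  unfold ev
  rw [← map_add]; rfl

theorem ev_inv {H : Subgroup G} (φ : Ch H) {x : G} (hx : x ∈ H) :
    ev φ x⁻¹ (H.inv_mem hx) = - ev φ x hx := by
  unfold ev
  rw [← map_neg]; rfl

theorem ev_add {H : Subgroup G} (φ ψ : Ch H) {x : G} (hx : x ∈ H) :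
    ev (φ + ψ) x hx = ev φ x hx + ev ψ x hx := rfl

theorem ev_sub {H : Subgroup G} (φ ψ : Ch H) {x : G} (hx : x ∈ H) :
    ev (φ - ψ) x hx = ev φ x hx - ev ψ x hx := rfl

theorem ev_smul {H : Subgroup G} (c : ℂ) (φ : Ch H) {x : G} (hx : x ∈ H) :
    ev (c • φ) x hx = c * ev φ x hx := rfl

theorem ev_congr {H : Subgroup G} (φ : Ch H) {x y : G} (hx : x ∈ H) (h : x = y) :
    ev φ x hx = ev φ y (h ▸ hx) := by subst h; rfl

theorem ch_ext {H : Subgroup G} {φ ψ : Ch H} (h : ∀ x (hx : x ∈ H), ev φ x hx = ev ψ x hx) :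
    φ = ψ := by
  refine AddMonoidHom.ext fun x => ?_
  exact h x.toMul x.toMul.2

theorem ev_pow {H : Subgroup G} (φ : Ch H) {x : G} (hx : x ∈ H) (n : ℕ) :
    ev φ (x ^ n) (H.pow_mem hx n) = n * ev φ x hx := by
  induction n with
  | zero => simp only [pow_zero, Nat.cast_zero, zero_mul]; exact ev_one φ
  | succ n ih =>
    have := ev_mul φ (H.pow_mem hx n) hx
    rw [ih] at this
    rw [ev_congr φ (H.pow_mem hx (n + 1)) (pow_succ x n), this]
    push_cast; ring

theorem finiteDimensional_ch {H : Subgroup G} (hH : H.FG) : FiniteDimensional ℂ (Ch H) := by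
  have hH' : Group.FG H := (Group.fg_iff_subgroup_fg H).2 hH
  obtain ⟨S, hS⟩ := hH'.out
  let L : Ch H →ₗ[ℂ] (S → ℂ) :=
    { toFun := fun φ s => φ (Additive.ofMul (s : H))
      map_add' := by intro a b; rfl
      map_smul' := by intro c a; rfl }
  refine FiniteDimensional.of_injective L ?_
  rw [← LinearMap.ker_eq_bot, LinearMap.ker_eq_bot']
  intro φ hφ
  have h1 : ∀ x : H, φ (Additive.ofMul x) = 0 := by
    intro x
    have hx : x ∈ Subgroup.closure (S : Set H) := by rw [hS]; trivial
    induction hx using Subgroup.closure_induction with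
    | mem x hx => exact congrFun hφ ⟨x, hx⟩
    | one => exact map_zero φ
    | mul x y _ _ hx hy =>
      have : φ (Additive.ofMul (x * y)) = φ (Additive.ofMul x) + φ (Additive.ofMul y) := by
        rw [← map_add]; rfl
      rw [this, hx, hy, add_zero]
    | inv x _ hx =>
      have : φ (Additive.ofMul x⁻¹) = - φ (Additive.ofMul x) := by
        rw [← map_neg]; rfl
      rw [this, hx, neg_zero]
  refine AddMonoidHom.ext fun x => ?_
  exact h1 x.toMul

/-- conjugation representation on characters -/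
def conjRep (H : Subgroup G) [H.Normal] : G →* Module.End ℂ (Ch H) where
  toFun g :=
    { toFun := fun φ => φ.comp (MulAut.conjNormal g⁻¹ : H ≃* H).toMonoidHom.toAdditive
      map_add' := by intro a b; rfl
      map_smul' := by intro c a; rfl }
  map_one' := by
    ext φ x
    simp
  map_mul' := by
    intro a b
    ext φ x
    simp [mul_inv_rev]

theorem conj_mem_of_normal {H : Subgroup G} [H.Normal] {x : G} (hx : x ∈ H) (g : G) :
    g⁻¹ * x * g ∈ H := by
  have := Subgroup.Normal.conj_mem (inferInstance : H.Normal) x hx g⁻¹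
  simpa using this

theorem ev_conjRep {H : Subgroup G} [H.Normal] (g : G) (φ : Ch H) {x : G} (hx : x ∈ H) :
    ev (conjRep H g φ) x hx = ev φ (g⁻¹ * x * g) (conj_mem_of_normal hx g) := by
  unfold ev conjRep
  simp only [MonoidHom.coe_mk, OneHom.coe_mk, LinearMap.coe_mk, AddHom.coe_mk,
    AddMonoidHom.comp_apply]
  congr 1
  change Additive.ofMul _ = Additive.ofMul _
  congr 1
  ext
  simp [MulAut.conjNormal_apply]

/-- the common kernel of a set of characters -/
def ann (H : Subgroup G) (F : Set (Ch H)) : Subgroup G where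
  carrier := {x | ∃ hx : x ∈ H, ∀ φ ∈ F, ev φ x hx = 0}
  one_mem' := ⟨H.one_mem, fun φ _ => ev_one φ⟩
  mul_mem' := by
    rintro x y ⟨hx, hx'⟩ ⟨hy, hy'⟩
    exact ⟨H.mul_mem hx hy, fun φ hφ => by rw [ev_mul φ hx hy, hx' φ hφ, hy' φ hφ, add_zero]⟩
  inv_mem' := by
    rintro x ⟨hx, hx'⟩
    exact ⟨H.inv_mem hx, fun φ hφ => by rw [ev_inv φ hx, hx' φ hφ, neg_zero]⟩

theorem mem_ann {H : Subgroup G} {F : Set (Ch H)} {x : G} :
    x ∈ ann H F ↔ ∃ hx : x ∈ H, ∀ φ ∈ F, ev φ x hx = 0 := Iff.rfl

theorem ann_le (H : Subgroup G) (F : Set (Ch H)) : ann H F ≤ H := fun _ hx => hx.1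

theorem ann_zero (H : Subgroup G) : ann H {0} = H := by
  refine le_antisymm (ann_le _ _) fun x hx => ⟨hx, ?_⟩
  rintro φ rfl
  rfl

/-- the isolated derived subgroup -/
def iso (H : Subgroup G) : Subgroup G := ann H Set.univ

theorem iso_le (H : Subgroup G) : iso H ≤ H := ann_le _ _

instance iso_normal (H : Subgroup G) [hH : H.Normal] : (iso H).Normal := by
  constructor
  rintro x ⟨hx, hx'⟩ g
  refine ⟨hH.conj_mem x hx g, fun φ _ => ?_⟩
  have := hx' (conjRep H g⁻¹ φ) trivial
  rw [ev_conjRep] at this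
  rw [← this]
  exact ev_congr _ _ (by rw [inv_inv])

/-- the isolated derived series -/
def ser (H : Subgroup G) : ℕ → Subgroup G
  | 0 => H
  | n + 1 => iso (ser H n)

@[simp] theorem ser_zero (H : Subgroup G) : ser H 0 = H := rfl

theorem ser_succ (H : Subgroup G) (n : ℕ) : ser H (n + 1) = iso (ser H n) := rfl

instance ser_normal (H : Subgroup G) [hH : H.Normal] : ∀ n, (ser H n).Normal
  | 0 => hH
  | n + 1 => by
    have := ser_normal H n
    exact iso_normal (ser H n)

theorem iso_polyZ {H : Subgroup G} {n : ℕ} (h : PolyZ (n + 1) H) :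
    ∃ m ≤ n, PolyZ m (iso H) := by
  obtain ⟨φ, hφ, hk⟩ := h
  let φ' : Ch H :=
    { toFun := fun x => ((Multiplicative.toAdd (φ x.toMul) : ℤ) : ℂ)
      map_zero' := by simp
      map_add' := by intro a b; simp }
  have h1 : ∀ x (hx : x ∈ iso H), φ ⟨x, iso_le H hx⟩ = 1 := by
    rintro x ⟨hx, hx'⟩
    have h2 : ((Multiplicative.toAdd (φ ⟨x, hx⟩) : ℤ) : ℂ) = 0 := hx' φ' trivial
    have h3 : Multiplicative.toAdd (φ ⟨x, hx⟩) = 0 := by exact_mod_cast h2
    rw [← ofAdd_toAdd (φ ⟨x, iso_le H ⟨hx, hx'⟩⟩)]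
    change Multiplicative.ofAdd (Multiplicative.toAdd (φ ⟨x, hx⟩)) = 1
    rw [h3, ofAdd_zero]
  let f : iso H →* φ.ker :=
    { toFun := fun x => ⟨⟨x, iso_le H x.2⟩, h1 x x.2⟩
      map_one' := by ext; simp
      map_mul' := by intro a b; ext; simp }
  refine PolyZ.of_injective n f ?_ hk
  intro a b hab
  have h3 := congrArg (fun z : φ.ker => ((z : H) : G)) hab
  exact Subtype.ext h3

theorem ser_polyZ {H : Subgroup G} {n : ℕ} (h : PolyZ n H) (i : ℕ) :
    ∃ m ≤ n - i, PolyZ m (ser H i) := by
  induction i with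
  | zero => exact ⟨n, by simp, h⟩
  | succ i ih =>
    obtain ⟨m, hm, hp⟩ := ih
    cases m with
    | zero =>
      have h0 : Subsingleton (ser H i) := hp
      have h1 : Subsingleton (iso (ser H i)) := by
        constructor
        intro a b
        have h2 : (⟨a, iso_le _ a.2⟩ : ser H i) = ⟨b, iso_le _ b.2⟩ := Subsingleton.elim _ _
        exact Subtype.ext (congrArg (fun z : ser H i => (z : G)) h2)
      exact ⟨0, Nat.zero_le _, h1⟩
    | succ m =>
      obtain ⟨m', hm', hp'⟩ := iso_polyZ hp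
      exact ⟨m', by omega, hp'⟩

theorem ser_eq_bot {H : Subgroup G} {n : ℕ} (h : PolyZ n H) : ser H n = ⊥ := by
  obtain ⟨m, hm, hp⟩ := ser_polyZ h n
  have : m = 0 := by omega
  subst this
  have h0 : Subsingleton (ser H n) := hp
  exact Subgroup.eq_bot_of_subsingleton _

/-- `U` acts unipotently on the characters of `H`. -/
def Unip (U H : Subgroup G) [H.Normal] : Prop :=
  ∃ (F : ℕ → Submodule ℂ (Ch H)) (m : ℕ), F 0 = ⊥ ∧ F m = ⊤ ∧
    ∀ u ∈ U, ∀ j, ∀ φ ∈ F (j + 1), conjRep H u φ - φ ∈ F j

theorem commutator_mem_ann {U H : Subgroup G} [H.Normal] {F F' : Submodule ℂ (Ch H)}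
    (h : ∀ u ∈ U, ∀ φ ∈ F', conjRep H u φ - φ ∈ F) {x u : G} (hx : x ∈ ann H (F : Set (Ch H)))
    (hu : u ∈ U) : ⁅x, u⁆ ∈ ann H (F' : Set (Ch H)) := by
  obtain ⟨hxH, hxF⟩ := hx
  have h0 : u * x⁻¹ * u⁻¹ ∈ H := Subgroup.Normal.conj_mem inferInstance _ (H.inv_mem hxH) u
  have h1 : ⁅x, u⁆ = x * (u * x⁻¹ * u⁻¹) := by rw [commutatorElement_def]; group
  have h2 : ⁅x, u⁆ ∈ H := by rw [h1]; exact H.mul_mem hxH h0
  refine ⟨h2, fun φ hφ => ?_⟩
  have h3 := hxF _ (h u⁻¹ (U.inv_mem hu) φ hφ)
  rw [ev_sub, ev_conjRep] at h3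
  rw [ev_congr φ h2 h1, ev_mul φ hxH h0]
  have h4 : u * x⁻¹ * u⁻¹ = (u⁻¹⁻¹ * x * u⁻¹)⁻¹ := by group
  rw [ev_congr φ h0 h4, ev_inv φ (conj_mem_of_normal hxH u⁻¹)]
  linear_combination -h3

theorem lcs_step {U A B : Subgroup G} (h : ∀ x ∈ A, ∀ u ∈ U, ⁅x, u⁆ ∈ B)
    (hA : ∃ k, U.lowerCentralSeries k ≤ A) : ∃ k, U.lowerCentralSeries k ≤ B := by
  obtain ⟨k, hk⟩ := hA
  refine ⟨k + 1, ?_⟩
  rw [Subgroup.lowerCentralSeries_succ, Subgroup.commutator_le]
  intro x hx u hu
  exact h x (hk hx) u hu

/-- nilpotency criterion -/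
theorem isNilpotent_of_unip {U N : Subgroup G} [N.Normal] {n : ℕ} (hn : ser N n = ⊥)
    (hUN : ∃ k, U.lowerCentralSeries k ≤ N)
    (h : ∀ i < n, Unip U (ser N i)) : Group.IsNilpotent U := by
  have key : ∀ i ≤ n, ∃ k, U.lowerCentralSeries k ≤ ser N i := by
    intro i
    induction i with
    | zero => intro _; exact hUN
    | succ i ih =>
      intro hi
      obtain ⟨F, m, hF0, hFm, hF⟩ := h i (by omega)
      have h1 : ∀ j, ∃ k, U.lowerCentralSeries k ≤
          ann (ser N i) (F j : Set (Ch (ser N i))) := by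
        intro j
        induction j with
        | zero =>
          have h2 := ih (by omega)
          have h3 : ann (ser N i) (F 0 : Set (Ch (ser N i))) = ser N i := by
            rw [hF0, Submodule.bot_coe, ann_zero]
          rw [h3]; exact h2
        | succ j ihj =>
          exact lcs_step (fun x hx u hu =>
            commutator_mem_ann (fun u hu φ hφ => hF u hu j φ hφ) hx hu) ihj
      have h2 := h1 m
      rw [hFm] at h2
      exact h2
  obtain ⟨k, hk⟩ := key n le_rfl
  rw [hn, le_bot_iff] at hk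
  exact (Subgroup.isNilpotent_iff_lowerCentralSeries U).2 ⟨k, hk⟩

end iso

end Vale.Agent.P188.H754
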