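import Vale.Agent.P188.H754.Malcev2

/-!
First pass: a poly-`ℤ` group has a finite index subgroup which is (nilpotent)-by-(abelian), with the
nilpotent part containing every nilpotent subgroup normalised by a finite index subgroup.
-/

universe u v

namespace Vale.Agent.P188.H754

open Module
open scoped commutatorElement

section flag

variable {Γ : Type u} [Group Γ] {V : Type v} [AddCommGroup V] [Module ℂ V]

/-- a flag preserved by `Γ1`, with scalar action on the quotients -/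
structure FlagData (ρ : Γ →* Module.End ℂ V) (Γ1 : Subgroup Γ) (F : ℕ → Submodule ℂ V) (m : ℕ) :
    Prop where
  zero : F 0 = ⊥
  top : F m = ⊤
  mono : Monotone F
  scal : ∀ g ∈ Γ1, ∀ i, ∃ c : ℂ, ∀ x ∈ F (i + 1), ρ g x - c • x ∈ F i

variable {ρ : Γ →* Module.End ℂ V} {Γ1 : Subgroup Γ} {F : ℕ → Submodule ℂ V} {m : ℕ}

theorem FlagData.restrict (h : FlagData ρ Γ1 F m) {Γ2 : Subgroup Γ} (h2 : Γ2 ≤ Γ1) :
    FlagData ρ Γ2 F m :=
  ⟨h.zero, h.top, h.mono, fun g hg => h.scal g (h2 hg)⟩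

theorem FlagData.inv (h : FlagData ρ Γ1 F m) {g : Γ} (hg : g ∈ Γ1) (j : ℕ) {x : V}
    (hx : x ∈ F j) : ρ g x ∈ F j := by
  cases j with
  | zero =>
    rw [h.zero, Submodule.mem_bot] at hx ⊢
    rw [hx, map_zero]
  | succ j =>
    obtain ⟨c, hc⟩ := h.scal g hg j
    have h1 := h.mono (Nat.le_succ j) (hc x hx)
    have h2 := (F (j + 1)).smul_mem c hx
    have h3 := (F (j + 1)).add_mem h1 h2
    simpa using h3

/-- the elements acting trivially on the graded pieces -/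
def FlagData.unip (h : FlagData ρ Γ1 F m) : Subgroup Γ where
  carrier := {g | g ∈ Γ1 ∧ ∀ j, ∀ x ∈ F (j + 1), ρ g x - x ∈ F j}
  one_mem' := ⟨Γ1.one_mem, fun j x _ => by simp⟩
  mul_mem' := by
    rintro a b ⟨ha, ha'⟩ ⟨hb, hb'⟩
    refine ⟨Γ1.mul_mem ha hb, fun j x hx => ?_⟩
    have h1 := ha' j _ (h.inv hb _ hx)
    have h2 := (F j).add_mem h1 (hb' j x hx)
    rw [map_mul, Module.End.mul_apply]
    simpa using h2
  inv_mem' := by
    rintro a ⟨ha, ha'⟩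
    refine ⟨Γ1.inv_mem ha, fun j x hx => ?_⟩
    have h1 := ha' j _ (h.inv (Γ1.inv_mem ha) _ hx)
    rw [ρ_apply_inv] at h1
    have h2 := (F j).neg_mem h1
    simpa using h2

theorem FlagData.mem_unip (h : FlagData ρ Γ1 F m) {g : Γ} :
    g ∈ h.unip ↔ g ∈ Γ1 ∧ ∀ j, ∀ x ∈ F (j + 1), ρ g x - x ∈ F j := Iff.rfl

theorem FlagData.unip_le (h : FlagData ρ Γ1 F m) : h.unip ≤ Γ1 := fun _ hx => hx.1

theorem FlagData.conj_mem (h : FlagData ρ Γ1 F m) {g u : Γ} (hg : g ∈ Γ1) (hu : u ∈ h.unip) :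
    g * u * g⁻¹ ∈ h.unip := by
  refine ⟨Γ1.mul_mem (Γ1.mul_mem hg hu.1) (Γ1.inv_mem hg), fun j x hx => ?_⟩
  have h1 := hu.2 j _ (h.inv (Γ1.inv_mem hg) _ hx)
  have h2 := h.inv hg _ h1
  rw [map_sub, ρ_apply_inv] at h2
  rw [map_mul, map_mul]
  simpa using h2

theorem FlagData.scal_mul (h : FlagData ρ Γ1 F m) {a b : Γ} (hb : b ∈ Γ1) (ha : a ∈ Γ1)
    {c d : ℂ} {j : ℕ}
    (hc : ∀ x ∈ F (j + 1), ρ a x - c • x ∈ F j) (hd : ∀ x ∈ F (j + 1), ρ b x - d • x ∈ F j) :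
    ∀ x ∈ F (j + 1), ρ (a * b) x - (c * d) • x ∈ F j := by
  intro x hx
  have h1 := h.inv ha _ (hd x hx)
  have h2 := (F j).smul_mem d (hc x hx)
  have h3 := (F j).add_mem h1 h2
  rw [map_sub, map_smul] at h3
  rw [map_mul, Module.End.mul_apply]
  have e : (ρ a) ((ρ b) x) - (c * d) • x
      = (ρ a) ((ρ b) x) - d • (ρ a) x + d • ((ρ a) x - c • x) := by
    rw [smul_sub, smul_smul, mul_comm d c]; abel
  rw [e]; exact h3

theorem FlagData.quot_mem (h : FlagData ρ Γ1 F m) {a b : Γ} (ha : a ∈ Γ1) (hb : b ∈ Γ1)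
    (hc : ∀ j, ∃ c : ℂ, (∀ x ∈ F (j + 1), ρ a x - c • x ∈ F j) ∧
      (∀ x ∈ F (j + 1), ρ b x - c • x ∈ F j)) : b⁻¹ * a ∈ h.unip := by
  refine ⟨Γ1.mul_mem (Γ1.inv_mem hb) ha, fun j x hx => ?_⟩
  obtain ⟨c, h1, h2⟩ := hc j
  have h3 := (F j).sub_mem (h1 x hx) (h2 x hx)
  have h4 := h.inv (Γ1.inv_mem hb) _ h3
  rw [map_mul, Module.End.mul_apply]
  have e : ρ b⁻¹ ((ρ a) x - c • x - ((ρ b) x - c • x)) = ρ b⁻¹ (ρ a x) - x := by
    rw [sub_sub_sub_cancel_right, map_sub, ρ_inv_apply]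
  rw [← e]; exact h4

theorem FlagData.comm_mem (h : FlagData ρ Γ1 F m) {a b : Γ} (ha : a ∈ Γ1) (hb : b ∈ Γ1) :
    ⁅a, b⁆ ∈ h.unip := by
  have e : ⁅a, b⁆ = (b⁻¹ * a⁻¹)⁻¹ * (a⁻¹ * b⁻¹) := by rw [commutatorElement_def]; group
  rw [e]
  have ha' := Γ1.inv_mem ha
  have hb' := Γ1.inv_mem hb
  refine h.quot_mem (Γ1.mul_mem ha' hb') (Γ1.mul_mem hb' ha') fun j => ?_
  obtain ⟨c, hc⟩ := h.scal _ ha' j
  obtain ⟨d, hd⟩ := h.scal _ hb' j
  refine ⟨c * d, h.scal_mul hb' ha' hc hd, ?_⟩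
  rw [mul_comm]
  exact h.scal_mul ha' hb' hd hc

theorem FlagData.exists_eigen [FiniteDimensional ℂ V] (h : FlagData ρ Γ1 F m) {g : Γ}
    (hg : g ∈ Γ1) {j : ℕ} {c : ℂ} (hc : ∀ x ∈ F (j + 1), ρ g x - c • x ∈ F j)
    (hj : F j ≠ F (j + 1)) : ∃ x : V, x ≠ 0 ∧ ρ g x = c • x := by
  by_contra hcon
  push Not at hcon
  let T : F (j + 1) →ₗ[ℂ] F j :=
    { toFun := fun x => ⟨ρ g x - c • (x : V), hc x x.2⟩
      map_add' := by
        intro x y
        ext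
        simp only [Submodule.coe_add, map_add, smul_add]
        abel
      map_smul' := by
        intro a x
        ext
        simp only [Submodule.coe_smul, map_smul, RingHom.id_apply, smul_sub]
        rw [smul_comm] }
  have hinj : Function.Injective T := by
    rw [← LinearMap.ker_eq_bot, LinearMap.ker_eq_bot']
    intro x hx
    by_contra hx0
    have h1 : (x : V) ≠ 0 := fun h => hx0 (Subtype.ext h)
    apply hcon x h1
    have h2 := congrArg Subtype.val hx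
    change ρ g x - c • (x : V) = 0 at h2
    exact sub_eq_zero.1 h2
  have h1 := LinearMap.finrank_le_finrank_of_injective hinj
  have h2 : F j < F (j + 1) := lt_of_le_of_ne (h.mono (Nat.le_succ j)) hj
  have h3 := Submodule.finrank_lt_finrank_of_lt h2
  omega

theorem FlagData.eigen_mem [FiniteDimensional ℂ V] (h : FlagData ρ Γ1 F m) {g : Γ} (hg : g ∈ Γ1)
    {c : ℂ} {x : V} (hx : x ≠ 0) (hc : ρ g x = c • x) :
    ∃ j < m, F j ≠ F (j + 1) ∧ ∀ y ∈ F (j + 1), ρ g y - c • y ∈ F j := by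
  classical
  have hex : ∃ j, x ∈ F j := ⟨m, by rw [h.top]; trivial⟩
  set j := Nat.find hex with hj
  have h1 : x ∈ F j := Nat.find_spec hex
  have h2 : j ≠ 0 := by
    intro h0
    rw [h0, h.zero, Submodule.mem_bot] at h1
    exact hx h1
  obtain ⟨i, hi⟩ := Nat.exists_eq_succ_of_ne_zero h2
  have h3 : x ∉ F i := Nat.find_min hex (by omega)
  rw [hi] at h1
  have hle : j ≤ m := Nat.find_min' hex (by rw [h.top]; trivial)
  refine ⟨i, by omega, ?_, ?_⟩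
  · intro heq
    rw [heq] at h3
    exact h3 h1
  · obtain ⟨d, hd⟩ := h.scal g hg i
    have h4 := hd x h1
    rw [hc, ← sub_smul] at h4
    have h5 : c - d = 0 := by
      by_contra hne
      apply h3
      have := (F i).smul_mem (c - d)⁻¹ h4
      rwa [smul_smul, inv_mul_cancel₀ hne, one_smul] at this
    rw [sub_eq_zero.1 h5]
    exact hd

end flag

/-- Key step of the Fitting property: eigenvalues of nilpotently acting elements are 1. -/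
theorem eig_one {G : Type u} [Group G] {H Γ2 U2 : Subgroup G} [H.Normal] (hΓ2 : Γ2.FiniteIndex)
    (hnorm : ∀ g ∈ Γ2, ∀ u ∈ U2, g * u * g⁻¹ ∈ U2)
    (hnil : Group.IsNilpotent U2) {u : G} (hu : u ∈ U2) {φ : Ch H} (hφ : φ ≠ 0) {c : ℂ}
    (hc : conjRep H u φ = c • φ) : c = 1 := by
  by_contra hne
  have hne' : c - 1 ≠ 0 := sub_ne_zero.2 hne
  have step : ∀ x (hx : x ∈ H), ∃ hy : x⁻¹ * (u⁻¹ * x * u) ∈ H,
      ev φ (x⁻¹ * (u⁻¹ * x * u)) hy = (c - 1) * ev φ x hx := by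
    intro x hx
    refine ⟨H.mul_mem (H.inv_mem hx) (conj_mem_of_normal hx u), ?_⟩
    rw [ev_mul φ (H.inv_mem hx) (conj_mem_of_normal hx u), ev_inv φ hx]
    have h1 := congrArg (fun ψ : Ch H => ev ψ x hx) hc
    simp only [ev_conjRep, ev_smul] at h1
    rw [h1]; ring
  have iter : ∀ t : ℕ, ∀ x (hx : x ∈ H), x ∈ Γ2 →
      ∃ y, ∃ hy : y ∈ H, y ∈ U2.lowerCentralSeries t ∧ ev φ y hy = (c - 1) ^ (t + 1) * ev φ x hx := by
    intro t
    induction t with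
    | zero =>
      intro x hx hx2
      obtain ⟨hy, h1⟩ := step x hx
      refine ⟨_, hy, ?_, by rw [h1]; ring⟩
      have e : x⁻¹ * (u⁻¹ * x * u) = (x⁻¹ * u⁻¹ * x⁻¹⁻¹) * u := by group
      rw [e]
      exact U2.mul_mem (hnorm _ (Γ2.inv_mem hx2) _ (U2.inv_mem hu)) hu
    | succ t ih =>
      intro x hx hx2
      obtain ⟨y, hy, hy1, hy2⟩ := ih x hx hx2
      obtain ⟨hz, h1⟩ := step y hy
      refine ⟨_, hz, ?_, by rw [h1, hy2]; ring⟩
      have e : y⁻¹ * (u⁻¹ * y * u) = ⁅y⁻¹, u⁻¹⁆ := by rw [commutatorElement_def]; group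
      rw [e, Subgroup.lowerCentralSeries_succ]
      exact Subgroup.commutator_mem_commutator (inv_mem hy1) (U2.inv_mem hu)
  obtain ⟨k, hk⟩ := (Subgroup.isNilpotent_iff_lowerCentralSeries U2).1 hnil
  have h0 : ∀ x (hx : x ∈ H), x ∈ Γ2 → ev φ x hx = 0 := by
    intro x hx hx2
    obtain ⟨y, hy, hy1, hy2⟩ := iter k x hx hx2
    rw [hk, Subgroup.mem_bot] at hy1
    rw [ev_congr φ hy hy1, ev_one] at hy2
    rcases mul_eq_zero.1 hy2.symm with h | h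
    · exact absurd h (pow_ne_zero _ hne')
    · exact h
  apply hφ
  apply ch_ext
  intro x hx
  obtain ⟨e, he0, he, hemem⟩ := Subgroup.exists_pow_mem_of_index_ne_zero hΓ2.index_ne_zero x
  have h1 := h0 (x ^ e) (H.pow_mem hx e) hemem
  rw [ev_pow φ hx e] at h1
  rcases mul_eq_zero.1 h1 with h | h
  · exact absurd (by exact_mod_cast h) he0.ne'
  · exact h

theorem first_pass {G : Type u} [Group G] {n : ℕ} (h : PolyZ n G) :
    ∃ Γ1 U : Subgroup G, Γ1.FiniteIndex ∧ U ≤ Γ1 ∧ Group.IsNilpotent U ∧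
      (∀ a ∈ Γ1, ∀ b ∈ Γ1, ⁅a, b⁆ ∈ U) ∧ (∀ a ∈ Γ1, ∀ u ∈ U, a * u * a⁻¹ ∈ U) ∧
      ∀ Γ2 U2 : Subgroup G, Γ2.FiniteIndex → U2 ≤ Γ1 →
        (∀ g ∈ Γ2, ∀ u ∈ U2, g * u * g⁻¹ ∈ U2) → Group.IsNilpotent U2 → U2 ≤ U := by
  have hfl : ∀ i : Fin n, HasFlag (conjRep (ser (⊤ : Subgroup G) i)) := by
    intro i
    have hfd : FiniteDimensional ℂ (Ch (ser (⊤ : Subgroup G) i)) :=
      finiteDimensional_ch (PolyZ.subgroup_fg h _)
    exact exists_flag _ (PolyZ.solvable n h) (PolyZ.subgroup_fg h)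
  choose Γi hfin F m hF0 hFm hmono hscal using hfl
  have hΓ1 : (⨅ i, Γi i).FiniteIndex := Subgroup.finiteIndex_iInf hfin
  have FD : ∀ i : Fin n, FlagData (conjRep (ser (⊤ : Subgroup G) i)) (⨅ i, Γi i) (F i) (m i) :=
    fun i => ⟨hF0 i, hFm i, hmono i, fun g hg j => hscal i g ((iInf_le Γi i) hg) j⟩
  set Γ1 := ⨅ i, Γi i with hΓ1def
  let U : Subgroup G := Γ1 ⊓ ⨅ i, (FD i).unip
  have hUmem : ∀ x, x ∈ U ↔ x ∈ Γ1 ∧ ∀ i, x ∈ (FD i).unip := by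
    intro x
    simp [U, Subgroup.mem_iInf]
  refine ⟨Γ1, U, hΓ1, inf_le_left, ?_, ?_, ?_, ?_⟩
  · have hpz : PolyZ n (⊤ : Subgroup G) := PolyZ.of_equiv n Subgroup.topEquiv.symm h
    refine isNilpotent_of_unip (N := (⊤ : Subgroup G)) (ser_eq_bot hpz) ⟨0, le_top⟩ ?_
    intro i hi
    refine ⟨F ⟨i, hi⟩, m ⟨i, hi⟩, hF0 _, hFm _, ?_⟩
    intro u hu j φ hφ
    exact (((hUmem u).1 hu).2 ⟨i, hi⟩).2 j φ hφ
  · intro a ha b hb
    rw [hUmem]
    refine ⟨?_, fun i => (FD i).comm_mem ha hb⟩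
    rw [commutatorElement_def]
    exact Γ1.mul_mem (Γ1.mul_mem (Γ1.mul_mem ha hb) (Γ1.inv_mem ha)) (Γ1.inv_mem hb)
  · intro a ha u hu
    rw [hUmem] at hu ⊢
    exact ⟨Γ1.mul_mem (Γ1.mul_mem ha hu.1) (Γ1.inv_mem ha), fun i => (FD i).conj_mem ha (hu.2 i)⟩
  · intro Γ2 U2 hΓ2 hU2 hnorm hnil u hu
    rw [hUmem]
    refine ⟨hU2 hu, fun i => ?_⟩
    rw [FlagData.mem_unip]
    refine ⟨hU2 hu, fun j x hx => ?_⟩
    have hfd : FiniteDimensional ℂ (Ch (ser (⊤ : Subgroup G) i)) :=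
      finiteDimensional_ch (PolyZ.subgroup_fg h _)
    obtain ⟨c, hc⟩ := (FD i).scal u (hU2 hu) j
    by_cases hj : F i j = F i (j + 1)
    · rw [hj]
      exact (F i (j + 1)).sub_mem ((FD i).inv (hU2 hu) _ hx) hx
    · obtain ⟨φ, hφ0, hφ⟩ := (FD i).exists_eigen (hU2 hu) hc hj
      have h1 := eig_one hΓ2 hnorm hnil hu hφ0 hφ
      have h2 := hc x hx
      rwa [h1, one_smul] at h2

end Vale.Agent.P188.H754
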