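import Vale.Agent.P188.H754.Malcev3
import Vale.Agent.P188.Poly2

/-!
A poly-`ℤ` group has a finite index subgroup which is an extension of `ℤ ^ k` by a nilpotent group
`N`; moreover `N` contains every nilpotent subgroup normalised by a finite index subgroup.
-/

universe u v

namespace Vale.Agent.P188.H754

open Module
open scoped commutatorElement

/-- A group `Γ1` with a normal subgroup with abelian quotient: some finite index subgroup is an
extension of `ℤ^k` by the same subgroup. -/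
theorem exists_free_quotient {G : Type u} [Group G] {Γ1 U : Subgroup G} (hfg : Γ1.FG)
    (hΓ1 : Γ1.FiniteIndex) (hUΓ : U ≤ Γ1) (hcomm : ∀ a ∈ Γ1, ∀ b ∈ Γ1, ⁅a, b⁆ ∈ U)
    (hnorm : ∀ a ∈ Γ1, ∀ u ∈ U, a * u * a⁻¹ ∈ U) :
    ∃ G1 : Subgroup G, G1.FiniteIndex ∧ G1 ≤ Γ1 ∧ U ≤ G1 ∧ ∃ (k : ℕ)
      (η : G1 →* Multiplicative (Fin k → ℤ)), Function.Surjective η ∧
      ∀ g : G1, η g = 1 ↔ (g : G) ∈ U := by
  classical
  let U' : Subgroup Γ1 := U.subgroupOf Γ1
  have hU'n : U'.Normal := by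
    constructor
    intro u hu g
    rw [Subgroup.mem_subgroupOf] at hu ⊢
    exact hnorm g g.2 u hu
  have hcommQ : ∀ a b : Γ1 ⧸ U', a * b = b * a := by
    intro a b
    induction a using QuotientGroup.induction_on with | H a => ?_
    induction b using QuotientGroup.induction_on with | H b => ?_
    rw [← QuotientGroup.mk_mul, ← QuotientGroup.mk_mul, QuotientGroup.eq,
      Subgroup.mem_subgroupOf]
    have h1 := hcomm (b : G)⁻¹ (Γ1.inv_mem b.2) (a : G)⁻¹ (Γ1.inv_mem a.2)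
    have h2 : (((a * b)⁻¹ * (b * a) : Γ1) : G) = ⁅(b : G)⁻¹, (a : G)⁻¹⁆ := by
      rw [commutatorElement_def]; push_cast; group
    rw [h2]; exact h1
  letI : CommGroup (Γ1 ⧸ U') :=
    { (inferInstance : Group (Γ1 ⧸ U')) with mul_comm := hcommQ }
  have hfgΓ : Group.FG Γ1 := (Group.fg_iff_subgroup_fg Γ1).2 hfg
  have hfgQ : Group.FG (Γ1 ⧸ U') := QuotientGroup.fg _
  obtain ⟨ι, j, hι, hj, p, hp, e, ⟨E⟩⟩ :=
    CommGroup.equiv_free_prod_prod_multiplicative_zmod (Γ1 ⧸ U')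
  let π : Γ1 →* (j → Multiplicative ℤ) × ((i : ι) → Multiplicative (ZMod (p i ^ e i))) :=
    E.toMonoidHom.comp (QuotientGroup.mk' U')
  have hπsurj : Function.Surjective π := E.surjective.comp (QuotientGroup.mk'_surjective U')
  have hπker : ∀ g : Γ1, π g = 1 ↔ (g : G) ∈ U := by
    intro g
    change E (QuotientGroup.mk' U' g) = 1 ↔ _
    rw [map_eq_one_iff E E.injective]
    rw [QuotientGroup.mk'_apply, QuotientGroup.eq_one_iff, Subgroup.mem_subgroupOf]
  have hfinF : Finite ((i : ι) → Multiplicative (ZMod (p i ^ e i))) := by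
    have : ∀ i, NeZero (p i ^ e i) := fun i => ⟨pow_ne_zero _ (hp i).ne_zero⟩
    have : ∀ i, Finite (Multiplicative (ZMod (p i ^ e i))) := fun i =>
      (inferInstance : Finite (ZMod (p i ^ e i)))
    infer_instance
  let π2 : Γ1 →* ((i : ι) → Multiplicative (ZMod (p i ^ e i))) := (MonoidHom.snd _ _).comp π
  let K : Subgroup Γ1 := π2.ker
  have hK : K.FiniteIndex := by
    have : Finite π2.range := inferInstance
    exact Subgroup.finiteIndex_ker π2
  refine ⟨K.map Γ1.subtype, finiteIndex_map_subtype Γ1 K hΓ1 hK, ?_, ?_, Fintype.card j, ?_⟩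
  · rintro _ ⟨x, _, rfl⟩; exact x.2
  · intro u hu
    refine ⟨⟨u, hUΓ hu⟩, ?_, rfl⟩
    change (π ⟨u, hUΓ hu⟩).2 = 1
    rw [(hπker ⟨u, hUΓ hu⟩).2 hu]; rfl
  · let r : j ≃ Fin (Fintype.card j) := Fintype.equivFin j
    have hG1 : ∀ g : K.map Γ1.subtype, (g : G) ∈ Γ1 := by
      rintro ⟨_, ⟨x, _, rfl⟩⟩; exact x.2
    have hG1K : ∀ g : K.map Γ1.subtype, (π ⟨g, hG1 g⟩).2 = 1 := by
      rintro ⟨_, ⟨x, hx, rfl⟩⟩; exact hx
    let η : K.map Γ1.subtype →* Multiplicative (Fin (Fintype.card j) → ℤ) :=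
      { toFun := fun g => Multiplicative.ofAdd (fun i => Multiplicative.toAdd
          ((π ⟨g, hG1 g⟩).1 (r.symm i)))
        map_one' := by
          have : π ⟨((1 : K.map Γ1.subtype) : G), hG1 1⟩ = 1 := by
            have e1 : (⟨((1 : K.map Γ1.subtype) : G), hG1 1⟩ : Γ1) = 1 := rfl
            rw [e1, map_one]
          rw [this]; rfl
        map_mul' := by
          intro a b
          have : π ⟨((a * b : K.map Γ1.subtype) : G), hG1 _⟩ = π ⟨a, hG1 a⟩ * π ⟨b, hG1 b⟩ := by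
            rw [← map_mul]; rfl
          rw [this]; rfl }
    refine ⟨η, ?_, ?_⟩
    · intro v
      obtain ⟨x, hx⟩ := hπsurj (fun i => Multiplicative.ofAdd (Multiplicative.toAdd v (r i)), 1)
      have hxK : x ∈ K := by
        change (π x).2 = 1
        rw [hx]
      refine ⟨⟨x, ⟨x, hxK, rfl⟩⟩, ?_⟩
      change Multiplicative.ofAdd (fun i => Multiplicative.toAdd ((π x).1 (r.symm i))) = v
      rw [hx]
      rw [← ofAdd_toAdd v]
      congr 1
      funext i
      simp
    · intro g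
      rw [← hπker ⟨g, hG1 g⟩]
      constructor
      · intro h
        refine Prod.ext ?_ (hG1K g)
        funext i
        have h1 := congrFun (congrArg Multiplicative.toAdd h) (r i)
        change Multiplicative.toAdd ((π ⟨g, hG1 g⟩).1 (r.symm (r i))) = 0 at h1
        rw [Equiv.symm_apply_apply] at h1
        change (π ⟨g, hG1 g⟩).1 i = 1
        rw [← ofAdd_toAdd ((π ⟨g, hG1 g⟩).1 i), h1, ofAdd_zero]
      · intro h
        change Multiplicative.ofAdd (fun i => Multiplicative.toAdd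
          ((π ⟨g, hG1 g⟩).1 (r.symm i))) = 1
        rw [h]; rfl

/-- first form of the structure theorem, for poly-`ℤ` groups -/
theorem polyZ_structure {G : Type u} [Group G] {n : ℕ} (h : PolyZ n G) :
    ∃ G1 : Subgroup G, G1.FiniteIndex ∧ ∃ (k : ℕ)
      (η : G1 →* Multiplicative (Fin k → ℤ)), Function.Surjective η ∧
      Group.IsNilpotent η.ker ∧ ∀ M : Subgroup G1, M.Normal → Group.IsNilpotent M → M ≤ η.ker := by
  obtain ⟨Γ1, U, hΓ1, hUΓ, hnil, hcomm, hnorm, hfit⟩ := first_pass h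
  obtain ⟨G1, hG1, hG1Γ, hUG1, k, η, hη, hker⟩ :=
    exists_free_quotient (PolyZ.subgroup_fg h Γ1) hΓ1 hUΓ hcomm hnorm
  refine ⟨G1, hG1, k, η, hη, ?_, ?_⟩
  · have h1 : η.ker.map G1.subtype = U := by
      ext x
      constructor
      · rintro ⟨y, hy, rfl⟩; exact (hker y).1 hy
      · intro hx; exact ⟨⟨x, hUG1 hx⟩, (hker _).2 hx, rfl⟩
    have h2 := Group.isNilpotent_congr
      (Subgroup.equivMapOfInjective η.ker _ G1.subtype_injective)
    rw [h2, h1]; exact hnil
  · intro M hM hMnil x hx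
    rw [MonoidHom.mem_ker, hker]
    refine hfit G1 (M.map G1.subtype) hG1 ?_ ?_ ?_ ⟨x, hx, rfl⟩
    · rintro _ ⟨y, _, rfl⟩; exact hG1Γ y.2
    · rintro g hg _ ⟨y, hy, rfl⟩
      exact ⟨⟨g, hg⟩ * y * ⟨g, hg⟩⁻¹, hM.conj_mem y hy ⟨g, hg⟩, rfl⟩
    · exact (Group.isNilpotent_congr (Subgroup.equivMapOfInjective M _ G1.subtype_injective)).1 hMnil

end Vale.Agent.P188.H754
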