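import Vale.Agent.P188.H754.Malcev4

/-!
Second pass: flags for the whole group on the characters of the isolated derived series of the
nilpotent normal subgroup.
-/

universe u v

namespace Vale.Agent.P188.H754

open Module
open scoped commutatorElement

section trig

variable {Γ : Type u} [Group Γ]

/-- quotient representation by an invariant subspace -/
def quoRepT {V : Type v} [AddCommGroup V] [Module ℂ V] (ρ : Γ →* Module.End ℂ V)
    (W : Submodule ℂ V) (hW : ∀ g : Γ, ∀ x ∈ W, ρ g x ∈ W) : Γ →* Module.End ℂ (V ⧸ W) where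
  toFun g := W.mapQ W (ρ g) (fun x hx => hW g x hx)
  map_one' := by
    apply Submodule.linearMap_qext
    ext x; simp
  map_mul' a b := by
    apply Submodule.linearMap_qext
    ext x; simp

theorem quoRepT_mk {V : Type v} [AddCommGroup V] [Module ℂ V] (ρ : Γ →* Module.End ℂ V)
    (W : Submodule ℂ V) (hW : ∀ g : Γ, ∀ x ∈ W, ρ g x ∈ W) (g : Γ) (x : V) :
    quoRepT ρ W hW g (W.mkQ x) = W.mkQ (ρ g x) := by
  simp [quoRepT]

/-- (unipotent)-by-abelian groups are trigonalisable -/
theorem trig (N : Subgroup Γ) [hNn : N.Normal] (hcomm : ∀ a b : Γ, ⁅a, b⁆ ∈ N)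
    {V : Type v} [AddCommGroup V] [Module ℂ V] [FiniteDimensional ℂ V]
    (ρ : Γ →* Module.End ℂ V) (E : ℕ → Submodule ℂ V) (d : ℕ) (hE0 : E 0 = ⊥) (hEd : E d = ⊤)
    (hE : ∀ n ∈ N, ∀ j, ∀ x ∈ E (j + 1), ρ n x - x ∈ E j) :
    ∃ F m, FlagData ρ ⊤ F m ∧ ∀ n ∈ N, ∀ j, ∀ x ∈ F (j + 1), ρ n x - x ∈ F j := by
  classical
  generalize hn : finrank ℂ V = n
  induction n using Nat.strong_induction_on generalizing V with
  | _ n ih =>
  rcases subsingleton_or_nontrivial V with hV | hV
  · refine ⟨fun _ => ⊤, 0, ⟨Subsingleton.elim _ _, rfl, fun _ _ _ => le_rfl, ?_⟩, ?_⟩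
    · intro g _ i
      exact ⟨0, fun x _ => trivial⟩
    · intro n _ j x _; trivial
  let W0 : Submodule ℂ V :=
    { carrier := {x | ∀ n ∈ N, ρ n x = x}
      zero_mem' := by intro n _; exact map_zero _
      add_mem' := by
        intro a b ha hb n hn
        rw [map_add, ha n hn, hb n hn]
      smul_mem' := by
        intro c a ha n hn
        rw [map_smul, ha n hn] }
  have hW0 : W0 ≠ ⊥ := by
    have hex : ∃ j, E j ≠ ⊥ := ⟨d, by rw [hEd]; exact top_ne_bot⟩
    have h1 := Nat.find_spec hex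
    have h2 : Nat.find hex ≠ 0 := by
      intro h0
      rw [h0] at h1
      exact h1 hE0
    obtain ⟨i, hi⟩ := Nat.exists_eq_succ_of_ne_zero h2
    have h3 : E i = ⊥ := by
      by_contra hne
      exact Nat.find_min hex (m := i) (by omega) hne
    rw [hi] at h1
    intro hbot
    apply h1
    rw [eq_bot_iff]
    intro x hx
    rw [← hbot]
    intro n hn
    have h4 := hE n hn i x hx
    rw [h3, Submodule.mem_bot] at h4
    exact sub_eq_zero.1 h4
  have hW0inv : ∀ g : Γ, ∀ x ∈ W0, ρ g x ∈ W0 := by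
    intro g x hx n hn
    have h1 : n * g = g * (g⁻¹ * n * g) := by group
    have h2 : g⁻¹ * n * g ∈ N := by
      have := hNn.conj_mem n hn g⁻¹
      simpa using this
    have h3 := hx _ h2
    rw [← Module.End.mul_apply, ← map_mul, h1, map_mul, Module.End.mul_apply, h3]
  have : Nontrivial W0 := Submodule.nontrivial_iff_ne_bot.2 hW0
  obtain ⟨χ, x₀, hx₀, hχ⟩ := exists_common_eigenvector
    (fun g : Γ => (ρ g).restrict (hW0inv g)) (by
      intro a b
      refine LinearMap.ext fun x => Subtype.ext ?_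
      change ρ a (ρ b x) = ρ b (ρ a x)
      have h1 : a * b = b * a * ⁅a⁻¹, b⁻¹⁆ := by rw [commutatorElement_def]; group
      rw [← Module.End.mul_apply, ← Module.End.mul_apply, ← map_mul, ← map_mul, h1, map_mul,
        Module.End.mul_apply, x.2 _ (hcomm _ _)])
  have hx₀' : (x₀ : V) ≠ 0 := fun h => hx₀ (Subtype.ext h)
  have hχ' : ∀ g, ρ g (x₀ : V) = χ g • (x₀ : V) := fun g => congrArg Subtype.val (hχ g)
  let W : Submodule ℂ V := Submodule.span ℂ {(x₀ : V)}
  have hWχ : ∀ g, ∀ x ∈ W, ρ g x = χ g • x := by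
    intro g x hx
    obtain ⟨a, rfl⟩ := Submodule.mem_span_singleton.1 hx
    rw [map_smul, hχ', smul_comm]
  have hWN : ∀ n ∈ N, ∀ x ∈ W, ρ n x = x := by
    intro n hn x hx
    obtain ⟨a, rfl⟩ := Submodule.mem_span_singleton.1 hx
    rw [map_smul, x₀.2 n hn]
  have hW : ∀ g : Γ, ∀ x ∈ W, ρ g x ∈ W := by
    intro g x hx
    rw [hWχ g x hx]
    exact W.smul_mem _ hx
  have hWne : W ≠ ⊥ := by
    intro h
    apply hx₀'
    have : (x₀ : V) ∈ W := Submodule.mem_span_singleton_self _
    rwa [h, Submodule.mem_bot] at this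
  have hlt : finrank ℂ (V ⧸ W) < n := by
    have h1 := Submodule.finrank_quotient_add_finrank W
    have h2 : 0 < finrank ℂ W := by
      have : Nontrivial W := Submodule.nontrivial_iff_ne_bot.2 hWne
      exact finrank_pos
    omega
  obtain ⟨F', m', hF', hFN'⟩ := ih _ hlt (quoRepT ρ W hW) (fun j => (E j).map W.mkQ)
    (by rw [hE0, Submodule.map_bot]) (by rw [hEd, Submodule.map_top, Submodule.range_mkQ])
    (by
      rintro n hn j _ ⟨x, hx, rfl⟩
      rw [quoRepT_mk, ← map_sub]
      exact ⟨_, hE n hn j x hx, rfl⟩) rfl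
  let F : ℕ → Submodule ℂ V := fun i => match i with
    | 0 => ⊥
    | j + 1 => (F' j).comap W.mkQ
  have hF1 : F 1 = W := by
    change (F' 0).comap W.mkQ = W
    rw [hF'.zero, Submodule.comap_bot, Submodule.ker_mkQ]
  refine ⟨F, m' + 1, ⟨rfl, ?_, ?_, ?_⟩, ?_⟩
  · change (F' m').comap W.mkQ = ⊤
    rw [hF'.top, Submodule.comap_top]
  · apply monotone_nat_of_le_succ
    intro i
    cases i with
    | zero => exact bot_le
    | succ j => exact Submodule.comap_mono (hF'.mono (Nat.le_succ j))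
  · intro g _ i
    cases i with
    | zero =>
      refine ⟨χ g, fun x hx => ?_⟩
      rw [hF1] at hx
      rw [hWχ g x hx, sub_self]
      exact zero_mem _
    | succ j =>
      obtain ⟨c, hc⟩ := hF'.scal g trivial j
      refine ⟨c, fun x hx => ?_⟩
      have h1 := hc _ hx
      rw [quoRepT_mk, ← map_smul, ← map_sub] at h1
      exact h1
  · intro n hn i x hx
    cases i with
    | zero =>
      rw [hF1] at hx
      rw [hWN n hn x hx, sub_self]
      exact zero_mem _
    | succ j =>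
      have h1 := hFN' n hn j _ hx
      rw [quoRepT_mk, ← map_sub] at h1
      exact h1

/-- the characters of `H` vanishing on `H ∩ K` -/
def chAnn (H K : Subgroup Γ) : Submodule ℂ (Ch H) where
  carrier := {φ | ∀ x (hx : x ∈ H), x ∈ K → ev φ x hx = 0}
  zero_mem' := by intro x hx _; rfl
  add_mem' := by
    intro a b ha hb x hx hxK
    rw [ev_add, ha x hx hxK, hb x hx hxK, add_zero]
  smul_mem' := by
    intro c a ha x hx hxK
    rw [ev_smul, ha x hx hxK, mul_zero]

theorem exists_flag_nil {N H : Subgroup Γ} [hNn : N.Normal] [H.Normal] (hH : H.FG) (hHN : H ≤ N)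
    (hcomm : ∀ a b : Γ, ⁅a, b⁆ ∈ N) (hnil : Group.IsNilpotent N) :
    ∃ F m, FlagData (conjRep H) ⊤ F m ∧
      ∀ n ∈ N, ∀ j, ∀ φ ∈ F (j + 1), conjRep H n φ - φ ∈ F j := by
  have hfd : FiniteDimensional ℂ (Ch H) := finiteDimensional_ch hH
  obtain ⟨k, hk⟩ := (Subgroup.isNilpotent_iff_lowerCentralSeries N).1 hnil
  refine trig N hcomm (conjRep H) (fun j => chAnn H (N.lowerCentralSeries j)) k ?_ ?_ ?_
  · rw [eq_bot_iff]
    intro φ hφ
    rw [Submodule.mem_bot]
    apply ch_ext
    intro x hx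
    exact hφ x hx (by rw [Subgroup.lowerCentralSeries_zero]; exact hHN hx)
  · rw [eq_top_iff]
    intro φ _ x hx hxK
    rw [hk, Subgroup.mem_bot] at hxK
    rw [ev_congr φ hx hxK, ev_one]
  · intro n hn j φ hφ x hx hxK
    rw [ev_sub, ev_conjRep]
    have h1 : n⁻¹ * x * n * x⁻¹ ∈ H :=
      H.mul_mem (conj_mem_of_normal hx n) (H.inv_mem hx)
    have h2 : n⁻¹ * x * n * x⁻¹ ∈ N.lowerCentralSeries (j + 1) := by
      have e : n⁻¹ * x * n * x⁻¹ = ⁅x, n⁻¹⁆⁻¹ := by rw [commutatorElement_def]; group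
      rw [e, Subgroup.lowerCentralSeries_succ]
      exact inv_mem (Subgroup.commutator_mem_commutator hxK (N.inv_mem hn))
    have h3 := hφ _ h1 h2
    rw [ev_mul φ (conj_mem_of_normal hx n) (H.inv_mem hx), ev_inv φ hx] at h3
    rw [sub_eq_add_neg]; exact h3

end trig

end Vale.Agent.P188.H754
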