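import Vale.Agent.P188.H754.Malcev5

/-!
Integrality of the conjugation representation, and finiteness of bounded eigenvalues.
-/

universe u v

namespace Vale.Agent.P188.H754

open Module
open scoped commutatorElement

section integ

variable {G : Type u} [Group G]

theorem ch_prod {H : Subgroup G} (ψ : Ch H) {k : ℕ} (x : Fin k → H) (z : Fin k → ℤ) :
    ψ (Additive.ofMul (List.ofFn fun i => x i ^ z i).prod)
      = ∑ i, (z i : ℂ) * ψ (Additive.ofMul (x i)) := by
  let ψ' : H →* Multiplicative ℂ := AddMonoidHom.toMultiplicativeRight ψ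
  have h1 : ψ' (List.ofFn fun i => x i ^ z i).prod = ∏ i, ψ' (x i) ^ z i := by
    rw [map_list_prod, List.map_ofFn, List.prod_ofFn]
    refine Finset.prod_congr rfl fun i _ => ?_
    simp
  have h2 := congrArg Multiplicative.toAdd h1
  rw [toAdd_prod] at h2
  refine h2.trans (Finset.sum_congr rfl fun i _ => ?_)
  rw [toAdd_zpow, zsmul_eq_mul]
  rfl

/-- an integral dual basis of the space of characters -/
theorem exists_int_basis {H : Subgroup G} (hH : H.FG) :
    ∃ (r : ℕ) (b : Basis (Fin r) ℂ (Ch H)) (x : Fin r → H),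
      (∀ (φ : Ch H) i, b.repr φ i = φ (Additive.ofMul (x i))) ∧
      ∀ i (y : H), ∃ z : ℤ, b i (Additive.ofMul y) = z := by
  classical
  have hfgH : Group.FG H := (Group.fg_iff_subgroup_fg H).2 hH
  have hfgA : Group.FG (Abelianization H) := QuotientGroup.fg _
  obtain ⟨ι, j, hι, hj, p, hp, e, ⟨E⟩⟩ :=
    CommGroup.equiv_free_prod_prod_multiplicative_zmod (Abelianization H)
  set F := ((i : ι) → Multiplicative (ZMod (p i ^ e i))) with hF
  have hfinF : Finite F := by
    have : ∀ i, NeZero (p i ^ e i) := fun i => ⟨pow_ne_zero _ (hp i).ne_zero⟩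
    have : ∀ i, Finite (Multiplicative (ZMod (p i ^ e i))) := fun i =>
      (inferInstance : Finite (ZMod (p i ^ e i)))
    rw [hF]
    infer_instance
  let r : j ≃ Fin (Fintype.card j) := Fintype.equivFin j
  -- the projection
  let π : H →* (j → Multiplicative ℤ) × F := E.toMonoidHom.comp Abelianization.of
  have hπ : Function.Surjective π := E.surjective.comp (QuotientGroup.mk'_surjective _)
  let q : Fin (Fintype.card j) → Ch H := fun i =>
    { toFun := fun y => ((Multiplicative.toAdd ((π y.toMul).1 (r.symm i)) : ℤ) : ℂ)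
      map_zero' := by simp
      map_add' := by intro a b; simp }
  have hx : ∀ i : Fin (Fintype.card j), ∃ x : H,
      π x = (Pi.mulSingle (r.symm i) (Multiplicative.ofAdd (1 : ℤ)), 1) := fun i => hπ _
  choose x hx using hx
  have hqx : ∀ i l, q i (Additive.ofMul (x l)) = if i = l then 1 else 0 := by
    intro i l
    change ((Multiplicative.toAdd ((π (x l)).1 (r.symm i)) : ℤ) : ℂ) = _
    rw [hx l]
    by_cases h : i = l
    · subst h; simp
    · simp [h, Pi.mulSingle_eq_of_ne]
  -- every character is determined by its values at the `x i`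
  have hdet : ∀ φ : Ch H, (∀ i, φ (Additive.ofMul (x i)) = 0) → φ = 0 := by
    intro φ hφ
    -- the kernel of `π.1` consists of elements killed by `φ`
    have hker : ∀ y : H, (∀ i, q i (Additive.ofMul y) = 0) → φ (Additive.ofMul y) = 0 := by
      intro y hy
      have h1 : (π y).1 = 1 := by
        funext i
        have h2 := hy (r i)
        change ((Multiplicative.toAdd ((π y).1 (r.symm (r i))) : ℤ) : ℂ) = 0 at h2
        rw [Equiv.symm_apply_apply] at h2
        have h3 : Multiplicative.toAdd ((π y).1 i) = 0 := by exact_mod_cast h2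
        rw [← ofAdd_toAdd ((π y).1 i), h3, ofAdd_zero]; rfl
      have h2 : ((π y) ^ (Nat.card F)) = 1 := by
        refine Prod.ext ?_ ?_
        · rw [Prod.pow_fst, h1, one_pow]; rfl
        · rw [Prod.pow_snd, pow_card_eq_one']; rfl
      have h3 : Abelianization.of (y ^ Nat.card F) = 1 := by
        rw [← map_pow] at h2
        exact E.injective (by rw [map_one]; exact h2)
      -- lift φ
      let φ' : H →* Multiplicative ℂ := AddMonoidHom.toMultiplicativeRight φ
      have h4 : φ' (y ^ Nat.card F) = 1 := by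
        rw [← Abelianization.lift_apply_of φ' (y ^ Nat.card F), h3, map_one]
      have h5 : φ (Additive.ofMul (y ^ Nat.card F)) = 0 := h4
      have h6 : (Nat.card F : ℂ) * φ (Additive.ofMul y) = 0 := by
        rw [← h5, ofMul_pow, map_nsmul, nsmul_eq_mul]
      rcases mul_eq_zero.1 h6 with h | h
      · have : Nat.card F ≠ 0 := Nat.card_pos.ne'
        exact absurd (by exact_mod_cast h) this
      · exact h
    refine AddMonoidHom.ext fun y => ?_
    -- correct `y`
    have hq : ∀ i, ∃ z : ℤ, q i y = z := fun i => ⟨_, rfl⟩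
    choose z hz using hq
    let w : H := (List.ofFn fun i => x i ^ z i).prod
    have hw : ∀ ψ : Ch H, ψ (Additive.ofMul w) = ∑ i, (z i : ℂ) * ψ (Additive.ofMul (x i)) :=
      fun ψ => ch_prod ψ x z
    have h1 : φ (Additive.ofMul (y.toMul * w⁻¹)) = 0 := by
      apply hker
      intro i
      rw [ofMul_mul, ofMul_inv, map_add, map_neg, hw, ofMul_toMul, hz i]
      simp [hqx]
    rw [ofMul_mul, ofMul_inv, map_add, map_neg, hw, ofMul_toMul] at h1
    simp only [hφ, mul_zero, Finset.sum_const_zero, neg_zero, add_zero] at h1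
    rw [h1]; rfl
  -- the linear equivalence
  let L : Ch H →ₗ[ℂ] (Fin (Fintype.card j) → ℂ) :=
    { toFun := fun φ i => φ (Additive.ofMul (x i))
      map_add' := by intro a b; rfl
      map_smul' := by intro c a; rfl }
  have hLinj : Function.Injective L := by
    rw [← LinearMap.ker_eq_bot, LinearMap.ker_eq_bot']
    intro φ hφ
    exact hdet φ (fun i => congrFun hφ i)
  have hLq : ∀ i, L (q i) = Pi.single i 1 := by
    intro i
    funext l
    change q i (Additive.ofMul (x l)) = _
    rw [hqx, Pi.single_apply]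
    by_cases h : i = l
    · simp [h]
    · simp [h, Ne.symm h]
  have hLsurj : Function.Surjective L := by
    intro v
    refine ⟨∑ i, v i • q i, ?_⟩
    rw [map_sum]
    simp only [map_smul, hLq]
    funext l
    simp [Finset.sum_apply, Pi.single_apply]
  let Le : Ch H ≃ₗ[ℂ] (Fin (Fintype.card j) → ℂ) := LinearEquiv.ofBijective L ⟨hLinj, hLsurj⟩
  let b := Basis.ofEquivFun Le
  have hb : ∀ i, b i = q i := by
    intro i
    apply Le.injective
    change Le (b i) = L (q i)
    rw [hLq]
    simp [b]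
  refine ⟨Fintype.card j, b, x, ?_, ?_⟩
  · intro φ i
    rfl
  · intro i y
    rw [hb]
    exact ⟨_, rfl⟩


/-- bounded eigenvalues of the conjugation representation form a finite set -/
theorem finite_eig {H : Subgroup G} [H.Normal] (hH : H.FG) (R : ℝ) :
    ∃ E : Set ℂ, E.Finite ∧ ∀ g : G, (∀ μ, (conjRep H g).HasEigenvalue μ → ‖μ‖ ≤ R) →
      ∀ μ, (conjRep H g).HasEigenvalue μ → μ ∈ E := by
  classical
  have hfd : FiniteDimensional ℂ (Ch H) := finiteDimensional_ch hH
  obtain ⟨r, b, x, hbx, hbz⟩ := exists_int_basis hH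
  set C : ℝ := max R 1 ^ r * r.choose (r / 2) with hC
  have hU : {z : ℤ | |(z : ℝ)| ≤ C}.Finite := by
    refine (Set.finite_Icc (-(⌈C⌉)) (⌈C⌉)).subset ?_
    intro z hz
    have hz' : |(z : ℝ)| ≤ C := hz
    rw [abs_le] at hz'
    have h3 := Int.le_ceil C
    refine ⟨?_, ?_⟩
    · have : (-(⌈C⌉ : ℤ) : ℝ) ≤ z := by linarith [hz'.1]
      exact_mod_cast this
    · have : (z : ℝ) ≤ (⌈C⌉ : ℤ) := by linarith [hz'.2]
      exact_mod_cast this
  refine ⟨_, Polynomial.bUnion_roots_finite (Int.castRingHom ℂ) r hU, ?_⟩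
  intro g hg μ hμ
  -- the integer matrix
  have hent : ∀ i l, ∃ z : ℤ, LinearMap.toMatrix b b (conjRep H g) i l = z := by
    intro i l
    rw [LinearMap.toMatrix_apply, hbx]
    have h1 : conjRep H g (b l) (Additive.ofMul (x i))
        = b l (Additive.ofMul ⟨g⁻¹ * (x i : G) * g, conj_mem_of_normal (x i).2 g⟩) :=
      ev_conjRep g (b l) (x i).2
    rw [h1]
    exact hbz l _
  choose A hA using hent
  have hM : LinearMap.toMatrix b b (conjRep H g) = (Matrix.of A).map (Int.castRingHom ℂ) := by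
    ext i l
    rw [hA]; simp
  have hcp : (conjRep H g).charpoly = ((Matrix.of A).charpoly).map (Int.castRingHom ℂ) := by
    rw [← LinearMap.charpoly_toMatrix (conjRep H g) b, hM, Matrix.charpoly_map]
  set f := (Matrix.of A).charpoly with hf
  have hmonic : f.Monic := Matrix.charpoly_monic _
  have hdeg : f.natDegree ≤ r := by
    rw [hf, Matrix.charpoly_natDegree_eq_dim, Fintype.card_fin]
  have hroots : ∀ z ∈ (f.map (Int.castRingHom ℂ)).roots, ‖z‖ ≤ R := by
    intro z hz
    apply hg
    rw [Module.End.hasEigenvalue_iff_isRoot_charpoly, hcp]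
    exact Polynomial.isRoot_of_mem_roots hz
  have hcoef : ∀ i, f.coeff i ∈ {z : ℤ | |(z : ℝ)| ≤ C} := by
    intro i
    have h1 := Polynomial.coeff_bdd_of_roots_le (Int.castRingHom ℂ) hmonic
      (IsAlgClosed.splits _) hdeg hroots i
    rw [Polynomial.coeff_map] at h1
    change |((f.coeff i : ℤ) : ℝ)| ≤ C
    simpa using h1
  refine Set.mem_iUnion₂.2 ⟨f, ⟨hdeg, hcoef⟩, ?_⟩
  rw [Finset.mem_coe, Multiset.mem_toFinset]
  have h2 := hμ
  rw [Module.End.hasEigenvalue_iff_isRoot_charpoly, hcp] at h2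
  exact (Polynomial.mem_roots (hmonic.map _).ne_zero).2 h2

end integ

/-- a homomorphism from `ℤ^k` to a finite dimensional space with finite preimages of bounded sets
is bounded below -/
theorem discrete_bound {k : ℕ} {J : Type*} [Fintype J] (L : (Fin k → ℤ) →+ (J → ℝ))
    (hL : ∀ R : ℝ, {v : Fin k → ℤ | ‖L v‖ ≤ R}.Finite) :
    ∃ c : ℝ, 0 < c ∧ ∀ v : Fin k → ℤ, c * ‖v‖ ≤ ‖L v‖ := by
  classical
  let Lr : (Fin k → ℝ) →ₗ[ℝ] (J → ℝ) :=
    { toFun := fun x => ∑ i, x i • L (Pi.single i 1)
      map_add' := by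
        intro x y
        rw [← Finset.sum_add_distrib]
        refine Finset.sum_congr rfl fun i _ => ?_
        rw [Pi.add_apply, add_smul]
      map_smul' := by
        intro c x
        rw [RingHom.id_apply, Finset.smul_sum]
        refine Finset.sum_congr rfl fun i _ => ?_
        rw [Pi.smul_apply, smul_eq_mul, mul_smul] }
  have hLr : ∀ v : Fin k → ℤ, Lr (fun i => (v i : ℝ)) = L v := by
    intro v
    have h1 : v = ∑ i, v i • (Pi.single i (1 : ℤ) : Fin k → ℤ) := by
      funext l
      simp [Finset.sum_apply, Pi.single_apply]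
    conv_rhs => rw [h1, map_sum]
    change ∑ i, (v i : ℝ) • L (Pi.single i 1) = _
    refine Finset.sum_congr rfl fun i _ => ?_
    rw [map_zsmul, Int.cast_smul_eq_zsmul]
  have hcast : ∀ v : Fin k → ℤ, ‖(fun i => (v i : ℝ))‖ = ‖v‖ := by
    intro v
    rw [Pi.norm_def, Pi.norm_def]
    congr 1
  by_cases hker : LinearMap.ker Lr = ⊥
  · obtain ⟨K, hK, hanti⟩ := LinearMap.exists_antilipschitzWith Lr hker
    refine ⟨(K : ℝ)⁻¹, by positivity, fun v => ?_⟩
    have h1 := hanti.le_mul_dist (fun i => (v i : ℝ)) 0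
    rw [dist_zero_right, map_zero, dist_zero_right, hLr, hcast] at h1
    rw [inv_mul_le_iff₀ (by exact_mod_cast hK)]
    exact h1
  · exfalso
    obtain ⟨x, hx, hx0⟩ := (Submodule.ne_bot_iff _).1 hker
    rw [LinearMap.mem_ker] at hx
    obtain ⟨i₀, hi₀⟩ : ∃ i, x i ≠ 0 := by
      by_contra h
      push Not at h
      exact hx0 (funext h)
    -- the rounded multiples
    let w : ℕ → Fin k → ℤ := fun n i => ⌊(n : ℝ) * x i⌋
    obtain ⟨C, hC⟩ : ∃ C : ℝ, ∀ y : Fin k → ℝ, ‖y‖ ≤ 1 → ‖Lr y‖ ≤ C := by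
      refine ⟨‖LinearMap.toContinuousLinearMap Lr‖, fun y hy => ?_⟩
      have h1 := (LinearMap.toContinuousLinearMap Lr).le_opNorm y
      calc ‖Lr y‖ ≤ ‖LinearMap.toContinuousLinearMap Lr‖ * ‖y‖ := h1
        _ ≤ ‖LinearMap.toContinuousLinearMap Lr‖ * 1 := by gcongr
        _ = _ := mul_one _
    have hw : ∀ n, w n ∈ {v : Fin k → ℤ | ‖L v‖ ≤ C} := by
      intro n
      change ‖L (w n)‖ ≤ C
      rw [← hLr]
      have h1 : Lr (fun i => ((w n i : ℤ) : ℝ)) = Lr ((fun i => ((w n i : ℤ) : ℝ)) - (n : ℝ) • x) := by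
        rw [map_sub, map_smul, hx, smul_zero, sub_zero]
      rw [h1]
      apply hC
      rw [pi_norm_le_iff_of_nonneg zero_le_one]
      intro i
      simp only [Pi.sub_apply, Pi.smul_apply, smul_eq_mul, w, Real.norm_eq_abs]
      have h2 := Int.floor_le ((n : ℝ) * x i)
      have h3 := Int.lt_floor_add_one ((n : ℝ) * x i)
      rw [abs_le]
      constructor <;> linarith
    have hfin := (hL C).image (fun v => v i₀)
    have hinf : Set.Infinite (Set.range fun n : ℕ => w n i₀) := by
      intro hf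
      obtain ⟨B, hB⟩ := hf.bddAbove
      obtain ⟨B', hB'⟩ := hf.bddBelow
      rcases lt_or_gt_of_ne hi₀ with h | h
      · obtain ⟨n, hn⟩ := exists_nat_gt ((-(B' : ℝ) + 1) / (-x i₀))
        have h1 : (B' : ℝ) ≤ w n i₀ := by exact_mod_cast hB' ⟨n, rfl⟩
        have h2 : ((w n i₀ : ℤ) : ℝ) ≤ n * x i₀ := Int.floor_le _
        rw [div_lt_iff₀ (by linarith)] at hn
        linarith
      · obtain ⟨n, hn⟩ := exists_nat_gt (((B : ℝ) + 1) / x i₀)
        have h1 : ((w n i₀ : ℤ) : ℝ) ≤ B := by exact_mod_cast hB ⟨n, rfl⟩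
        have h2 : (n : ℝ) * x i₀ < (w n i₀ : ℤ) + 1 := Int.lt_floor_add_one _
        rw [div_lt_iff₀ h] at hn
        linarith
    apply hinf
    refine hfin.subset ?_
    rintro _ ⟨n, rfl⟩
    exact ⟨w n, hw n, rfl⟩

end Vale.Agent.P188.H754
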