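import Vale.Agent.P188.H754.Malcev6

/-!
The isolated lower central series of a nilpotent normal subgroup.
-/

universe u v

namespace Vale.Agent.P188.H754

open Module
open scoped commutatorElement

/-! ### more on poly-`ℤ` groups -/

theorem PolyZ.succ_of_hom {m : ℕ} {H : Type u} [Group H] (ψ : H →* Multiplicative ℤ)
    (hψ : ∃ x, ψ x ≠ 1) (hk : PolyZ m ψ.ker) : PolyZ (m + 1) H := by
  obtain ⟨x₀, hx₀⟩ := hψ
  let D : AddSubgroup ℤ :=
    { carrier := {k | ∃ x, ψ x = Multiplicative.ofAdd k}
      zero_mem' := ⟨1, by simp⟩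
      add_mem' := by
        rintro a b ⟨x, hx⟩ ⟨y, hy⟩
        exact ⟨x * y, by rw [map_mul, hx, hy, ofAdd_add]⟩
      neg_mem' := by
        rintro a ⟨x, hx⟩
        exact ⟨x⁻¹, by rw [map_inv, hx, ofAdd_neg]⟩ }
  obtain ⟨d, hd⟩ := Int.subgroup_cyclic D
  have hmem : ∀ x, ∃ c : ℤ, Multiplicative.toAdd (ψ x) = c * d := by
    intro x
    have : Multiplicative.toAdd (ψ x) ∈ D := ⟨x, rfl⟩
    rw [hd, AddSubgroup.mem_closure_singleton] at this
    obtain ⟨c, hc⟩ := this
    exact ⟨c, by rw [← hc]; simp⟩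
  have hd0 : d ≠ 0 := by
    rintro rfl
    obtain ⟨c, hc⟩ := hmem x₀
    apply hx₀
    rw [mul_zero] at hc
    rw [← ofAdd_toAdd (ψ x₀), hc, ofAdd_zero]
  choose q hq using hmem
  let θ : H →* Multiplicative ℤ :=
    { toFun := fun x => Multiplicative.ofAdd (q x)
      map_one' := by
        have h1 := hq 1
        rw [map_one, toAdd_one] at h1
        have h2 : q 1 = 0 := by
          rcases mul_eq_zero.1 h1.symm with h | h
          · exact h
          · exact absurd h hd0
        rw [h2, ofAdd_zero]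
      map_mul' := by
        intro x y
        have h1 := hq (x * y)
        rw [map_mul, toAdd_mul, hq x, hq y, ← add_mul] at h1
        have h2 := mul_right_cancel₀ hd0 h1
        rw [← h2, ofAdd_add] }
  refine ⟨θ, ?_, ?_⟩
  · intro k
    have h1 : d ∈ D := by rw [hd]; exact AddSubgroup.subset_closure rfl
    obtain ⟨x, hx⟩ := h1
    have h2 := hq x
    rw [hx, toAdd_ofAdd] at h2
    have h3 : q x = 1 := by
      have : (q x - 1) * d = 0 := by linarith
      rcases mul_eq_zero.1 this with h | h
      · omega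
      · exact absurd h hd0
    refine ⟨x ^ (Multiplicative.toAdd k), ?_⟩
    rw [map_zpow]
    change (Multiplicative.ofAdd (q x)) ^ _ = k
    rw [h3, ← ofAdd_zsmul]
    simp
  · refine PolyZ.of_equiv m (MulEquiv.subgroupCongr ?_) hk
    ext x
    rw [MonoidHom.mem_ker, MonoidHom.mem_ker]
    change _ ↔ Multiplicative.ofAdd (q x) = 1
    constructor
    · intro h
      have h1 := hq x
      rw [h, toAdd_one] at h1
      rcases mul_eq_zero.1 h1.symm with h | h
      · rw [h, ofAdd_zero]
      · exact absurd h hd0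
    · intro h
      have h1 : q x = 0 := by simpa using h
      have h2 := hq x
      rw [h1, zero_mul] at h2
      rw [← ofAdd_toAdd (ψ x), h2, ofAdd_zero]

theorem PolyZ.ker_of : ∀ (m : ℕ) {G : Type u} [Group G], PolyZ (m + 1) G →
    ∀ ψ : G →* Multiplicative ℤ, (∃ x, ψ x ≠ 1) → PolyZ m ψ.ker := by
  intro m
  induction m with
  | zero =>
    intro G _ h ψ hψ
    obtain ⟨φ, hφ, hk⟩ := h
    have hk' : Subsingleton φ.ker := hk
    obtain ⟨t, ht⟩ := hφ (Multiplicative.ofAdd 1)
    have hdec : ∀ x : G, x = t ^ (Multiplicative.toAdd (φ x)) := by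
      intro x
      have h1 : x * (t ^ (Multiplicative.toAdd (φ x)))⁻¹ ∈ φ.ker := by
        rw [MonoidHom.mem_ker, map_mul, map_inv, map_zpow, ht, ← ofAdd_zsmul]
        simp
      have h2 : (⟨_, h1⟩ : φ.ker) = 1 := Subsingleton.elim _ _
      have h3 := congrArg Subtype.val h2
      exact mul_inv_eq_one.1 h3
    have htne : ψ t ≠ 1 := by
      intro h
      obtain ⟨x, hx⟩ := hψ
      apply hx
      rw [hdec x, map_zpow, h, one_zpow]
    change Subsingleton ψ.ker
    constructor
    have key : ∀ a : ψ.ker, (a : G) = 1 := by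
      intro a
      have h1 : ψ a = 1 := a.2
      rw [hdec a, map_zpow] at h1
      have h2 := congrArg Multiplicative.toAdd h1
      rw [toAdd_zpow, toAdd_one, smul_eq_mul] at h2
      rcases mul_eq_zero.1 h2 with h | h
      · rw [hdec a, h, zpow_zero]
      · exfalso
        apply htne
        rw [← ofAdd_toAdd (ψ t), h, ofAdd_zero]
    intro a b
    exact Subtype.ext ((key a).trans (key b).symm)
  | succ m ih =>
    intro G _ h ψ hψ
    obtain ⟨φ, hφ, hk⟩ := h
    obtain ⟨t, ht⟩ := hφ (Multiplicative.ofAdd 1)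
    by_cases htriv : ∀ x ∈ φ.ker, ψ x = 1
    · -- same kernel
      have hdec : ∀ x : G, ψ x = ψ t ^ (Multiplicative.toAdd (φ x)) := by
        intro x
        have h1 : x * (t ^ (Multiplicative.toAdd (φ x)))⁻¹ ∈ φ.ker := by
          rw [MonoidHom.mem_ker, map_mul, map_inv, map_zpow, ht, ← ofAdd_zsmul]
          simp
        have h2 := htriv _ h1
        rw [map_mul, map_inv, map_zpow] at h2
        exact mul_inv_eq_one.1 h2
      have htne : ψ t ≠ 1 := by
        intro h
        obtain ⟨x, hx⟩ := hψ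
        apply hx
        rw [hdec x, h, one_zpow]
      refine PolyZ.of_equiv (m + 1) (MulEquiv.subgroupCongr ?_) hk
      ext x
      constructor
      · exact htriv x
      · intro hx
        rw [MonoidHom.mem_ker, hdec x] at hx
        have h2 := congrArg Multiplicative.toAdd hx
        rw [toAdd_zpow, toAdd_one, smul_eq_mul] at h2
        rcases mul_eq_zero.1 h2 with h | h
        · rw [MonoidHom.mem_ker, ← ofAdd_toAdd (φ x), h, ofAdd_zero]
        · exfalso
          apply htne
          rw [← ofAdd_toAdd (ψ t), h, ofAdd_zero]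
    · push Not at htriv
      obtain ⟨s, hs, hsne⟩ := htriv
      -- restrict `ψ` to the kernel of `φ`
      have h1 := ih hk (ψ.comp φ.ker.subtype) ⟨⟨s, hs⟩, hsne⟩
      refine PolyZ.succ_of_hom (φ.comp ψ.ker.subtype) ?_ ?_
      · set d := Multiplicative.toAdd (ψ s) with hd
        set e := Multiplicative.toAdd (ψ t) with he
        have hw : t ^ d * (s ^ e)⁻¹ ∈ ψ.ker := by
          rw [MonoidHom.mem_ker, map_mul, map_inv, map_zpow, map_zpow]
          rw [← toAdd_eq_zero, toAdd_mul, toAdd_inv, toAdd_zpow, toAdd_zpow, ← hd, ← he]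
          simp only [smul_eq_mul]; ring
        refine ⟨⟨_, hw⟩, ?_⟩
        change φ (t ^ d * (s ^ e)⁻¹) ≠ 1
        rw [map_mul, map_inv, map_zpow, map_zpow, (MonoidHom.mem_ker.1 hs), one_zpow, inv_one,
          mul_one, ht, ← ofAdd_zsmul]
        intro h
        have h3 : d = 0 := by simpa using h
        apply hsne
        rw [← ofAdd_toAdd (ψ s), ← hd, h3, ofAdd_zero]
      · refine PolyZ.of_equiv m ?_ h1
        exact
          { toFun := fun x => ⟨⟨x.1.1, x.2⟩, x.1.2⟩
            invFun := fun x => ⟨⟨x.1.1, x.2⟩, x.1.2⟩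
            left_inv := fun x => rfl
            right_inv := fun x => rfl
            map_mul' := fun x y => rfl }

/-- a nonzero complex character factors through a nonzero integral one -/
theorem exists_int_char {H : Type u} [Group H] (hH : Group.FG H) (φ : Additive H →+ ℂ)
    (hφ : φ ≠ 0) : ∃ ψ : H →* Multiplicative ℤ, (∃ x, ψ x ≠ 1) ∧
      ∀ x : H, φ (Additive.ofMul x) = 0 → ψ x = 1 := by
  classical
  have hfgR : (AddMonoidHom.range φ).FG := by
    have h1 : AddGroup.FG (Additive H) := inferInstance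
    have h2 : AddGroup.FG φ.range := AddGroup.fg_of_surjective φ.rangeRestrict_surjective
    exact (AddGroup.fg_iff_addSubgroup_fg _).1 h2
  have hfin : Module.Finite ℤ φ.range :=
    Module.Finite.iff_addGroup_fg.2 ((AddGroup.fg_iff_addSubgroup_fg _).2 hfgR)
  have hfree : Module.Free ℤ φ.range := inferInstance
  obtain ⟨x₀, hx₀⟩ : ∃ x, φ x ≠ 0 := by
    by_contra h
    push Not at h
    exact hφ (AddMonoidHom.ext h)
  let b := Module.Free.chooseBasis ℤ φ.range
  obtain ⟨i, hi⟩ : ∃ i, b.repr (φ.rangeRestrict x₀) i ≠ 0 := by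
    by_contra h
    push Not at h
    have h1 : b.repr (φ.rangeRestrict x₀) = 0 := Finsupp.ext h
    have h2 : φ.rangeRestrict x₀ = 0 := by
      rwa [LinearEquiv.map_eq_zero_iff] at h1
    exact hx₀ (congrArg Subtype.val h2)
  let ψ : H →* Multiplicative ℤ :=
    { toFun := fun x => Multiplicative.ofAdd (b.repr (φ.rangeRestrict (Additive.ofMul x)) i)
      map_one' := by simp
      map_mul' := by
        intro x y
        rw [ofMul_mul, map_add, map_add, Finsupp.add_apply, ofAdd_add] }
  refine ⟨ψ, ⟨x₀.toMul, ?_⟩, ?_⟩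
  · intro h
    apply hi
    have h1 := congrArg Multiplicative.toAdd h
    exact h1
  · intro x hx
    have h1 : φ.rangeRestrict (Additive.ofMul x) = 0 := Subtype.ext hx
    change Multiplicative.ofAdd _ = _
    rw [h1, map_zero, Finsupp.zero_apply, ofAdd_zero]

/-- in a finitely generated abelian group an element killed by all characters is torsion -/
theorem torsion_of_chars {A : Type u} [CommGroup A] [Group.FG A] (a : A)
    (h : ∀ φ : Additive A →+ ℂ, φ (Additive.ofMul a) = 0) : ∃ m : ℕ, m ≠ 0 ∧ a ^ m = 1 := by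
  classical
  obtain ⟨ι, j, hι, hj, p, hp, e, ⟨E⟩⟩ := CommGroup.equiv_free_prod_prod_multiplicative_zmod A
  set F := ((i : ι) → Multiplicative (ZMod (p i ^ e i))) with hF
  have hfinF : Finite F := by
    have : ∀ i, NeZero (p i ^ e i) := fun i => ⟨pow_ne_zero _ (hp i).ne_zero⟩
    have : ∀ i, Finite (Multiplicative (ZMod (p i ^ e i))) := fun i =>
      (inferInstance : Finite (ZMod (p i ^ e i)))
    rw [hF]
    infer_instance
  have h1 : (E a).1 = 1 := by
    funext i
    let q : Additive A →+ ℂ :=
      { toFun := fun y => ((Multiplicative.toAdd ((E y.toMul).1 i) : ℤ) : ℂ)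
        map_zero' := by simp
        map_add' := by intro a b; simp }
    have h2 : ((Multiplicative.toAdd ((E a).1 i) : ℤ) : ℂ) = 0 := h q
    have h3 : Multiplicative.toAdd ((E a).1 i) = 0 := by exact_mod_cast h2
    rw [← ofAdd_toAdd ((E a).1 i), h3, ofAdd_zero]; rfl
  refine ⟨Nat.card F, Nat.card_pos.ne', ?_⟩
  apply E.injective
  rw [map_pow, map_one]
  refine Prod.ext ?_ ?_
  · rw [Prod.pow_fst, h1, one_pow]; rfl
  · rw [Prod.pow_snd, pow_card_eq_one']; rfl

end Vale.Agent.P188.H754
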