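import Vale.Agent.P188.H754.Malcev7

/-!
The isolated lower central series, its weights, and the product lemma: the weights of the graded
pieces are products of generator weights.
-/

universe u v

namespace Vale.Agent.P188.H754

open Module
open scoped commutatorElement

section lser

variable {Γ : Type u} [Group Γ]

/-- characters of `H` invariant under conjugation by `N` -/
def invCh (H N : Subgroup Γ) : Submodule ℂ (Ch H) where
  carrier := {φ | ∀ n ∈ N, ∀ x (hx : x ∈ H) (h : n⁻¹ * x * n ∈ H),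
    ev φ (n⁻¹ * x * n) h = ev φ x hx}
  zero_mem' := by intro n _ x hx h; rfl
  add_mem' := by
    intro a b ha hb n hn x hx h
    rw [ev_add, ev_add, ha n hn x hx h, hb n hn x hx h]
  smul_mem' := by
    intro c a ha n hn x hx h
    rw [ev_smul, ev_smul, ha n hn x hx h]

theorem mem_invCh {H N : Subgroup Γ} {φ : Ch H} : φ ∈ invCh H N ↔
    ∀ n ∈ N, ∀ x (hx : x ∈ H) (h : n⁻¹ * x * n ∈ H), ev φ (n⁻¹ * x * n) h = ev φ x hx := Iff.rfl

theorem mem_invCh_iff {H N : Subgroup Γ} [H.Normal] {φ : Ch H} :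
    φ ∈ invCh H N ↔ ∀ n ∈ N, conjRep H n φ = φ := by
  constructor
  · intro h n hn
    apply ch_ext
    intro x hx
    rw [ev_conjRep]
    exact h n hn x hx _
  · intro h n hn x hx hx'
    have := congrArg (fun ψ : Ch H => ev ψ x hx) (h n hn)
    simp only [ev_conjRep] at this
    exact this

theorem conjRep_mem_invCh {H N : Subgroup Γ} [H.Normal] [hN : N.Normal] {φ : Ch H}
    (hφ : φ ∈ invCh H N) (g : Γ) : conjRep H g φ ∈ invCh H N := by
  rw [mem_invCh_iff] at hφ ⊢
  intro n hn
  have h1 : n * g = g * (g⁻¹ * n * g) := by group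
  have h2 : g⁻¹ * n * g ∈ N := conj_mem_of_normal hn g
  rw [← Module.End.mul_apply, ← map_mul, h1, map_mul, Module.End.mul_apply, hφ _ h2]

/-- one step of the isolated lower central series -/
def lstep (H N : Subgroup Γ) : Subgroup Γ := ann H (invCh H N : Set (Ch H))

theorem lstep_le (H N : Subgroup Γ) : lstep H N ≤ H := ann_le _ _

instance lstep_normal (H N : Subgroup Γ) [hH : H.Normal] [hN : N.Normal] :
    (lstep H N).Normal := by
  constructor
  rintro x ⟨hx, hx'⟩ g
  refine ⟨hH.conj_mem x hx g, fun φ hφ => ?_⟩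
  have := hx' (conjRep H g⁻¹ φ) (conjRep_mem_invCh hφ g⁻¹)
  rw [ev_conjRep] at this
  rw [← this]
  exact ev_congr _ _ (by rw [inv_inv])

/-- the isolated lower central series -/
def lser (N : Subgroup Γ) : ℕ → Subgroup Γ
  | 0 => N
  | i + 1 => lstep (lser N i) N

@[simp] theorem lser_zero (N : Subgroup Γ) : lser N 0 = N := rfl

theorem lser_succ (N : Subgroup Γ) (i : ℕ) : lser N (i + 1) = lstep (lser N i) N := rfl

instance lser_normal (N : Subgroup Γ) [hN : N.Normal] : ∀ i, (lser N i).Normal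
  | 0 => hN
  | i + 1 => by
    have := lser_normal N i
    exact lstep_normal (lser N i) N

theorem lser_le (N : Subgroup Γ) : ∀ i, lser N i ≤ N
  | 0 => le_rfl
  | i + 1 => (lstep_le _ _).trans (lser_le N i)

theorem comm_mem_lstep {H N : Subgroup Γ} [H.Normal] {x n : Γ} (hx : x ∈ H) (hn : n ∈ N) :
    ⁅x, n⁆ ∈ lstep H N := by
  have h0 : n * x⁻¹ * n⁻¹ ∈ H := Subgroup.Normal.conj_mem inferInstance _ (H.inv_mem hx) n
  have h1 : ⁅x, n⁆ = x * (n * x⁻¹ * n⁻¹) := by rw [commutatorElement_def]; group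
  have h2 : ⁅x, n⁆ ∈ H := by rw [h1]; exact H.mul_mem hx h0
  refine ⟨h2, fun φ hφ => ?_⟩
  rw [ev_congr φ h2 h1, ev_mul φ hx h0]
  have h4 : n * x⁻¹ * n⁻¹ = (n⁻¹⁻¹ * x * n⁻¹)⁻¹ := by group
  rw [ev_congr φ h0 h4, ev_inv φ (conj_mem_of_normal hx n⁻¹),
    hφ n⁻¹ (N.inv_mem hn) x hx (conj_mem_of_normal hx n⁻¹)]
  ring

/-- nonzero invariant characters exist -/
theorem exists_inv_char {H N : Subgroup Γ} [hNn : N.Normal] [H.Normal] (hHN : H ≤ N)
    (hnil : Group.IsNilpotent N) {φ₀ : Ch H} (hφ₀ : φ₀ ≠ 0) :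
    ∃ φ ∈ invCh H N, φ ≠ 0 := by
  classical
  obtain ⟨k, hk⟩ := (Subgroup.isNilpotent_iff_lowerCentralSeries N).1 hnil
  -- minimal `j` with a nonzero character vanishing on `H ∩ lcs j`
  have hex : ∃ j, ∃ φ : Ch H, φ ≠ 0 ∧ φ ∈ chAnn H (N.lowerCentralSeries j) := by
    refine ⟨k, φ₀, hφ₀, ?_⟩
    intro x hx hxK
    rw [hk, Subgroup.mem_bot] at hxK
    rw [ev_congr φ₀ hx hxK, ev_one]
  obtain ⟨φ, hφ, hφj⟩ := Nat.find_spec hex
  set j := Nat.find hex with hj
  have hj0 : j ≠ 0 := by
    intro h0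
    rw [h0] at hφj
    apply hφ
    apply ch_ext
    intro x hx
    exact hφj x hx (by rw [Subgroup.lowerCentralSeries_zero]; exact hHN hx)
  obtain ⟨i, hi⟩ := Nat.exists_eq_succ_of_ne_zero hj0
  refine ⟨φ, ?_, hφ⟩
  rw [mem_invCh_iff]
  intro n hn
  by_contra hne
  refine Nat.find_min hex (m := i) (by omega) ⟨conjRep H n φ - φ, sub_ne_zero.2 hne, ?_⟩
  intro x hx hxK
  rw [ev_sub, ev_conjRep]
  have h1 : n⁻¹ * x * n * x⁻¹ ∈ H :=
    H.mul_mem (conj_mem_of_normal hx n) (H.inv_mem hx)
  have h2 : n⁻¹ * x * n * x⁻¹ ∈ N.lowerCentralSeries j := by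
    have e : n⁻¹ * x * n * x⁻¹ = ⁅x, n⁻¹⁆⁻¹ := by rw [commutatorElement_def]; group
    rw [hi, e, Subgroup.lowerCentralSeries_succ]
    exact inv_mem (Subgroup.commutator_mem_commutator hxK (N.inv_mem hn))
  have h3 := hφj _ h1 h2
  rw [ev_mul φ (conj_mem_of_normal hx n) (H.inv_mem hx), ev_inv φ hx] at h3
  rw [sub_eq_add_neg]; exact h3

theorem lser_polyZ {N : Subgroup Γ} [hNn : N.Normal] (hnil : Group.IsNilpotent N) {n : ℕ}
    (h : PolyZ n N) (i : ℕ) : ∃ m ≤ n - i, PolyZ m (lser N i) := by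
  induction i with
  | zero => exact ⟨n, by simp, h⟩
  | succ i ih =>
    obtain ⟨m, hm, hp⟩ := ih
    cases m with
    | zero =>
      have h0 : Subsingleton (lser N i) := hp
      have h1 : Subsingleton (lser N (i + 1)) := by
        constructor
        intro a b
        have h2 : (⟨a, lstep_le _ _ a.2⟩ : lser N i) = ⟨b, lstep_le _ _ b.2⟩ :=
          Subsingleton.elim _ _
        exact Subtype.ext (congrArg (fun z : lser N i => (z : Γ)) h2)
      exact ⟨0, Nat.zero_le _, h1⟩
    | succ m =>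
      have hp' := hp
      obtain ⟨φ₁, hφ₁, hk₁⟩ := hp'
      -- a nonzero complex character
      let φ' : Ch (lser N i) :=
        { toFun := fun x => ((Multiplicative.toAdd (φ₁ x.toMul) : ℤ) : ℂ)
          map_zero' := by simp
          map_add' := by intro a b; simp }
      have hφ' : φ' ≠ 0 := by
        intro h0
        obtain ⟨t, ht⟩ := hφ₁ (Multiplicative.ofAdd 1)
        have h1 : φ' (Additive.ofMul t) = 0 := by rw [h0]; rfl
        change ((Multiplicative.toAdd (φ₁ t) : ℤ) : ℂ) = 0 at h1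
        rw [ht] at h1
        simp at h1
      obtain ⟨φ, hφinv, hφ0⟩ := exists_inv_char (lser_le N i) hnil hφ'
      obtain ⟨ψ, hψ1, hψ2⟩ := exists_int_char (PolyZ.fg _ hp) φ hφ0
      have hkψ := PolyZ.ker_of m hp ψ hψ1
      let f : lser N (i + 1) →* ψ.ker :=
        { toFun := fun x => ⟨⟨x, lstep_le _ _ x.2⟩, hψ2 _ (x.2.2 φ hφinv)⟩
          map_one' := by ext; simp
          map_mul' := by intro a b; ext; simp }
      have hf : Function.Injective f := by
        intro a b hab
        have h3 := congrArg (fun z : ψ.ker => ((z : lser N i) : Γ)) hab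
        exact Subtype.ext h3
      obtain ⟨m', hm', hp''⟩ := PolyZ.of_injective m f hf hkψ
      exact ⟨m', by omega, hp''⟩

theorem lser_eq_bot {N : Subgroup Γ} [hNn : N.Normal] (hnil : Group.IsNilpotent N) {n : ℕ}
    (h : PolyZ n N) : lser N n = ⊥ := by
  obtain ⟨m, hm, hp⟩ := lser_polyZ hnil h n
  have : m = 0 := by omega
  subst this
  have h0 : Subsingleton (lser N n) := hp
  exact Subgroup.eq_bot_of_subsingleton _

/-- conjugation on the invariant characters -/
def invRep (H N : Subgroup Γ) [H.Normal] [N.Normal] : Γ →* Module.End ℂ (invCh H N) where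
  toFun g := (conjRep H g).restrict (fun _ hx => conjRep_mem_invCh hx g)
  map_one' := by ext x; simp
  map_mul' a b := by ext x; simp

theorem invRep_coe {H N : Subgroup Γ} [H.Normal] [N.Normal] (g : Γ) (φ : invCh H N) :
    ((invRep H N g φ : invCh H N) : Ch H) = conjRep H g φ := rfl

/-- nilpotency criterion, second version -/
theorem isNilpotent_of_unip' {U N : Subgroup Γ} [hNn : N.Normal] {n : ℕ} (hn : lser N n = ⊥)
    (hUN : ∃ k, U.lowerCentralSeries k ≤ N)
    (h : ∀ i < n, ∃ (F : ℕ → Submodule ℂ (invCh (lser N i) N)) (m : ℕ), F 0 = ⊥ ∧ F m = ⊤ ∧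
      ∀ u ∈ U, ∀ j, ∀ φ ∈ F (j + 1), invRep (lser N i) N u φ - φ ∈ F j) :
    Group.IsNilpotent U := by
  have key : ∀ i ≤ n, ∃ k, U.lowerCentralSeries k ≤ lser N i := by
    intro i
    induction i with
    | zero => intro _; exact hUN
    | succ i ih =>
      intro hi
      obtain ⟨F, m, hF0, hFm, hF⟩ := h i (by omega)
      let F' : ℕ → Submodule ℂ (Ch (lser N i)) := fun j => (F j).map (invCh (lser N i) N).subtype
      have h1 : ∀ j, ∃ k, U.lowerCentralSeries k ≤
          ann (lser N i) (F' j : Set (Ch (lser N i))) := by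
        intro j
        induction j with
        | zero =>
          have h2 := ih (by omega)
          have h3 : ann (lser N i) (F' 0 : Set (Ch (lser N i))) = lser N i := by
            simp only [F', hF0, Submodule.map_bot, Submodule.bot_coe]
            exact ann_zero _
          rw [h3]; exact h2
        | succ j ihj =>
          refine lcs_step (fun x hx u hu => commutator_mem_ann (U := U) ?_ hx hu) ihj
          rintro u hu _ ⟨φ, hφ, rfl⟩
          exact ⟨_, hF u hu j φ hφ, rfl⟩
      have h2 := h1 m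
      have h3 : (F' m : Set (Ch (lser N i))) = (invCh (lser N i) N : Set (Ch (lser N i))) := by
        simp only [F', hFm, Submodule.map_top, Submodule.range_subtype]
      rw [h3] at h2
      exact h2
  obtain ⟨k, hk⟩ := key n le_rfl
  rw [hn, le_bot_iff] at hk
  exact (Subgroup.isNilpotent_iff_lowerCentralSeries U).2 ⟨k, hk⟩

end lser

end Vale.Agent.P188.H754
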