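import Vale.Agent.P188.H754.Malcev8

/-!
The product lemma: weights of the graded pieces of the isolated lower central series are products
of generator weights.
-/

universe u v

namespace Vale.Agent.P188.H754

open Module
open scoped commutatorElement

section prod

variable {Γ : Type u} [Group Γ]

theorem ev_conj_inv {L N : Subgroup Γ} {φ : Ch L} (hφ : φ ∈ invCh L N) {w m : Γ} (hw : w ∈ L)
    (hm : m ∈ N) (h : m * w * m⁻¹ ∈ L) : ev φ (m * w * m⁻¹) h = ev φ w hw := by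
  have h1 : m⁻¹⁻¹ * w * m⁻¹ ∈ L := by rw [inv_inv]; exact h
  rw [← hφ m⁻¹ (N.inv_mem hm) w hw h1]
  exact ev_congr φ h (by rw [inv_inv])

variable {L N : Subgroup Γ} [L.Normal] [N.Normal]

/-- the bihomomorphism `(x, n) ↦ φ ⁅x, n⁆` -/
def bil (hLN : L ≤ N) {φ : Ch (lstep L N)} (hφ : φ ∈ invCh (lstep L N) N) (n : Γ) (hn : n ∈ N) :
    Ch L where
  toFun x := ev φ ⁅(x.toMul : Γ), n⁆ (comm_mem_lstep x.toMul.2 hn)
  map_zero' := by
    have h1 : ⁅(((0 : Additive L).toMul : L) : Γ), n⁆ = 1 := by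
      rw [commutatorElement_def]; simp
    rw [ev_congr φ _ h1, ev_one]
  map_add' := by
    intro x y
    have hx := comm_mem_lstep (N := N) x.toMul.2 hn
    have hy := comm_mem_lstep (N := N) y.toMul.2 hn
    have h0 : ((x.toMul : L) : Γ) * ⁅(y.toMul : Γ), n⁆ * ((x.toMul : L) : Γ)⁻¹ ∈ lstep L N :=
      Subgroup.Normal.conj_mem inferInstance _ hy _
    have h1 : ⁅(((x + y).toMul : L) : Γ), n⁆ =
        (((x.toMul : L) : Γ) * ⁅(y.toMul : Γ), n⁆ * ((x.toMul : L) : Γ)⁻¹) *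
          ⁅(x.toMul : Γ), n⁆ := by
      simp only [commutatorElement_def, toMul_add, Subgroup.coe_mul]
      group
    rw [ev_congr φ _ h1, ev_mul φ h0 hx, ev_conj_inv hφ hy (hLN x.toMul.2) h0, add_comm]

theorem ev_bil (hLN : L ≤ N) {φ : Ch (lstep L N)} (hφ : φ ∈ invCh (lstep L N) N) {n : Γ}
    (hn : n ∈ N) {x : Γ} (hx : x ∈ L) :
    ev (bil hLN hφ n hn) x hx = ev φ ⁅x, n⁆ (comm_mem_lstep hx hn) := rfl

theorem bil_mul (hLN : L ≤ N) {φ : Ch (lstep L N)} (hφ : φ ∈ invCh (lstep L N) N) {n m : Γ}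
    (hn : n ∈ N) (hm : m ∈ N) :
    bil hLN hφ (n * m) (N.mul_mem hn hm) = bil hLN hφ n hn + bil hLN hφ m hm := by
  apply ch_ext
  intro x hx
  rw [ev_add, ev_bil, ev_bil, ev_bil]
  have hx1 := comm_mem_lstep (N := N) hx hn
  have hx2 := comm_mem_lstep (N := N) hx hm
  have h0 : n * ⁅x, m⁆ * n⁻¹ ∈ lstep L N := Subgroup.Normal.conj_mem inferInstance _ hx2 _
  have h1 : ⁅x, n * m⁆ = ⁅x, n⁆ * (n * ⁅x, m⁆ * n⁻¹) := by
    simp only [commutatorElement_def]; group
  rw [ev_congr φ _ h1, ev_mul φ hx1 h0, ev_conj_inv hφ hx2 hn h0]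

theorem bil_congr (hLN : L ≤ N) {φ : Ch (lstep L N)} (hφ : φ ∈ invCh (lstep L N) N) {n m : Γ}
    (hn : n ∈ N) (h : n = m) : bil hLN hφ n hn = bil hLN hφ m (h ▸ hn) := by
  subst h; rfl

theorem bil_one (hLN : L ≤ N) {φ : Ch (lstep L N)} (hφ : φ ∈ invCh (lstep L N) N) :
    bil hLN hφ 1 N.one_mem = 0 := by
  have h1 := bil_mul hLN hφ N.one_mem N.one_mem
  rw [bil_congr hLN hφ (N.mul_mem N.one_mem N.one_mem) (mul_one 1)] at h1
  exact left_eq_add.1 h1

theorem bil_inv (hLN : L ≤ N) {φ : Ch (lstep L N)} (hφ : φ ∈ invCh (lstep L N) N) {n : Γ}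
    (hn : n ∈ N) : bil hLN hφ n⁻¹ (N.inv_mem hn) = - bil hLN hφ n hn := by
  have h1 := bil_mul hLN hφ hn (N.inv_mem hn)
  rw [bil_congr hLN hφ (N.mul_mem hn (N.inv_mem hn)) (mul_inv_cancel n), bil_one] at h1
  exact (neg_eq_of_add_eq_zero_right h1.symm).symm

theorem bil_mem (hLN : L ≤ N) {φ : Ch (lstep L N)} (hφ : φ ∈ invCh (lstep L N) N) {n : Γ}
    (hn : n ∈ N) : bil hLN hφ n hn ∈ invCh L N := by
  intro m hm x hx h
  rw [ev_bil, ev_bil]
  -- `⁅m⁻¹ x m, n⁆ = m⁻¹ ⁅x, m n m⁻¹⁆ m`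
  have hc : m * n * m⁻¹ ∈ N := N.mul_mem (N.mul_mem hm hn) (N.inv_mem hm)
  have h1 := comm_mem_lstep (N := N) hx hc
  have h0 : m⁻¹ * ⁅x, m * n * m⁻¹⁆ * m ∈ lstep L N := conj_mem_of_normal h1 m
  have e1 : ⁅m⁻¹ * x * m, n⁆ = m⁻¹ * ⁅x, m * n * m⁻¹⁆ * m := by
    simp only [commutatorElement_def]; group
  rw [ev_congr φ _ e1, hφ m hm _ h1 h0]
  -- additivity in the second variable
  have h2 := bil_mul hLN hφ (N.mul_mem hm hn) (N.inv_mem hm)
  rw [bil_mul hLN hφ hm hn, bil_inv hLN hφ hm] at h2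
  have h3 := congrArg (fun ψ : Ch L => ev ψ x hx) h2
  simp only [ev_bil, ev_add] at h3
  rw [h3]
  have h4 : ev (- bil hLN hφ m hm) x hx = - ev φ ⁅x, m⁆ (comm_mem_lstep hx hm) := rfl
  rw [h4]; ring

theorem bil_conj (hLN : L ≤ N) {φ : Ch (lstep L N)} (hφ : φ ∈ invCh (lstep L N) N) {g : Γ}
    {lam : ℂ} (hlam : conjRep (lstep L N) g φ = lam • φ) {n : Γ} (hn : n ∈ N) :
    conjRep L g (bil hLN hφ (g⁻¹ * n * g) (conj_mem_of_normal hn g)) = lam • bil hLN hφ n hn := by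
  apply ch_ext
  intro x hx
  rw [ev_conjRep, ev_smul, ev_bil, ev_bil]
  have h1 := comm_mem_lstep (N := N) hx hn
  have h2 := congrArg (fun ψ : Ch (lstep L N) => ev ψ ⁅x, n⁆ h1) hlam
  simp only [ev_conjRep, ev_smul] at h2
  rw [← h2]
  apply ev_congr
  simp only [commutatorElement_def]; group

theorem bil_ne_zero (hLfg : L.FG) (hLN : L ≤ N) {φ : Ch (lstep L N)}
    (hφ : φ ∈ invCh (lstep L N) N) (hφ0 : φ ≠ 0) : ∃ n, ∃ hn : n ∈ N, bil hLN hφ n hn ≠ 0 := by
  classical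
  by_contra hcon
  push Not at hcon
  apply hφ0
  -- `φ` vanishes on `⁅L, N⁆`
  have hvan : ⁅L, N⁆ ≤ ann (lstep L N) {φ} := by
    rw [Subgroup.commutator_le]
    intro x hx n hn
    refine ⟨comm_mem_lstep hx hn, ?_⟩
    rintro ψ rfl
    have h1 := congrArg (fun ψ : Ch L => ev ψ x hx) (hcon n hn)
    exact h1
  have hDL : ⁅L, N⁆ ≤ L := Subgroup.commutator_le_left L N
  let D : Subgroup L := (⁅L, N⁆).subgroupOf L
  have hDn : D.Normal := inferInstance
  have hcommQ : ∀ a b : L ⧸ D, a * b = b * a := by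
    intro a b
    induction a using QuotientGroup.induction_on with | H a => ?_
    induction b using QuotientGroup.induction_on with | H b => ?_
    rw [← QuotientGroup.mk_mul, ← QuotientGroup.mk_mul, QuotientGroup.eq,
      Subgroup.mem_subgroupOf]
    have h2 : (((a * b)⁻¹ * (b * a) : L) : Γ) = ⁅(b : Γ)⁻¹, (a : Γ)⁻¹⁆ := by
      rw [commutatorElement_def]; push_cast; group
    rw [h2]
    exact Subgroup.commutator_mem_commutator (L.inv_mem b.2) (N.inv_mem (hLN a.2))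
  letI : CommGroup (L ⧸ D) :=
    { (inferInstance : Group (L ⧸ D)) with mul_comm := hcommQ }
  have hfgL : Group.FG L := (Group.fg_iff_subgroup_fg L).2 hLfg
  have hfgQ : Group.FG (L ⧸ D) := QuotientGroup.fg _
  apply ch_ext
  intro y hy
  have hyL : y ∈ L := lstep_le L N hy
  obtain ⟨m, hm0, hm⟩ := torsion_of_chars (A := L ⧸ D) (QuotientGroup.mk ⟨y, hyL⟩) (by
    intro ψ
    let ψ' : Ch L := ψ.comp (QuotientGroup.mk' D).toAdditive
    have h1 : ψ' ∈ invCh L N := by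
      intro n hn x hx h
      change ψ (Additive.ofMul (QuotientGroup.mk ⟨n⁻¹ * x * n, h⟩))
        = ψ (Additive.ofMul (QuotientGroup.mk ⟨x, hx⟩))
      congr 2
      rw [QuotientGroup.eq, Subgroup.mem_subgroupOf]
      change (n⁻¹ * x * n)⁻¹ * x ∈ ⁅L, N⁆
      have e : (n⁻¹ * x * n)⁻¹ * x = ⁅x⁻¹, n⁻¹⁆⁻¹ := by
        rw [commutatorElement_def]; group
      rw [e]
      exact inv_mem (Subgroup.commutator_mem_commutator (L.inv_mem hx) (N.inv_mem hn))
    exact hy.2 ψ' h1)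
  rw [← QuotientGroup.mk_pow, QuotientGroup.eq_one_iff, Subgroup.mem_subgroupOf] at hm
  have h2 := hvan hm
  obtain ⟨h3, h4⟩ := h2
  have h5 := h4 φ rfl
  have h6 : ev φ (y ^ m) ((lstep L N).pow_mem hy m) = 0 := h5
  rw [ev_pow φ hy m] at h6
  rcases mul_eq_zero.1 h6 with h | h
  · exact absurd (by exact_mod_cast h) hm0
  · exact h

/-- the product lemma -/
theorem prod_lemma (hLfg : L.FG) (hLN : L ≤ N) (g : Γ) (lam : ℂ)
    (h : (invRep (lstep L N) N g).HasEigenvalue lam) :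
    ∃ μ ν, (invRep L N g).HasEigenvalue μ ∧ (conjRep N g).HasEigenvalue ν ∧ lam = μ * ν := by
  classical
  have hfd : FiniteDimensional ℂ (Ch L) := finiteDimensional_ch hLfg
  obtain ⟨φ, hφe⟩ := h.exists_hasEigenvector
  have hφ1 : invRep (lstep L N) N g φ = lam • φ := Module.End.mem_eigenspace_iff.1 hφe.1
  have hφ0 : (φ : Ch (lstep L N)) ≠ 0 := fun h => hφe.2 (Subtype.ext h)
  have hφ := φ.2
  have hlam : conjRep (lstep L N) g (φ : Ch (lstep L N)) = lam • (φ : Ch (lstep L N)) :=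
    congrArg Subtype.val hφ1
  have hlam0 : lam ≠ 0 := by
    rintro rfl
    rw [zero_smul] at hlam
    apply hφ0
    rw [← ρ_inv_apply (conjRep (lstep L N)) g (φ : Ch (lstep L N)), hlam, map_zero]
  let V' : Submodule ℂ (Ch L) := Submodule.span ℂ {ψ | ∃ n, ∃ hn : n ∈ N, bil hLN hφ n hn = ψ}
  have hB : ∀ n (hn : n ∈ N), bil hLN hφ n hn ∈ V' := fun n hn =>
    Submodule.subset_span ⟨n, hn, rfl⟩
  have hV'le : V' ≤ invCh L N := by
    rw [Submodule.span_le]
    rintro _ ⟨n, hn, rfl⟩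
    exact bil_mem hLN hφ hn
  have hT0 : ∀ n (hn : n ∈ N), ∃ hn' : g * n * g⁻¹ ∈ N,
      conjRep L g (bil hLN hφ n hn) = lam • bil hLN hφ (g * n * g⁻¹) hn' := by
    intro n hn
    have hn' : g * n * g⁻¹ ∈ N := Subgroup.Normal.conj_mem inferInstance n hn g
    refine ⟨hn', ?_⟩
    rw [← bil_conj hLN hφ hlam hn']
    congr 1
    exact bil_congr hLN hφ hn (by group)
  have hTV : ∀ x ∈ V', conjRep L g x ∈ V' := by
    intro x hx
    have : V' ≤ V'.comap (conjRep L g) := by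
      rw [Submodule.span_le]
      rintro _ ⟨n, hn, rfl⟩
      obtain ⟨hn', h1⟩ := hT0 n hn
      change conjRep L g (bil hLN hφ n hn) ∈ V'
      rw [h1]
      exact V'.smul_mem _ (hB _ hn')
    exact this hx
  obtain ⟨n₀, hn₀, hn₀'⟩ := bil_ne_zero hLfg hLN hφ hφ0
  have hV'0 : Nontrivial V' := by
    refine ⟨⟨⟨_, hB n₀ hn₀⟩, 0, ?_⟩⟩
    intro h
    exact hn₀' (congrArg Subtype.val h)
  let S : Module.End ℂ V' := (conjRep L g).restrict hTV
  obtain ⟨μ, hμ⟩ := Module.End.exists_eigenvalue (Module.Dual.transpose (R := ℂ) S)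
  obtain ⟨ψ, hψe⟩ := hμ.exists_hasEigenvector
  have hψ1 : ∀ x : V', ψ (S x) = μ * ψ x := by
    intro x
    have h1 := Module.End.mem_eigenspace_iff.1 hψe.1
    have h2 := congrArg (fun f : Module.Dual ℂ V' => f x) h1
    exact h2
  -- `μ` is an eigenvalue of `S`
  have hSμ : ∃ x : V', x ≠ 0 ∧ S x = μ • x := by
    by_contra hcon
    push Not at hcon
    have hinj : Function.Injective (S - μ • (1 : Module.End ℂ V')) := by
      rw [← LinearMap.ker_eq_bot, LinearMap.ker_eq_bot']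
      intro x hx
      by_contra hx0
      apply hcon x hx0
      rw [← sub_eq_zero]
      simpa using hx
    have hsurj := LinearMap.injective_iff_surjective.1 hinj
    apply hψe.2
    ext y
    obtain ⟨x, rfl⟩ := hsurj y
    rw [LinearMap.sub_apply, map_sub, LinearMap.smul_apply, Module.End.one_apply, map_smul, hψ1,
      smul_eq_mul, sub_self, LinearMap.zero_apply]
  obtain ⟨x, hx0, hx⟩ := hSμ
  let χ : Ch N :=
    { toFun := fun n => ψ ⟨bil hLN hφ n.toMul n.toMul.2, hB _ _⟩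
      map_zero' := by
        have h1 : (⟨bil hLN hφ ((0 : Additive N).toMul : N) (0 : Additive N).toMul.2, hB _ _⟩ :
            V') = 0 := Subtype.ext (bil_one hLN hφ)
        rw [h1, map_zero]
      map_add' := by
        intro a b
        rw [← map_add]
        congr 1
        exact Subtype.ext (bil_mul hLN hφ a.toMul.2 b.toMul.2) }
  have hχ : ∀ n (hn : n ∈ N), ev χ n hn = ψ ⟨bil hLN hφ n hn, hB n hn⟩ := fun _ _ => rfl
  have hχ0 : χ ≠ 0 := by
    intro h0
    apply hψe.2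
    have h1 : ∀ n (hn : n ∈ N), ψ ⟨bil hLN hφ n hn, hB n hn⟩ = 0 := by
      intro n hn
      rw [← hχ, h0]; rfl
    ext y
    rw [LinearMap.zero_apply]
    obtain ⟨y, hy⟩ := y
    induction hy using Submodule.span_induction with
    | mem z hz =>
      obtain ⟨n, hn, rfl⟩ := hz
      exact h1 n hn
    | zero => exact map_zero ψ
    | add a b ha hb iha ihb =>
      have : (⟨a + b, V'.add_mem ha hb⟩ : V') = ⟨a, ha⟩ + ⟨b, hb⟩ := rfl
      rw [this, map_add, iha, ihb, add_zero]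
    | smul c a ha iha =>
      have : (⟨c • a, V'.smul_mem c ha⟩ : V') = c • ⟨a, ha⟩ := rfl
      rw [this, map_smul, iha, smul_zero]
  have hrel : ∀ n (hn : n ∈ N), lam * ev χ n hn
      = μ * ev χ (g⁻¹ * n * g) (conj_mem_of_normal hn g) := by
    intro n hn
    rw [hχ, hχ, ← hψ1, ← smul_eq_mul, ← map_smul]
    congr 1
    exact Subtype.ext (bil_conj hLN hφ hlam hn).symm
  have hμ0 : μ ≠ 0 := by
    rintro rfl
    apply hχ0
    apply ch_ext
    intro n hn
    have h1 := hrel n hn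
    rw [zero_mul] at h1
    rcases mul_eq_zero.1 h1 with h | h
    · exact absurd h hlam0
    · exact h
  refine ⟨μ, lam / μ, ?_, ?_, ?_⟩
  · refine Module.End.hasEigenvalue_of_hasEigenvector (x := ⟨(x : Ch L), hV'le x.2⟩) ⟨?_, ?_⟩
    · rw [Module.End.mem_eigenspace_iff]
      apply Subtype.ext
      have h1 : ((S x : V') : Ch L) = ((μ • x : V') : Ch L) := congrArg Subtype.val hx
      exact h1
    · intro h
      apply hx0
      have h1 := congrArg (fun z : invCh L N => (z : Ch L)) h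
      exact Subtype.ext h1
  · refine Module.End.hasEigenvalue_of_hasEigenvector (x := χ) ⟨?_, hχ0⟩
    rw [Module.End.mem_eigenspace_iff]
    apply ch_ext
    intro n hn
    rw [ev_conjRep, ev_smul, div_mul_eq_mul_div, hrel n hn]
    field_simp
  · field_simp

end prod

end Vale.Agent.P188.H754
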