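import Mathlib

/-!
P188 (class C), the flats model.  `RootModel` is a root model `V ⋊ P` where `P` is an abelian
group and `V = ⨁ V r` is the decomposition in root classes.  Points of the model are pairs
`(x, p)` with `x : ∀ r, V r` and `p : P`; moving along a flat changes `p` only.
-/

namespace Vale.Agent.P188.H754

open scoped BigOperators

/-- Class level root model.  `β r` is the root height of the class `r` (a positive multiple of
all the weights in the class), `δ r * β r` is `log |det|` on `V r`. -/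
structure RootModel (P R : Type) [AddCommGroup P] [Fintype R] (V : R → Type)
    [∀ r, NormedAddCommGroup (V r)] [∀ r, NormedSpace ℝ (V r)] where
  len : P → ℝ
  len_zero : len 0 = 0
  len_nonneg : ∀ p, 0 ≤ len p
  len_neg : ∀ p, len (-p) = len p
  len_add : ∀ p q, len (p + q) ≤ len p + len q
  ρ : ∀ r, P → V r →ₗ[ℝ] V r
  ρ_zero : ∀ r, ρ r 0 = LinearMap.id
  ρ_add : ∀ r p q, ρ r (p + q) = ρ r p ∘ₗ ρ r q
  β : R → P →+ ℝ
  δ : R → ℝ
  δ_pos : ∀ r, 0 < δ r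
  Λ : ℝ
  one_le_Λ : 1 ≤ Λ
  D : ℕ
  C₀ : ℝ
  one_le_C₀ : 1 ≤ C₀
  β_bound : ∀ r p, |β r p| ≤ C₀ * len p
  ρ_bound : ∀ r p x,
    ‖ρ r p x‖ ≤ C₀ * (1 + len p) ^ D * Real.exp (max (β r p) (Λ * β r p)) * ‖x‖
  det_eq : ∀ r p, |LinearMap.det (ρ r p)| = Real.exp (δ r * β r p)
  sum_zero : ∀ p, ∑ r, δ r * β r p = 0
  neg : ∀ r, ∃ g, β r g < 0
  sep : ∀ r s, r ≠ s → ∃ g, β r g < 0 ∧ 0 < β s g

/-- Points of the model. -/
abbrev Pt (P R : Type) (V : R → Type) : Type := (∀ r, V r) × P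

namespace RootModel

variable {P R : Type} [AddCommGroup P] [Fintype R] {V : R → Type}
  [∀ r, NormedAddCommGroup (V r)] [∀ r, NormedSpace ℝ (V r)]
variable (M : RootModel P R V)

/-- The (quasi-)distance of the model. -/
noncomputable def d (q q' : Pt P R V) : ℝ :=
  M.len (q'.2 - q.2) + ∑ r, Real.log (1 + ‖M.ρ r (-q.2) (q'.1 r - q.1 r)‖)

/-- `Ψ` and `Ψ'` are quasi-inverse coarsely Lipschitz maps. -/
structure QI (K : ℝ) (Ψ Ψ' : Pt P R V → Pt P R V) : Prop where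
  lip : ∀ q q', M.d (Ψ q) (Ψ q') ≤ K * M.d q q' + K
  lip' : ∀ q q', M.d (Ψ' q) (Ψ' q') ≤ K * M.d q q' + K
  inv : ∀ q, M.d q (Ψ' (Ψ q)) ≤ K
  inv' : ∀ q, M.d q (Ψ (Ψ' q)) ≤ K

/-- Everywhere sublinear control of the root heights of `Ψ`. -/
def Sublinear (σ : R → R) (c : R → ℝ) (E : ℝ → ℝ) (Ψ : Pt P R V → Pt P R V) : Prop :=
  ∀ r, ∀ ε > 0, ∀ q q', |M.β r ((Ψ q').2 - (Ψ q).2) - c r * M.β (σ r) (q'.2 - q.2)| ≤
    ε * M.d q q' + E ε

/-- Bounded control of the root heights of `Ψ`. -/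
def Bounded (σ : R → R) (C : ℝ) (Ψ : Pt P R V → Pt P R V) : Prop :=
  ∀ r q q', |M.δ r * M.β r ((Ψ q').2 - (Ψ q).2) - M.δ (σ r) * M.β (σ r) (q'.2 - q.2)| ≤ C

/-! ### First lemmas -/

lemma C₀_pos : 0 < M.C₀ := lt_of_lt_of_le one_pos M.one_le_C₀

lemma ρ_comp (r : R) (p q : P) (x : V r) : M.ρ r (p + q) x = M.ρ r p (M.ρ r q x) := by
  rw [M.ρ_add]; rfl

lemma ρ_neg_ρ (r : R) (p : P) (x : V r) : M.ρ r (-p) (M.ρ r p x) = x := by
  rw [← M.ρ_comp, neg_add_cancel, M.ρ_zero]; rfl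

lemma ρ_ρ_neg (r : R) (p : P) (x : V r) : M.ρ r p (M.ρ r (-p) x) = x := by
  rw [← M.ρ_comp, add_neg_cancel, M.ρ_zero]; rfl

lemma logsum_nonneg (q q' : Pt P R V) :
    0 ≤ ∑ r, Real.log (1 + ‖M.ρ r (-q.2) (q'.1 r - q.1 r)‖) := by
  apply Finset.sum_nonneg
  intro r _
  apply Real.log_nonneg
  linarith [norm_nonneg (M.ρ r (-q.2) (q'.1 r - q.1 r))]

lemma d_nonneg (q q' : Pt P R V) : 0 ≤ M.d q q' :=
  add_nonneg (M.len_nonneg _) (M.logsum_nonneg q q')

lemma d_self (q : Pt P R V) : M.d q q = 0 := by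
  simp [d, M.len_zero]

lemma len_le_d (q q' : Pt P R V) : M.len (q'.2 - q.2) ≤ M.d q q' := by
  unfold d; linarith [M.logsum_nonneg q q']

lemma log_le_d (r : R) (q q' : Pt P R V) :
    Real.log (1 + ‖M.ρ r (-q.2) (q'.1 r - q.1 r)‖) ≤ M.d q q' := by
  have h := Finset.single_le_sum (f := fun r => Real.log (1 + ‖M.ρ r (-q.2) (q'.1 r - q.1 r)‖))
    (fun r _ => Real.log_nonneg (by
      linarith [norm_nonneg (M.ρ r (-q.2) (q'.1 r - q.1 r))])) (Finset.mem_univ r)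
  have h2 := M.len_nonneg (q'.2 - q.2)
  unfold d
  linarith

lemma norm_le_exp_d (r : R) (q q' : Pt P R V) :
    ‖M.ρ r (-q.2) (q'.1 r - q.1 r)‖ ≤ Real.exp (M.d q q') := by
  have h := M.log_le_d r q q'
  have h0 := norm_nonneg (M.ρ r (-q.2) (q'.1 r - q.1 r))
  have h1 : 1 + ‖M.ρ r (-q.2) (q'.1 r - q.1 r)‖ ≤ Real.exp (M.d q q') := by
    rw [← Real.log_le_iff_le_exp (by linarith)]; exact h
  linarith

lemma map_add_of_eq (r : R) (q q' q'' : Pt P R V) :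
    M.ρ r (-q.2) (q'.1 r - q.1 r) + M.ρ r (-q.2) (q''.1 r - q'.1 r) =
      M.ρ r (-q.2) (q''.1 r - q.1 r) := by
  rw [← map_add]; congr 1; abel

/-- crude operator bound -/
lemma ρ_crude (r : R) (p : P) (x : V r) :
    ‖M.ρ r p x‖ ≤ Real.exp (M.C₀ + (M.D + M.Λ * M.C₀) * M.len p) * ‖x‖ := by
  refine (M.ρ_bound r p x).trans ?_
  apply mul_le_mul_of_nonneg_right _ (norm_nonneg x)
  have hl := M.len_nonneg p
  have h1 : M.C₀ ≤ Real.exp M.C₀ := by linarith [Real.add_one_le_exp M.C₀]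
  have h2 : (1 + M.len p) ^ M.D ≤ Real.exp (M.D * M.len p) := by
    rw [Real.exp_nat_mul]
    apply pow_le_pow_left₀ (by linarith)
    linarith [Real.add_one_le_exp (M.len p)]
  have h3 : Real.exp (max (M.β r p) (M.Λ * M.β r p)) ≤ Real.exp (M.Λ * M.C₀ * M.len p) := by
    apply Real.exp_le_exp.mpr
    have hb := M.β_bound r p
    have hΛ := M.one_le_Λ
    have hb' := (abs_le.mp hb).2
    have hC := M.C₀_pos
    apply max_le
    · calc M.β r p ≤ M.C₀ * M.len p := hb'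
        _ = 1 * (M.C₀ * M.len p) := by ring
        _ ≤ M.Λ * (M.C₀ * M.len p) := by
          apply mul_le_mul_of_nonneg_right hΛ; positivity
        _ = _ := by ring
    · calc M.Λ * M.β r p ≤ M.Λ * (M.C₀ * M.len p) := by
            apply mul_le_mul_of_nonneg_left hb'; linarith
        _ = _ := by ring
  have hpow : 0 ≤ (1 + M.len p) ^ M.D := by positivity
  calc M.C₀ * (1 + M.len p) ^ M.D * Real.exp (max (M.β r p) (M.Λ * M.β r p))
      ≤ Real.exp M.C₀ * Real.exp (M.D * M.len p) * Real.exp (M.Λ * M.C₀ * M.len p) := by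
        apply mul_le_mul _ h3 (Real.exp_pos _).le (by positivity)
        exact mul_le_mul h1 h2 hpow (Real.exp_pos _).le
    _ = _ := by rw [← Real.exp_add, ← Real.exp_add]; congr 1; ring

/-- `log (1 + ‖ρ p x‖)` grows at most linearly in `len p`. -/
lemma log_ρ (r : R) (p : P) (x : V r) :
    Real.log (1 + ‖M.ρ r p x‖) ≤
      M.C₀ + (M.D + M.Λ * M.C₀) * M.len p + Real.log (1 + ‖x‖) := by
  have h := M.ρ_crude r p x
  have hx := norm_nonneg x
  have hx' := norm_nonneg (M.ρ r p x)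
  have hnn : 0 ≤ M.C₀ + (M.D + M.Λ * M.C₀) * M.len p := by
    have := M.C₀_pos; have := M.len_nonneg p; have := M.one_le_Λ
    positivity
  have h1 : 1 ≤ Real.exp (M.C₀ + (M.D + M.Λ * M.C₀) * M.len p) := Real.one_le_exp hnn
  rw [Real.log_le_iff_le_exp (by linarith), Real.exp_add, Real.exp_log (by linarith)]
  nlinarith

/-- slope constant -/
noncomputable def A₀ : ℝ := M.D + M.Λ * M.C₀

lemma A₀_nonneg : 0 ≤ M.A₀ := by
  have := M.C₀_pos; have := M.one_le_Λ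
  unfold A₀; positivity

lemma card_nonneg : (0:ℝ) ≤ Fintype.card R := by positivity

/-- quasi-triangle inequality -/
lemma d_triangle (q q' q'' : Pt P R V) :
    M.d q q'' ≤ (1 + Fintype.card R * M.A₀) * M.d q q' + M.d q' q'' +
      Fintype.card R * M.C₀ := by
  have key : ∀ r, Real.log (1 + ‖M.ρ r (-q.2) (q''.1 r - q.1 r)‖) ≤
      Real.log (1 + ‖M.ρ r (-q.2) (q'.1 r - q.1 r)‖) +
      Real.log (1 + ‖M.ρ r (-q'.2) (q''.1 r - q'.1 r)‖) +
      (M.C₀ + M.A₀ * M.len (q'.2 - q.2)) := by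
    intro r
    have e : M.ρ r (-q.2) (q''.1 r - q.1 r) = M.ρ r (-q.2) (q'.1 r - q.1 r) +
        M.ρ r (q'.2 - q.2) (M.ρ r (-q'.2) (q''.1 r - q'.1 r)) := by
      rw [← M.ρ_comp, show q'.2 - q.2 + -q'.2 = -q.2 by abel, map_add_of_eq]
    set a := M.ρ r (-q.2) (q'.1 r - q.1 r)
    set b := M.ρ r (-q'.2) (q''.1 r - q'.1 r)
    have h1 := M.log_ρ r (q'.2 - q.2) b
    have ha := norm_nonneg a
    have hb := norm_nonneg (M.ρ r (q'.2 - q.2) b)
    have h2 : Real.log (1 + ‖M.ρ r (-q.2) (q''.1 r - q.1 r)‖) ≤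
        Real.log (1 + ‖a‖) + Real.log (1 + ‖M.ρ r (q'.2 - q.2) b‖) := by
      rw [← Real.log_mul (by linarith) (by linarith)]
      apply Real.log_le_log (by positivity)
      rw [e]
      have := norm_add_le a (M.ρ r (q'.2 - q.2) b)
      nlinarith
    unfold A₀
    linarith
  have hsum := Finset.sum_le_sum (fun r (_ : r ∈ Finset.univ) => key r)
  rw [Finset.sum_add_distrib, Finset.sum_add_distrib, Finset.sum_const, nsmul_eq_mul,
    Finset.card_univ] at hsum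
  have hl : M.len (q''.2 - q.2) ≤ M.len (q'.2 - q.2) + M.len (q''.2 - q'.2) := by
    have := M.len_add (q'.2 - q.2) (q''.2 - q'.2)
    rwa [show q'.2 - q.2 + (q''.2 - q'.2) = q''.2 - q.2 by abel] at this
  have hd := M.len_le_d q q'
  have hA := M.A₀_nonneg
  have hc : (0:ℝ) ≤ Fintype.card R := by positivity
  have h3 : Fintype.card R * (M.C₀ + M.A₀ * M.len (q'.2 - q.2)) ≤
      Fintype.card R * (M.C₀ + M.A₀ * M.d q q') := by
    apply mul_le_mul_of_nonneg_left _ hc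
    have := mul_le_mul_of_nonneg_left hd hA
    linarith
  have e1 : M.d q q'' = M.len (q''.2 - q.2) +
    ∑ r, Real.log (1 + ‖M.ρ r (-q.2) (q''.1 r - q.1 r)‖) := rfl
  have e2 : M.d q q' = M.len (q'.2 - q.2) +
    ∑ r, Real.log (1 + ‖M.ρ r (-q.2) (q'.1 r - q.1 r)‖) := rfl
  have e3 : M.d q' q'' = M.len (q''.2 - q'.2) +
    ∑ r, Real.log (1 + ‖M.ρ r (-q'.2) (q''.1 r - q'.1 r)‖) := rfl
  nlinarith

/-- quasi-symmetry -/
lemma d_symm (q q' : Pt P R V) :
    M.d q' q ≤ (1 + Fintype.card R * M.A₀) * M.d q q' + Fintype.card R * M.C₀ := by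
  have key : ∀ r, Real.log (1 + ‖M.ρ r (-q'.2) (q.1 r - q'.1 r)‖) ≤
      Real.log (1 + ‖M.ρ r (-q.2) (q'.1 r - q.1 r)‖) +
      (M.C₀ + M.A₀ * M.len (q'.2 - q.2)) := by
    intro r
    have e : M.ρ r (-q'.2) (q.1 r - q'.1 r) =
        M.ρ r (-(q'.2 - q.2)) (-(M.ρ r (-q.2) (q'.1 r - q.1 r))) := by
      rw [← map_neg, ← M.ρ_comp]
      congr 1
      · congr 1; abel
      · abel
    have h1 := M.log_ρ r (-(q'.2 - q.2)) (-(M.ρ r (-q.2) (q'.1 r - q.1 r)))
    rw [← e, norm_neg, M.len_neg] at h1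
    unfold A₀
    linarith
  have hsum := Finset.sum_le_sum (fun r (_ : r ∈ Finset.univ) => key r)
  rw [Finset.sum_add_distrib, Finset.sum_const, nsmul_eq_mul, Finset.card_univ] at hsum
  have hl : M.len (q.2 - q'.2) = M.len (q'.2 - q.2) := by
    rw [← M.len_neg]; congr 1; abel
  have hd := M.len_le_d q q'
  have hA := M.A₀_nonneg
  have hc : (0:ℝ) ≤ Fintype.card R := by positivity
  have h3 : Fintype.card R * (M.C₀ + M.A₀ * M.len (q'.2 - q.2)) ≤
      Fintype.card R * (M.C₀ + M.A₀ * M.d q q') := by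
    apply mul_le_mul_of_nonneg_left _ hc
    have := mul_le_mul_of_nonneg_left hd hA
    linarith
  have e2 : M.d q q' = M.len (q'.2 - q.2) +
    ∑ r, Real.log (1 + ‖M.ρ r (-q.2) (q'.1 r - q.1 r)‖) := rfl
  have e3 : M.d q' q = M.len (q.2 - q'.2) +
    ∑ r, Real.log (1 + ‖M.ρ r (-q'.2) (q.1 r - q'.1 r)‖) := rfl
  nlinarith

end RootModel

end Vale.Agent.P188.H754
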