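import Vale.Agent.P188.Z1.Neut3
import Vale.Agent.P188.Z1.BoxQ

/-!
# P188, route A, neutral comparison (hNC), part 1: long boxes, nets

`LB B Λ d s` is the natural box with neutral size `Λ e^{d s}` and the other sizes `Λ e^s`.
-/

set_option linter.all false

open MeasureTheory Set

namespace Vale.Agent.P188.H754

open Vale.Agent.P188.Z1 Vale.Agent.P188.Z1.RModel Vale.Agent.P188.Z1.DB

/-- maximal families -/
theorem exists_max_fin {α : Type*} (U : Set α) (R : α → α → Prop) (hR : ∀ x y, R x y → R y x)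
    (N : ℕ) (hN : ∀ X : Finset α, (∀ x ∈ X, x ∈ U) → (∀ x ∈ X, ∀ y ∈ X, x ≠ y → R x y) →
      X.card ≤ N) :
    ∃ X : Finset α, (∀ x ∈ X, x ∈ U) ∧ (∀ x ∈ X, ∀ y ∈ X, x ≠ y → R x y) ∧
      ∀ u ∈ U, u ∈ X ∨ ∃ x ∈ X, ¬ R x u := by
  classical
  set T : Set ℕ := {n | ∃ X : Finset α, (∀ x ∈ X, x ∈ U) ∧
    (∀ x ∈ X, ∀ y ∈ X, x ≠ y → R x y) ∧ X.card = n} with hT
  have hne : T.Nonempty := ⟨0, ∅, by simp, by simp, rfl⟩
  have hbd : BddAbove T := by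
    refine ⟨N, ?_⟩
    rintro _ ⟨X, h1, h2, rfl⟩
    exact hN X h1 h2
  obtain ⟨X, h1, h2, h3⟩ := Nat.sSup_mem hne hbd
  refine ⟨X, h1, h2, fun u hu => ?_⟩
  by_contra hcon
  push Not at hcon
  obtain ⟨hu1, hu2⟩ := hcon
  have h4 : (insert u X).card ≤ X.card := by
    rw [h3]
    refine le_csSup hbd ⟨insert u X, ?_, ?_, rfl⟩
    · intro x hx
      rcases Finset.mem_insert.1 hx with rfl | hx
      · exact hu
      · exact h1 x hx
    · intro x hx' y hy' hxy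
      rcases Finset.mem_insert.1 hx' with rfl | hx <;> rcases Finset.mem_insert.1 hy' with rfl | hy
      · exact absurd rfl hxy
      · exact hR _ _ (hu2 y ‹_›)
      · exact hu2 x ‹_›
      · exact h2 x ‹_› y ‹_› hxy
  rw [Finset.card_insert_of_notMem hu1] at h4
  omega

section

variable {S : Type} [Group S] [MeasurableSpace S] {Γ : Type} [Group Γ]
  {V : Type} [AddCommGroup V] [Module ℝ V] {k : ℕ} {M : RModel S Γ V k}

/-- the long boxes -/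
noncomputable def LB (B : M.NatBox) (Λ d s : ℝ) : Set S :=
  B.Bx fun i => Λ * M.szh (fun _ => 1) d s i

/-- the unit box -/
def UB (B : M.NatBox) (Λ : ℝ) : Set S := B.Bx fun _ => Λ

open Classical in
theorem szh1 (d s : ℝ) (i : M.ι) : M.szh (fun _ => 1) d s i = Real.exp (if M.wt i = 0 then d * s else s) := by
  unfold szh
  split_ifs <;> simp

theorem szh1_ge {d s : ℝ} (hd : 0 ≤ d) (hs : 0 ≤ s) (i : M.ι) : 1 ≤ M.szh (fun _ => 1) d s i := by
  rw [szh1]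
  refine Real.one_le_exp ?_
  split_ifs
  · positivity
  · exact hs

variable (B : M.NatBox)

theorem LB_meas (Λ d s : ℝ) : MeasurableSet (LB B Λ d s) := B.meas _

theorem UB_meas (Λ : ℝ) : MeasurableSet (UB B Λ) := B.meas _

theorem LB_η {Λ d s : ℝ} {x : S} (hx : x ∈ LB B Λ d s) : M.η x = 1 := B.sub _ _ hx

theorem UB_η {Λ : ℝ} {x : S} (hx : x ∈ UB B Λ) : M.η x = 1 := B.sub _ _ hx

theorem LB_mono {Λ Λ' d d' s s' : ℝ} (h0 : 0 ≤ Λ) (hΛ : Λ ≤ Λ') (hd : d * s ≤ d' * s')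
    (hs : s ≤ s') : LB B Λ d s ⊆ LB B Λ' d' s' := by
  refine B.mono _ _ (fun i => mul_nonneg h0 (szh_pos _ _ _ _).le) fun i => ?_
  refine mul_le_mul hΛ ?_ (szh_pos _ _ _ _).le (h0.trans hΛ)
  rw [szh1, szh1]
  apply Real.exp_le_exp.2
  split_ifs
  · exact hd
  · exact hs

theorem UB_sub_LB {Λ d s : ℝ} (h0 : 0 ≤ Λ) (hd : 0 ≤ d) (hs : 0 ≤ s) : UB B Λ ⊆ LB B Λ d s := by
  refine B.mono _ _ (fun i => h0) fun i => ?_
  have := szh1_ge (M := M) hd hs i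
  nlinarith

theorem UB_mono {Λ Λ' : ℝ} (h0 : 0 ≤ Λ) (hΛ : Λ ≤ Λ') : UB B Λ ⊆ UB B Λ' :=
  B.mono _ _ (fun i => h0) fun i => hΛ

theorem LB_mul {Λ d s : ℝ} (h0 : 0 ≤ Λ) {x y : S} (hx : x ∈ LB B Λ d s) (hy : y ∈ LB B Λ d s) :
    x * y ∈ LB B (B.C * Λ) d s := by
  have := B.mul _ (fun i => mul_nonneg h0 (szh_pos _ _ _ _).le) x hx y hy
  have e : (fun i => B.C * (Λ * M.szh (fun _ => 1) d s i)) =
      fun i => B.C * Λ * M.szh (fun _ => 1) d s i := by funext i; ring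
  rwa [e] at this

theorem UB_mul {Λ : ℝ} (h0 : 0 ≤ Λ) {x y : S} (hx : x ∈ UB B Λ) (hy : y ∈ UB B Λ) :
    x * y ∈ UB B (B.C * Λ) := B.mul _ (fun i => h0) x hx y hy

theorem LB_inv {Λ d s : ℝ} {x : S} (hx : x ∈ LB B Λ d s) : x⁻¹ ∈ LB B Λ d s := B.inv _ _ hx

theorem UB_inv {Λ : ℝ} {x : S} (hx : x ∈ UB B Λ) : x⁻¹ ∈ UB B Λ := B.inv _ _ hx

theorem UB_one {Λ : ℝ} (h0 : 0 ≤ Λ) : (1 : S) ∈ UB B Λ := B.one _ fun _ => h0

theorem ex_mem_LB {v : V} (hv : v ∈ M.e) {Λ d s : ℝ} (hΛ : 1 ≤ Λ) (hd : 0 ≤ d) (hs : 0 ≤ s)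
    (h : B.C * (1 + M.nm v) ≤ Λ * Real.exp s) : M.ex v ∈ LB B Λ d s := by
  have hB := B.one_le
  refine B.mono _ _ (fun i => two_nonneg zero_le_one (by have := M.nm_nonneg v; positivity) i)
    (fun i => ?_) (B.ball_e v hv)
  rw [szh1]
  unfold two
  split_ifs
  · have := Real.one_le_exp (mul_nonneg hd hs)
    nlinarith
  · exact h

theorem ex_mem_LB0 {v : V} (hv : v ∈ M.Vw 0) {Λ d s : ℝ} (hΛ : 1 ≤ Λ) (hd : 0 ≤ d) (hs : 0 ≤ s)
    (h : B.C * (1 + M.nm v) ≤ Λ * Real.exp (d * s)) : M.ex v ∈ LB B Λ d s := by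
  have hB := B.one_le
  refine B.mono _ _ (fun i => two_nonneg (by have := M.nm_nonneg v; positivity) zero_le_one i)
    (fun i => ?_) (B.ball_0 v hv)
  rw [szh1]
  unfold two
  split_ifs
  · exact h
  · have := Real.one_le_exp hs
    nlinarith

/-- **Decomposition of the elements of long boxes.** -/
theorem lb_dec : ∃ C : ℝ, 1 ≤ C ∧ ∀ d : ℝ, 0 < d → d ≤ 1 → ∀ Λ : ℝ, 0 < Λ → ∃ s₀ : ℝ, ∀ s : ℝ,
    s₀ ≤ s → ∀ a ∈ LB B Λ d s, ∃ v ∈ M.e, ∃ y ∈ M.Vw 0, M.nm v ≤ Real.exp (C * s) ∧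
      M.nm y ≤ Real.exp (C * d * s) ∧ a = M.ex v * M.ex y := by
  obtain ⟨C₁, hC₁, h1⟩ := B.Iso_sub_FB 1 le_rfl
  refine ⟨2 * C₁ * C₁, by nlinarith, fun d hd hd1 Λ hΛ => ?_⟩
  obtain ⟨R₀, h2⟩ := h1 d hd hd1
  obtain ⟨R₁, h3⟩ := Filter.eventually_atTop.mp (ev_const Λ hd)
  obtain ⟨R₂, h4⟩ := Filter.eventually_atTop.mp (ev_const Λ (one_pos : (0 : ℝ) < 1))
  refine ⟨max (max R₀ R₁) (max R₂ 0), fun s hs a ha => ?_⟩
  have hs0 : 0 ≤ s := le_trans (by simp) hs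
  have b0 : R₀ ≤ s := le_trans (by simp) hs
  have b1 : R₁ ≤ s := le_trans (by simp) hs
  have b2 : R₂ ≤ s := le_trans (by simp) hs
  have h3' := h3 s b1
  have h4' := h4 s b2
  rw [one_mul] at h4'
  have hηa : M.η a = 1 := LB_η B ha
  have hsec : M.sec (a * M.τ 0) = M.τ 0 := by
    refine sec_of_η ?_
    rw [map_mul, hηa, one_mul, M.η_τ]
  have hz : a * M.τ 0 ∈ B.Iso d (2 * s) := by
    refine ⟨?_, ?_⟩
    · rw [hsec, mul_inv_cancel_right]
      refine B.mono _ _ (fun i => mul_nonneg hΛ.le (szh_pos _ _ _ _).le) (fun i => ?_) ha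
      rw [szh1]
      unfold two
      split_ifs
      · have e : Real.exp (d * (2 * s)) = Real.exp (d * s) * Real.exp (d * s) := by
          rw [← Real.exp_add]; congr 1; ring
        rw [e]
        exact mul_le_mul_of_nonneg_right h3' (Real.exp_pos _).le
      · have e : Real.exp (2 * s) = Real.exp s * Real.exp s := by
          rw [← Real.exp_add]; congr 1; ring
        rw [e]
        exact mul_le_mul_of_nonneg_right h4' (Real.exp_pos _).le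
    · have : M.θ (a * M.τ 0) = M.θ (1 : S) := by
        apply M.θ_of_η
        rw [map_mul, hηa, one_mul, M.η_τ, map_one]
        rfl
      rw [this, M.θ_one, norm_zero]
      linarith
  obtain ⟨v, hv, hvn, y, hy, hyn, w, hw, he⟩ := h2 (2 * s) (by linarith) hz
  have hw0 : w = 0 := by
    have h5 := congrArg M.η he
    rw [map_mul, map_mul, map_mul, M.η_ex, M.η_ex, hηa, M.η_τ, M.η_τ, one_mul, one_mul,
      one_mul] at h5
    exact (Multiplicative.ofAdd.injective h5).symm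
  refine ⟨v, hv, y, hy, hvn.trans (Real.exp_le_exp.2 ?_), hyn.trans (Real.exp_le_exp.2 ?_), ?_⟩
  · nlinarith [mul_nonneg (by linarith : (0:ℝ) ≤ C₁) hs0]
  · have : C₁ * d * (C₁ * (2 * s)) = 2 * C₁ * C₁ * d * s := by ring
    rw [this]
  · rw [hw0] at he
    exact mul_right_cancel he

end

end Vale.Agent.P188.H754
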