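import Vale.Agent.P188.H754.NC1

/-!
# P188, route A, neutral comparison (hNC), part 2: nets, short families
-/

set_option linter.all false

open MeasureTheory Set

namespace Vale.Agent.P188.H754

open Vale.Agent.P188.Z1 Vale.Agent.P188.Z1.RModel Vale.Agent.P188.Z1.DB

section

variable {S : Type} [Group S] [MeasurableSpace S] {Γ : Type} [Group Γ]
  {V : Type} [AddCommGroup V] [Module ℝ V] {k : ℕ} {M : RModel S Γ V k} (B : M.NatBox)

/-- number of disjoint cells in a set -/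
theorem card_cells (X : Finset S) (cell : S → Set S) (hcell : ∀ x, MeasurableSet (cell x)) (D : Set S)
    (hdis : ∀ x ∈ X, ∀ y ∈ X, x ≠ y → Disjoint (cell x) (cell y)) (hsub : ∀ x ∈ X, cell x ⊆ D)
    (m : ENNReal) (hm : ∀ x ∈ X, M.μ (cell x) = m) : (X.card : ENNReal) * m ≤ M.μ D := by
  classical
  have h1 : M.μ (⋃ x ∈ X, cell x) = ∑ x ∈ X, M.μ (cell x) :=
    measure_biUnion_finset (fun x hx y hy hxy => hdis x hx y hy hxy) fun x _ => hcell x
  rw [Finset.sum_congr rfl hm, Finset.sum_const, nsmul_eq_mul] at h1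
  rw [← h1]
  exact measure_mono (iUnion₂_subset hsub)

theorem UB_pos : M.μ (UB B 1) ≠ 0 := B.pos _ fun _ => one_pos

theorem UB_fin (Λ : ℝ) : M.μ (UB B Λ) ≠ ⊤ := B.fin _

theorem LB_fin (Λ d s : ℝ) : M.μ (LB B Λ d s) ≠ ⊤ := B.fin _

/-- right cells -/
theorem rcell_measure (A : Set S) (hA : MeasurableSet A) (x : S) :
    M.μ {z | z * x⁻¹ ∈ A} = M.μ A := (M.mp x⁻¹).measure_preimage hA.nullMeasurableSet

theorem rcell_meas (M : RModel S Γ V k) (A : Set S) (hA : MeasurableSet A) (x : S) :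
    MeasurableSet {z : S | z * x⁻¹ ∈ A} := (M.mp x⁻¹).measurable hA

/-- left cells -/
theorem lcell_measure (A : Set S) (hA : MeasurableSet A) (x : S) :
    M.μ {z | x⁻¹ * z ∈ A} = M.μ A := (M.mpl x⁻¹).measure_preimage hA.nullMeasurableSet

theorem lcell_meas (M : RModel S Γ V k) (A : Set S) (hA : MeasurableSet A) (x : S) :
    MeasurableSet {z : S | x⁻¹ * z ∈ A} := (M.mpl x⁻¹).measurable hA

/-- from measures to cardinalities -/
theorem card_le_of_measure {n : ℕ} {m : ENNReal} (hm : m ≠ 0) (hm' : m ≠ ⊤) {c : ℝ} (hc : 0 ≤ c)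
    (h : (n : ENNReal) * m ≤ ENNReal.ofReal c * m) : (n : ℝ) ≤ c := by
  have h1 : (n : ENNReal) ≤ ENNReal.ofReal c := by
    by_contra hcon
    push Not at hcon
    have := ENNReal.mul_lt_mul_left hm hm' hcon
    exact absurd h (not_le.2 this)
  have h2 := ENNReal.toReal_mono ENNReal.ofReal_ne_top h1
  rwa [ENNReal.toReal_natCast, ENNReal.toReal_ofReal hc] at h2

/-- **Nets of neutral elements.** -/
theorem net0 : ∃ (Cn : ℝ) (p : ℕ), 1 ≤ Cn ∧ ∀ r : ℝ, 0 ≤ r → ∃ Y : Finset V,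
    (∀ y ∈ Y, y ∈ M.Vw 0 ∧ M.nm y ≤ Real.exp r) ∧ (Y.card : ℝ) ≤ Cn * Real.exp (p * r) ∧
    ∀ y ∈ M.Vw 0, M.nm y ≤ Real.exp r → ∃ y' ∈ Y, ∃ β ∈ UB B Cn, M.ex y = β * M.ex y' := by
  classical
  obtain ⟨Cv, a, hCv, hvol⟩ := dbl_poly B
  have hB := B.one_le
  refine ⟨max (Cv * (2 * B.C * B.C) ^ a) B.C, a, le_max_of_le_right hB, fun r hr => ?_⟩
  set U : Set V := {y | y ∈ M.Vw 0 ∧ M.nm y ≤ Real.exp r} with hU
  set R : V → V → Prop := fun x y => Disjoint {z : S | z * (M.ex x)⁻¹ ∈ UB B 1}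
    {z : S | z * (M.ex y)⁻¹ ∈ UB B 1} with hR
  have hE : 1 ≤ Real.exp r := Real.one_le_exp hr
  set Λ : ℝ := B.C * (B.C * (1 + Real.exp r)) with hΛ
  have hΛ1 : 1 ≤ Λ := by
    have h1 : 1 ≤ B.C * (1 + Real.exp r) := by nlinarith
    nlinarith
  have hΛ2 : Λ ≤ 2 * B.C * B.C * Real.exp r := by
    have : B.C * (B.C * (1 + Real.exp r)) ≤ B.C * (B.C * (2 * Real.exp r)) := by
      apply mul_le_mul_of_nonneg_left _ (by linarith)
      apply mul_le_mul_of_nonneg_left _ (by linarith)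
      linarith
    linarith
  have hbound : ∀ X : Finset V, (∀ x ∈ X, x ∈ U) → (∀ x ∈ X, ∀ y ∈ X, x ≠ y → R x y) →
      (X.card : ℝ) ≤ Cv * Λ ^ a := by
    intro X hXU hXR
    have hne := UB_one B (zero_le_one (α := ℝ))
    have hinj : ∀ x ∈ X, ∀ y ∈ X, M.ex x = M.ex y → x = y := fun x _ y _ h => M.ex_inj h
    have h1 := card_cells (M := M) (X.image M.ex) (fun x => {z : S | z * x⁻¹ ∈ UB B 1})
      (fun x => rcell_meas M _ (UB_meas B 1) x) (UB B Λ) (by
        intro x hx y hy hxy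
        rw [Finset.mem_image] at hx hy
        obtain ⟨x', hx', rfl⟩ := hx
        obtain ⟨y', hy', rfl⟩ := hy
        exact hXR x' hx' y' hy' fun h => hxy (by rw [h])) (by
        intro x hx z hz
        rw [Finset.mem_image] at hx
        obtain ⟨x', hx', rfl⟩ := hx
        obtain ⟨h1, h2⟩ := hXU x' hx'
        have h0 := M.nm_nonneg x'
        have h3 : M.ex x' ∈ UB B (B.C * (1 + Real.exp r)) := by
          refine B.mono _ _ (fun i => two_nonneg (by positivity) zero_le_one i) (fun i => ?_)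
            (B.ball_0 x' h1)
          unfold two
          split_ifs
          · exact mul_le_mul_of_nonneg_left (by linarith) (by linarith)
          · nlinarith
        have h4 : z * (M.ex x')⁻¹ ∈ UB B (B.C * (1 + Real.exp r)) :=
          UB_mono B zero_le_one (by nlinarith) hz
        have h5 := UB_mul B (by positivity) h4 h3
        rwa [inv_mul_cancel_right] at h5) (M.μ (UB B 1))
        fun x _ => rcell_measure _ (UB_meas B 1) x
    rw [Finset.card_image_of_injOn (fun x hx y hy h => hinj x hx y hy h)] at h1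
    have h2 := hvol Λ hΛ1 (fun _ => 1) fun _ => one_pos
    have e : (fun i : M.ι => Λ * (1 : ℝ)) = fun _ => Λ := by funext i; ring
    rw [e] at h2
    exact card_le_of_measure (UB_pos B) (UB_fin B 1) (by positivity) (h1.trans h2)
  obtain ⟨Y, h1, h2, h3⟩ := exists_max_fin U R (fun x y h => h.symm) ⌊Cv * Λ ^ a⌋₊ (by
    intro X hX1 hX2
    exact Nat.le_floor (hbound X hX1 hX2))
  refine ⟨Y, h1, ?_, fun y hy hny => ?_⟩
  · refine (hbound Y h1 h2).trans ?_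
    calc Cv * Λ ^ a ≤ Cv * (2 * B.C * B.C * Real.exp r) ^ a := by gcongr
      _ = Cv * (2 * B.C * B.C) ^ a * Real.exp (a * r) := by
          rw [mul_pow, ← Real.exp_nat_mul]; ring
      _ ≤ _ := mul_le_mul_of_nonneg_right (le_max_left _ _) (Real.exp_pos _).le
  · rcases h3 y ⟨hy, hny⟩ with h | ⟨x, hx, h⟩
    · exact ⟨y, h, 1, UB_one B (by positivity), by rw [one_mul]⟩
    · rw [Set.not_disjoint_iff] at h
      obtain ⟨z, hz1, hz2⟩ := h
      refine ⟨x, hx, (z * (M.ex y)⁻¹)⁻¹ * (z * (M.ex x)⁻¹), ?_, by group⟩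
      refine UB_mono B (by positivity) (le_max_right _ _) ?_
      have := UB_mul B zero_le_one (UB_inv B hz2) hz1
      rwa [mul_one] at this

/-- elements of the boxes of bounded size have bounded length -/
theorem l_UB (Λ : ℝ) (hΛ : 0 ≤ Λ) : ∃ L : ℝ, 0 ≤ L ∧ ∀ x ∈ UB B Λ, (M.l x : ℝ) ≤ L := by
  have hC0 := M.C0_pos
  have hB := B.one_le
  have hnat : ∀ (n : ℕ) (f : Fin n → S) (c : ℝ), (∀ i, (M.l (f i) : ℝ) ≤ c) →
      (M.l (List.ofFn f).prod : ℝ) ≤ n * c := by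
    intro n
    induction n with
    | zero =>
      intro f c hc
      have : M.l (1 : S) = 0 := M.len.one
      simp [this]
    | succ n ih =>
      intro f c hc
      rw [List.ofFn_succ, List.prod_cons]
      have h1 := ih (fun i => f i.succ) c fun i => hc _
      have h2 : (M.l (f 0 * (List.ofFn fun i => f i.succ).prod) : ℝ) ≤
          M.l (f 0) + M.l (List.ofFn fun i => f i.succ).prod := by
        exact_mod_cast M.len.mul _ _
      have h3 := hc 0
      push_cast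
      linarith
  refine ⟨B.m * (M.C0 * (1 + B.C * Λ)), by positivity, fun x hx => ?_⟩
  obtain ⟨t, ht, rfl⟩ := B.gen _ (fun i => hΛ) x hx
  refine hnat _ _ _ fun i => ?_
  refine (M.met_V _).trans (mul_le_mul_of_nonneg_left ?_ hC0.le)
  rw [M.nm_smul]
  have h1 : |t i| * M.nm (M.X (B.J i)) ≤ |t i| * 1 :=
    mul_le_mul_of_nonneg_left (M.X_le _) (abs_nonneg _)
  have h2 := ht i
  linarith

/-- the short elements of a long box -/
def SB (B : M.NatBox) (Λ d s L : ℝ) : Set S := {u | u ∈ LB B Λ d s ∧ (M.l u : ℝ) ≤ L}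

/-- **Short families.** -/
theorem short_fam {Λ d s L : ℝ} (hΛ : 1 ≤ Λ) (hd : 0 ≤ d) (hs : 0 ≤ s) : ∃ X : Finset S,
    (∀ x ∈ X, x ∈ SB B Λ d s L) ∧ (X.card : ENNReal) * M.μ (UB B 1) ≤ M.μ (LB B (B.C * Λ) d s) ∧
    ∀ u ∈ SB B Λ d s L, ∃ x ∈ X, ∃ β ∈ UB B B.C, u = x * β := by
  classical
  have hB := B.one_le
  set R : S → S → Prop := fun x y => Disjoint {z : S | x⁻¹ * z ∈ UB B 1}
    {z : S | y⁻¹ * z ∈ UB B 1} with hR
  have hbound : ∀ X : Finset S, (∀ x ∈ X, x ∈ SB B Λ d s L) →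
      (∀ x ∈ X, ∀ y ∈ X, x ≠ y → R x y) →
      (X.card : ENNReal) * M.μ (UB B 1) ≤ M.μ (LB B (B.C * Λ) d s) := by
    intro X hX1 hX2
    refine card_cells (M := M) X (fun x => {z : S | x⁻¹ * z ∈ UB B 1})
      (fun x => lcell_meas M _ (UB_meas B 1) x) _ (fun x hx y hy hxy => hX2 x hx y hy hxy) ?_ _
      fun x _ => lcell_measure _ (UB_meas B 1) x
    intro x hx z hz
    have h1 := (hX1 x hx).1
    have h2 : x⁻¹ * z ∈ LB B Λ d s := UB_sub_LB B (by linarith) hd hs (UB_mono B zero_le_one hΛ hz)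
    have h3 := LB_mul B (by linarith) h1 h2
    rwa [mul_inv_cancel_left] at h3
  have hfin : ∃ N : ℕ, ∀ X : Finset S, (∀ x ∈ X, x ∈ SB B Λ d s L) →
      (∀ x ∈ X, ∀ y ∈ X, x ≠ y → R x y) → X.card ≤ N := by
    have hne := UB_pos B
    have hfi := UB_fin B 1
    obtain ⟨N, hN⟩ := exists_nat_ge ((M.μ (LB B (B.C * Λ) d s)).toReal / (M.μ (UB B 1)).toReal)
    have hpos : 0 < (M.μ (UB B 1)).toReal := ENNReal.toReal_pos hne hfi
    refine ⟨N, fun X hX1 hX2 => ?_⟩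
    have h1 := ENNReal.toReal_mono (LB_fin B _ d s) (hbound X hX1 hX2)
    rw [ENNReal.toReal_mul, ENNReal.toReal_natCast] at h1
    rw [div_le_iff₀ hpos] at hN
    have h2 : (X.card : ℝ) ≤ N := le_of_mul_le_mul_right (h1.trans hN) hpos
    exact_mod_cast h2
  obtain ⟨N, hN⟩ := hfin
  obtain ⟨X, h1, h2, h3⟩ := exists_max_fin (SB B Λ d s L) R (fun x y h => h.symm) N hN
  refine ⟨X, h1, hbound X h1 h2, fun u hu => ?_⟩
  rcases h3 u hu with h | ⟨x, hx, h⟩
  · exact ⟨u, h, 1, UB_one B (by positivity), by rw [mul_one]⟩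
  · rw [Set.not_disjoint_iff] at h
    obtain ⟨z, hz1, hz2⟩ := h
    refine ⟨x, hx, (x⁻¹ * z) * (u⁻¹ * z)⁻¹, ?_, by group⟩
    have := UB_mul B zero_le_one hz1 (UB_inv B hz2)
    rwa [mul_one] at this

/-- **From counting to measure.** -/
theorem count_measure {Λ d s L : ℝ} {X : Finset S}
    (hX : (X.card : ENNReal) * M.μ (UB B 1) ≤ M.μ (LB B (B.C * Λ) d s))
    (hcov : ∀ u ∈ SB B Λ d s L, ∃ x ∈ X, ∃ β ∈ UB B B.C, u = x * β) {Cb : ℝ}
    (hCb : M.μ (UB B B.C) ≤ ENNReal.ofReal Cb * M.μ (UB B 1)) {g : S → ℝ} {c τ θ : ℝ}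
    (hg : ∀ x : S, ∀ β ∈ UB B B.C, g (x * β) ≤ g x + c) (hθ : 0 ≤ θ)
    (Xb : Finset S) (hXb : ∀ x ∈ X, τ < g x → x ∈ Xb) (hcount : (Xb.card : ℝ) ≤ θ * X.card) :
    M.μ {u | u ∈ SB B Λ d s L ∧ τ + c < g u} ≤
      ENNReal.ofReal (θ * Cb) * M.μ (LB B (B.C * Λ) d s) := by
  classical
  have h1 : {u | u ∈ SB B Λ d s L ∧ τ + c < g u} ⊆ ⋃ x ∈ Xb, {z : S | x⁻¹ * z ∈ UB B B.C} := by
    rintro u ⟨hu, hgu⟩
    obtain ⟨x, hx, β, hβ, rfl⟩ := hcov u hu
    have h2 := hg x β hβ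
    refine mem_iUnion₂.2 ⟨x, hXb x hx (by linarith), ?_⟩
    show x⁻¹ * (x * β) ∈ UB B B.C
    rwa [inv_mul_cancel_left]
  refine (measure_mono h1).trans ((measure_biUnion_finset_le _ _).trans ?_)
  have h3 : ∀ x ∈ Xb, M.μ {z : S | x⁻¹ * z ∈ UB B B.C} = M.μ (UB B B.C) :=
    fun x _ => lcell_measure _ (UB_meas B _) x
  rw [Finset.sum_congr rfl h3, Finset.sum_const, nsmul_eq_mul]
  have h4 : (Xb.card : ENNReal) ≤ ENNReal.ofReal θ * X.card := by
    rw [← ENNReal.ofReal_natCast, ← ENNReal.ofReal_natCast X.card, ← ENNReal.ofReal_mul hθ]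
    exact ENNReal.ofReal_le_ofReal hcount
  calc (Xb.card : ENNReal) * M.μ (UB B B.C)
      ≤ (ENNReal.ofReal θ * X.card) * (ENNReal.ofReal Cb * M.μ (UB B 1)) := mul_le_mul' h4 hCb
    _ = ENNReal.ofReal θ * ENNReal.ofReal Cb * (X.card * M.μ (UB B 1)) := by ring
    _ ≤ ENNReal.ofReal θ * ENNReal.ofReal Cb * M.μ (LB B (B.C * Λ) d s) := by gcongr
    _ = _ := by rw [ENNReal.ofReal_mul hθ]

end

end Vale.Agent.P188.H754
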