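import Vale.Agent.P188.H754.NC2

/-!
# P188, route A, neutral comparison (hNC), part 3: typical points of long boxes
-/

set_option linter.all false

open MeasureTheory Set

namespace Vale.Agent.P188.H754

open Vale.Agent.P188.Z1 Vale.Agent.P188.Z1.RModel Vale.Agent.P188.Z1.DB

section

variable {S : Type} [Group S] [MeasurableSpace S] {Γ : Type} [Group Γ]
  {V : Type} [AddCommGroup V] [Module ℝ V] {k : ℕ} {M : RModel S Γ V k}

/-- the defect, with the heights of the floor -/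
noncomputable def wF (M : RModel S Γ V k) (F : Γ → Γ) (z : S) : Z1.Ht k :=
  M.f F z - M.θ (M.inG (M.fl z))

theorem θfl_le (M : RModel S Γ V k) (z : S) : ‖M.θ z - M.θ (M.inG (M.fl z))‖ ≤ M.C0 * M.C0 := by
  rw [← M.θ_inv_mul]
  exact (M.θ_le _).trans (mul_le_mul_of_nonneg_left (M.fl_close z) M.C0_pos.le)

theorem wF_sub (M : RModel S Γ V k) (F : Γ → Γ) (z x : S) :
    ‖wF M F (z * x) - wF M F z‖ ≤ ‖M.f F (z * x) - M.f F z‖ + ‖M.θ x‖ + 2 * (M.C0 * M.C0) := by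
  have h1 := θfl_le M (z * x)
  have h2 := θfl_le M z
  have h3 : M.θ (z * x) - M.θ z = M.θ x := by
    rw [← M.θ_inv_mul, inv_mul_cancel_left]
  have e : wF M F (z * x) - wF M F z = (M.f F (z * x) - M.f F z) - M.θ x +
      ((M.θ (z * x) - M.θ (M.inG (M.fl (z * x)))) - (M.θ z - M.θ (M.inG (M.fl z)))) := by
    unfold wF
    rw [← h3]
    abel
  rw [e]
  refine (norm_add_le _ _).trans ?_
  have h4 := norm_sub_le (M.f F (z * x) - M.f F z) (M.θ x)
  have h5 := norm_sub_le (M.θ (z * x) - M.θ (M.inG (M.fl (z * x)))) (M.θ z - M.θ (M.inG (M.fl z)))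
  linarith

/-- the Lipschitz constant of the defect -/
noncomputable def Cw (M : RModel S Γ V k) (K : ℝ) : ℝ :=
  M.C0 * |K| * (2 * M.C0 + 1) + M.C0 + 2 * (M.C0 * M.C0)

theorem Cw_nonneg (M : RModel S Γ V k) (K : ℝ) : 0 ≤ Cw M K := by
  have := M.C0_pos
  unfold Cw
  positivity

theorem wF_lip {K : ℝ} {F F' : Γ → Γ} (h : M.QIm K F F') (z x : S) :
    ‖wF M F (z * x) - wF M F z‖ ≤ Cw M K * (M.l x + 1) := by
  have h1 := wF_sub M F z x
  have h2 := h.f_lip z x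
  have h3 := M.θ_le x
  have hC := M.C0_pos
  have hl : (0 : ℝ) ≤ M.l x := Nat.cast_nonneg _
  have h4 : M.C0 * K * (2 * M.C0 + 1) * (M.l x + 1) ≤
      M.C0 * |K| * (2 * M.C0 + 1) * (M.l x + 1) := by
    have := le_abs_self K
    gcongr
  unfold Cw
  nlinarith [mul_nonneg hC.le hl, mul_nonneg (mul_nonneg hC.le hC.le) hl]

theorem wF_neut {F : Γ → Γ} {x : S} (hx : M.η x = 1) (z : S) :
    ‖wF M F (z * x) - wF M F z‖ ≤ ‖M.f F (z * x) - M.f F z‖ + 2 * (M.C0 * M.C0) := by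
  have h1 := wF_sub M F z x
  have h2 : M.θ x = 0 := by
    rw [← M.θ_one]
    exact M.θ_of_η (by rw [hx, map_one])
  rw [h2, norm_zero] at h1
  linarith

theorem preimage_right_le (M : RModel S Γ V k) (x : S) (A : Set S) :
    M.μ {z | z * x ∈ A} ≤ M.μ A := by
  have h2 := Measure.le_map_apply (μ := M.μ) (M.mp x).measurable.aemeasurable A
  rw [(M.mp x).map_eq] at h2
  exact h2

theorem preimage_left_le (M : RModel S Γ V k) (x : S) (A : Set S) :
    M.μ {z | x * z ∈ A} ≤ M.μ A := by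
  have h2 := Measure.le_map_apply (μ := M.μ) (M.mpl x).measurable.aemeasurable A
  rw [(M.mpl x).map_eq] at h2
  exact h2

variable (B : M.NatBox)

/-- the element `u = a (ex y')⁻¹` is short -/
theorem short_part : ∃ (A C3 : ℝ), 1 ≤ A ∧ 1 ≤ C3 ∧ ∃ (Cn : ℝ) (p : ℕ), 1 ≤ Cn ∧
    ∀ Λ : ℝ, 1 ≤ Λ → ∀ d : ℝ, 0 < d → d ≤ 1 → ∃ s₀ : ℝ, 0 ≤ s₀ ∧ ∀ s : ℝ, s₀ ≤ s → ∃ Y : Finset V,
      (Y.card : ℝ) ≤ Cn * Real.exp (p * (A * d * s)) ∧
      (∀ y ∈ Y, y ∈ M.Vw 0 ∧ M.nm y ≤ Real.exp (A * d * s)) ∧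
      ∀ a ∈ LB B Λ d s, ∃ y ∈ Y,
        a * (M.ex y)⁻¹ ∈ SB B (B.C * max Λ (2 * B.C)) (A * d) s (C3 * s) := by
  have hB := B.one_le
  have hC0 := M.C0_pos
  obtain ⟨A, hA, hdec⟩ := lb_dec B
  obtain ⟨Cn, p, hCn, hnet⟩ := net0 B
  obtain ⟨Lu, hLu, hlu⟩ := l_UB B Cn (by linarith)
  refine ⟨A, 2 * M.C0 * (A + 1) + Lu + 1, hA, by
    have : 0 ≤ 2 * M.C0 * (A + 1) := by positivity
    linarith, Cn, p, hCn, fun Λ hΛ d hd hd1 => ?_⟩
  obtain ⟨s₁, h1⟩ := hdec d hd hd1 Λ (by linarith)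
  refine ⟨max s₁ 1, le_max_of_le_right zero_le_one, fun s hs => ?_⟩
  have hs1 : 1 ≤ s := (le_max_right _ _).trans hs
  have hs0 : 0 ≤ s := by linarith
  have hr : 0 ≤ A * d * s := by positivity
  obtain ⟨Y, hY1, hY2, hY3⟩ := hnet (A * d * s) hr
  refine ⟨Y, hY2, hY1, fun a ha => ?_⟩
  obtain ⟨v, hv, y, hy, hnv, hny, hae⟩ := h1 s ((le_max_left _ _).trans hs) a ha
  obtain ⟨y', hy', β, hβ, hye⟩ := hY3 y hy hny
  obtain ⟨hy'0, hy'n⟩ := hY1 y' hy'
  have hu : a * (M.ex y')⁻¹ = M.ex v * β := by rw [hae, hye]; group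
  refine ⟨y', hy', ?_, ?_⟩
  · have hmax1 : 1 ≤ max Λ (2 * B.C) := hΛ.trans (le_max_left _ _)
    have hdA : d * s ≤ A * d * s := by nlinarith [mul_nonneg hd.le hs0]
    have h2 : a ∈ LB B (max Λ (2 * B.C)) (A * d) s :=
      LB_mono B (by linarith) (le_max_left _ _) hdA le_rfl ha
    have h3 : M.ex y' ∈ LB B (max Λ (2 * B.C)) (A * d) s := by
      refine ex_mem_LB0 B hy'0 hmax1 (by positivity) hs0 ?_
      have h4 : 1 ≤ Real.exp (A * d * s) := Real.one_le_exp hr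
      calc B.C * (1 + M.nm y') ≤ B.C * (2 * Real.exp (A * d * s)) := by
            apply mul_le_mul_of_nonneg_left _ (by linarith)
            linarith
        _ = (2 * B.C) * Real.exp (A * d * s) := by ring
        _ ≤ _ := mul_le_mul_of_nonneg_right (le_max_right _ _) (Real.exp_pos _).le
    exact LB_mul B (by linarith) h2 (LB_inv B h3)
  · rw [hu]
    have h2 : (M.l (M.ex v * β) : ℝ) ≤ M.l (M.ex v) + M.l β := by exact_mod_cast M.len.mul _ _
    have h3 := M.len_e hv (R := A * s) (by positivity) hnv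
    have h4 := hlu β hβ
    have h5 : 2 * M.C0 * (A * s + 1) ≤ 2 * M.C0 * ((A + 1) * s) := by
      apply mul_le_mul_of_nonneg_left _ (by positivity)
      linarith
    nlinarith

/-- the numerical estimate -/
theorem long_num (Cn Cv C' : ℝ) (p a : ℕ) {A d c₂ : ℝ} (hc₂ : 0 < c₂) (hCn : 0 ≤ Cn) (hCv : 0 ≤ Cv)
    (hC' : 0 ≤ C') (h : (p + a) * (A * d) ≤ c₂ / 2) : ∃ s₀ : ℝ, ∀ s : ℝ, s₀ ≤ s → 0 ≤ s →
    Cn * Real.exp (p * (A * d * s)) * ((Real.exp (-(c₂ * s)) + Real.exp (-(c₂ * s))) *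
      (Cv * (C' * Real.exp (A * d * s)) ^ a)) ≤ 1 / 4 := by
  obtain ⟨s₀, h0⟩ := Filter.eventually_atTop.mp (ev_const (8 * Cn * Cv * C' ^ a) (half_pos hc₂))
  refine ⟨s₀, fun s hs hs0 => ?_⟩
  have h1 := h0 s hs
  have e : Cn * Real.exp (p * (A * d * s)) * ((Real.exp (-(c₂ * s)) + Real.exp (-(c₂ * s))) *
      (Cv * (C' * Real.exp (A * d * s)) ^ a)) =
      (2 * Cn * Cv * C' ^ a) * Real.exp ((p + a) * (A * d) * s - c₂ * s) := by
    have e1 : Real.exp ((p + a) * (A * d) * s - c₂ * s) =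
        Real.exp (p * (A * d * s)) * Real.exp (-(c₂ * s)) * Real.exp (A * d * s) ^ a := by
      rw [← Real.exp_nat_mul, ← Real.exp_add, ← Real.exp_add]
      congr 1
      ring
    rw [e1, mul_pow]
    ring
  rw [e]
  have h2 : Real.exp ((p + a) * (A * d) * s - c₂ * s) ≤ Real.exp (-(c₂ / 2 * s)) := by
    apply Real.exp_le_exp.2
    have := mul_le_mul_of_nonneg_right h hs0
    linarith
  have h3 : (2 * Cn * Cv * C' ^ a) * Real.exp (-(c₂ / 2 * s)) ≤ 1 / 4 := by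
    rw [Real.exp_neg, ← div_eq_mul_inv, div_le_iff₀ (Real.exp_pos _)]
    linarith
  exact (mul_le_mul_of_nonneg_left h2 (by positivity)).trans h3

end

end Vale.Agent.P188.H754
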