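import Vale.Agent.P188.H754.NC3

/-!
# P188, route A, neutral comparison (hNC), part 4: most points of long boxes are typical
-/

set_option linter.all false

open MeasureTheory Set

namespace Vale.Agent.P188.H754

open Vale.Agent.P188.Z1 Vale.Agent.P188.Z1.RModel Vale.Agent.P188.Z1.DB

section

variable {S : Type} [Group S] [MeasurableSpace S] {Γ : Type} [Group Γ]
  {V : Type} [AddCommGroup V] [Module ℝ V] {k : ℕ} {M : RModel S Γ V k} (B : M.NatBox)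

/-- volumes -/
theorem vol_le {Cv : ℝ} {a : ℕ} (hvol : ∀ Λ : ℝ, 1 ≤ Λ → ∀ R : M.ι → ℝ, (∀ i, 0 < R i) →
    M.μ (B.Bx fun i => Λ * R i) ≤ ENNReal.ofReal (Cv * Λ ^ a) * M.μ (B.Bx R))
    {C' A d s : ℝ} (hC' : 1 ≤ C') (hA : 1 ≤ A) (hd : 0 < d) (hs : 0 ≤ s) :
    M.μ (LB B C' (A * d) s) ≤
      ENNReal.ofReal (Cv * (C' * Real.exp (A * d * s)) ^ a) * M.μ (LB B 1 d s) := by
  have hE : 1 ≤ Real.exp (A * d * s) := Real.one_le_exp (by positivity)
  have h1 := hvol (C' * Real.exp (A * d * s)) (by nlinarith) (M.szh (fun _ => 1) d s)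
    (szh_pos _ d s)
  have e1 : LB B 1 d s = B.Bx (M.szh (fun _ => 1) d s) := by
    unfold LB
    congr 1
    funext i
    rw [one_mul]
  rw [e1]
  refine le_trans (measure_mono ?_) h1
  refine B.mono _ _ (fun i => (mul_pos (by linarith) (szh_pos _ _ _ _)).le) fun i => ?_
  have hre : C' * Real.exp (A * d * s) * M.szh (fun _ => 1) d s i =
      C' * (Real.exp (A * d * s) * M.szh (fun _ => 1) d s i) := by ring
  rw [hre]
  refine mul_le_mul_of_nonneg_left ?_ (by linarith)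
  rw [szh1, szh1, ← Real.exp_add]
  apply Real.exp_le_exp.2
  have h2 : 0 ≤ A * d * s := by positivity
  have h3 : 0 ≤ d * s := by positivity
  split_ifs
  · linarith
  · linarith

/-- the covering of the bad set -/
theorem long_cover {Λ Λ₁ d d₁ s L ε τ : ℝ} {F : Γ → Γ} (Y : Finset V) (z' : S) (c : Z1.Ht k)
    (hY : ∀ a ∈ LB B Λ d s, ∃ y ∈ Y, a * (M.ex y)⁻¹ ∈ SB B Λ₁ d₁ s L)
    (hs : 2 * (M.C0 * M.C0) ≤ ε * s) :
    {a | a ∈ LB B Λ d s ∧ τ + 2 * (ε * s) < ‖wF M F (z' * a) - c‖} ⊆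
      ⋃ y ∈ Y, {a | a * (M.ex y)⁻¹ ∈ {u | u ∈ SB B Λ₁ d₁ s L ∧ τ < ‖wF M F (z' * u) - c‖} ∪
        {u | u ∈ B.Bx (fun i => Λ₁ * M.szh (fun _ => 1) d₁ s i) ∧
          ε * s < ‖M.f F (z' * (u * M.ex y)) - M.f F (z' * u)‖}} := by
  rintro a ⟨ha, hbad⟩
  obtain ⟨y, hy, hu⟩ := hY a ha
  refine mem_iUnion₂.2 ⟨y, hy, ?_⟩
  set u : S := a * (M.ex y)⁻¹ with hudef
  have hau : a = u * M.ex y := by rw [hudef, inv_mul_cancel_right]
  show u ∈ {u | u ∈ SB B Λ₁ d₁ s L ∧ τ < ‖wF M F (z' * u) - c‖} ∪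
        {u | u ∈ B.Bx (fun i => Λ₁ * M.szh (fun _ => 1) d₁ s i) ∧
          ε * s < ‖M.f F (z' * (u * M.ex y)) - M.f F (z' * u)‖}
  by_cases h2 : ε * s < ‖M.f F (z' * (u * M.ex y)) - M.f F (z' * u)‖
  · exact Or.inr ⟨hu.1, h2⟩
  · left
    refine ⟨hu, ?_⟩
    push Not at h2
    have h3 := wF_neut (M := M) (F := F) (M.η_ex y) (z' * u)
    have e5 : z' * (u * M.ex y) = z' * u * M.ex y := (mul_assoc _ _ _).symm
    rw [e5] at h2
    rw [hau, e5] at hbad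
    have h4 : ‖wF M F (z' * u * M.ex y) - c‖ ≤
        ‖wF M F (z' * u * M.ex y) - wF M F (z' * u)‖ + ‖wF M F (z' * u) - c‖ := by
      have e : wF M F (z' * u * M.ex y) - c = (wF M F (z' * u * M.ex y) - wF M F (z' * u)) +
        (wF M F (z' * u) - c) := by abel
      rw [e]
      exact norm_add_le _ _
    linarith

/-- **Most points of the long boxes are typical.** -/
theorem long_typ (hN : M.NEUT B) : ∃ A C3 : ℝ, 1 ≤ A ∧ 1 ≤ C3 ∧ ∀ Λ : ℝ, 1 ≤ Λ → ∀ K ε : ℝ, 0 < ε →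
    ∀ c₂ : ℝ, 0 < c₂ → ∃ d : ℝ, 0 < d ∧ d ≤ 1 ∧ ∃ s₀ : ℝ, 0 ≤ s₀ ∧ ∀ s : ℝ, s₀ ≤ s →
    ∀ F F' : Γ → Γ, M.QIm K F F' → ∀ (z' : S) (c : Z1.Ht k) (τ : ℝ),
    M.μ {u | u ∈ SB B (B.C * max Λ (2 * B.C)) (A * d) s (C3 * s) ∧
      τ < ‖wF M F (z' * u) - c‖} ≤ ENNReal.ofReal (Real.exp (-(c₂ * s))) *
        M.μ (LB B (B.C * (B.C * max Λ (2 * B.C))) (A * d) s) →
    M.μ {a | a ∈ LB B Λ d s ∧ τ + 2 * (ε * s) < ‖wF M F (z' * a) - c‖} ≤
      ENNReal.ofReal (1 / 4) * M.μ (LB B 1 d s) := by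
  classical
  have hB := B.one_le
  have hC0 := M.C0_pos
  obtain ⟨A, C3, hA, hC3, Cn, p, hCn, hshort⟩ := short_part B
  obtain ⟨Cv, a, hCv, hvol⟩ := dbl_poly B
  refine ⟨A, C3, hA, hC3, fun Λ hΛ K ε hε c₂ hc₂ => ?_⟩
  set Λ₁ : ℝ := B.C * max Λ (2 * B.C) with hΛ₁
  have hmax1 : 1 ≤ max Λ (2 * B.C) := hΛ.trans (le_max_left _ _)
  have hΛ₁1 : 1 ≤ Λ₁ := by rw [hΛ₁]; nlinarith
  obtain ⟨c₁, hc₁, hN1⟩ := hN K 1 ε Λ₁ one_pos hε (by linarith)
  obtain ⟨dm, hdm, hN2⟩ := hN1 1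
  set c₃ : ℝ := min c₁ c₂ with hc₃
  have hc₃0 : 0 < c₃ := lt_min hc₁ hc₂
  set d : ℝ := min 1 (min (dm / A) (c₃ / (2 * ((p + a + 1) * A)))) with hd
  have hA0 : 0 < A := by linarith
  have hd0 : 0 < d := by
    rw [hd]
    refine lt_min one_pos (lt_min (by positivity) (by positivity))
  have hd1 : d ≤ 1 := min_le_left _ _
  have hd2 : A * d ≤ dm := by
    have : d ≤ dm / A := (min_le_right _ _).trans (min_le_left _ _)
    rw [le_div_iff₀ hA0] at this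
    linarith
  have hd3 : (p + a) * (A * d) ≤ c₃ / 2 := by
    have h1 : d ≤ c₃ / (2 * ((p + a + 1) * A)) := (min_le_right _ _).trans (min_le_right _ _)
    rw [le_div_iff₀ (by positivity)] at h1
    have h2 : 0 ≤ A * d := by positivity
    nlinarith
  obtain ⟨s₁, hs₁⟩ := hN2 (A * d) (by positivity) hd2
  obtain ⟨s₂, hs₂0, hs₂⟩ := hshort Λ hΛ d hd0 hd1
  obtain ⟨s₃, hs₃⟩ := long_num Cn Cv (B.C * Λ₁) p a hc₃0 (by linarith) (by linarith)
    (by positivity) hd3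
  refine ⟨d, hd0, hd1, max (max s₁ s₂) (max s₃ (2 * (M.C0 * M.C0) / ε)),
    le_max_of_le_left (le_max_of_le_right hs₂0), fun s hs F F' hF z' c τ hgood => ?_⟩
  have b1 : s₁ ≤ s := le_trans (by simp) hs
  have b2 : s₂ ≤ s := le_trans (by simp) hs
  have b3 : s₃ ≤ s := le_trans (by simp) hs
  have b4 : 2 * (M.C0 * M.C0) / ε ≤ s := le_trans (by simp) hs
  have hs0 : 0 ≤ s := hs₂0.trans b2
  rw [div_le_iff₀ hε] at b4
  obtain ⟨Y, hY1, hY2, hY3⟩ := hs₂ s b2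
  have hcov := long_cover B (F := F) (τ := τ) Y z' c hY3 (by linarith : 2 * (M.C0 * M.C0) ≤ ε * s)
  set D : ENNReal := M.μ (LB B (B.C * Λ₁) (A * d) s) with hD
  -- the bad sets
  have hb2 : ∀ y ∈ Y, M.μ {u | u ∈ B.Bx (fun i => Λ₁ * M.szh (fun _ => 1) (A * d) s i) ∧
      ε * s < ‖M.f F (z' * (u * M.ex y)) - M.f F (z' * u)‖} ≤
      ENNReal.ofReal (Real.exp (-(c₃ * s))) * D := by
    intro y hy
    have h1 := hs₁ s b1 (fun _ => 1) (fun b _ => by simp) F F' hF z' y (hY2 y hy).1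
      ((hY2 y hy).2.trans (Real.exp_le_exp.2 (by linarith)))
    refine h1.trans (mul_le_mul' (ENNReal.ofReal_le_ofReal (Real.exp_le_exp.2 ?_)) ?_)
    · have := mul_le_mul_of_nonneg_right (min_le_left c₁ c₂) hs0
      rw [hc₃]
      linarith
    · refine measure_mono (B.mono _ _ (fun i => (szh_pos _ _ _ _).le) fun i => ?_)
      have h2 := szh_pos (M := M) (fun _ => 1) (A * d) s i
      have h3 : 1 ≤ B.C * Λ₁ := by nlinarith
      nlinarith
  have hb1 : M.μ {u | u ∈ SB B Λ₁ (A * d) s (C3 * s) ∧ τ < ‖wF M F (z' * u) - c‖} ≤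
      ENNReal.ofReal (Real.exp (-(c₃ * s))) * D := by
    refine hgood.trans (mul_le_mul' (ENNReal.ofReal_le_ofReal (Real.exp_le_exp.2 ?_)) le_rfl)
    have := mul_le_mul_of_nonneg_right (min_le_right c₁ c₂) hs0
    rw [hc₃]
    linarith
  have hsum : M.μ {a | a ∈ LB B Λ d s ∧ τ + 2 * (ε * s) < ‖wF M F (z' * a) - c‖} ≤
      (Y.card : ENNReal) * (ENNReal.ofReal (Real.exp (-(c₃ * s)) + Real.exp (-(c₃ * s))) * D) := by
    refine (measure_mono hcov).trans ((measure_biUnion_finset_le _ _).trans ?_)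
    rw [← nsmul_eq_mul, ← Finset.sum_const]
    refine Finset.sum_le_sum fun y hy => ?_
    refine (preimage_right_le M (M.ex y)⁻¹ _).trans ((measure_union_le _ _).trans ?_)
    rw [ENNReal.ofReal_add (Real.exp_pos _).le (Real.exp_pos _).le, add_mul]
    exact add_le_add hb1 (hb2 y hy)
  have hvolD := vol_le B hvol (C' := B.C * Λ₁) (by nlinarith) hA hd0 hs0
  have hYc : (Y.card : ENNReal) ≤ ENNReal.ofReal (Cn * Real.exp (p * (A * d * s))) := by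
    rw [← ENNReal.ofReal_natCast]
    exact ENNReal.ofReal_le_ofReal hY1
  refine hsum.trans ?_
  calc (Y.card : ENNReal) * (ENNReal.ofReal (Real.exp (-(c₃ * s)) + Real.exp (-(c₃ * s))) * D)
      ≤ ENNReal.ofReal (Cn * Real.exp (p * (A * d * s))) *
        (ENNReal.ofReal (Real.exp (-(c₃ * s)) + Real.exp (-(c₃ * s))) *
          (ENNReal.ofReal (Cv * (B.C * Λ₁ * Real.exp (A * d * s)) ^ a) * M.μ (LB B 1 d s))) := by
        gcongr
    _ = ENNReal.ofReal (Cn * Real.exp (p * (A * d * s)) *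
        ((Real.exp (-(c₃ * s)) + Real.exp (-(c₃ * s))) *
          (Cv * (B.C * Λ₁ * Real.exp (A * d * s)) ^ a))) * M.μ (LB B 1 d s) := by
        rw [ENNReal.ofReal_mul (p := Cn * _) (by positivity),
          ENNReal.ofReal_mul (p := Real.exp (-(c₃ * s)) + _) (by positivity)]
        ring
    _ ≤ _ := by
        gcongr
        exact hs₃ s b3 hs0

end

end Vale.Agent.P188.H754
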