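import Vale.Agent.P188.H754.NC4
import Vale.Agent.P188.H754.Inst3

/-!
# P188, route A, neutral comparison (hNC), part 5: path containment
-/

set_option linter.all false

open MeasureTheory Set

namespace Vale.Agent.P188.H754

namespace NM

variable {S : Type} {Γ : Type} {Ht : Type} [Group S] [Group Γ]
  [NormedAddCommGroup Ht] [NormedSpace ℝ Ht] (M : NM S Γ Ht)

/-- **Path containment.** -/
theorem path_cont {L : ℝ} (hL : 0 ≤ L) : ∃ K : ℝ, 0 ≤ K ∧ ∀ (p : ℕ → S) (m : ℕ) (H : ℝ), 0 ≤ H →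
    p 0 = 1 → (∀ i < m, M.l ((p i)⁻¹ * p (i + 1)) ≤ L) → (∀ i ≤ m, ‖M.θ (p i)‖ ≤ H) →
    ∃ e ∈ M.E, ∃ c ∈ M.CW (⌈M.C0 * L⌉₊ * (m + 1)), p m = e * c ∧
      M.l e ≤ M.C0 * (M.C0 * H + (M.C0 + 1) * Real.log ((m : ℝ) + 1) + K) := by
  have hC := M.C0_pos
  have hC1 := M.one_le_C0
  set q : ℕ := ⌈M.C0 * L⌉₊ with hq
  have hq0 : (0 : ℝ) ≤ q := Nat.cast_nonneg _
  set a : ℝ := L + M.C0 * q with ha
  have ha0 : 0 ≤ a := by positivity
  refine ⟨M.C0 * (a + q + 1) + M.C0 * q + 2, by positivity, fun p m H hH hp0 hp hθ => ?_⟩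
  have hlog : 0 ≤ Real.log ((m : ℝ) + 1) := Real.log_nonneg (by
    have : (0 : ℝ) ≤ m := Nat.cast_nonneg _
    linarith)
  have hexpm : (m : ℝ) + 1 ≤ Real.exp (Real.log ((m : ℝ) + 1)) :=
    (Real.exp_log (by positivity)).ge
  obtain ⟨ε, c, e, h1, h2, h3, h4, h5⟩ := M.pc_le hL p m (by rw [hp0, M.l_one]; exact hL) hp
  set L' : ℝ := M.C0 * (a + H + (q + Real.log ((m : ℝ) + 1)) + 1) + M.C0 * q with hL'
  have hL'0 : 0 ≤ L' := by positivity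
  have hε := M.eps_len hL'0 ε (fun i => c i * e i * (c i)⁻¹) m ⟨h2 0, ?_⟩ (fun i hi => ⟨?_, ?_, ?_⟩)
    m le_rfl
  · refine ⟨ε m, h2 m, c m, h3 m le_rfl, h1 m, hε.trans ?_⟩
    refine mul_le_mul_of_nonneg_left ?_ hC.le
    have h6 : Real.log ((m : ℝ) + 1 + 1) ≤ Real.log ((m : ℝ) + 1) + 1 := by
      rw [Real.log_le_iff_le_exp (by positivity), Real.exp_add, Real.exp_log (by positivity)]
      have h7 : (2 : ℝ) ≤ Real.exp 1 := by have := Real.add_one_le_exp (1 : ℝ); linarith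
      have h8 : (0 : ℝ) ≤ m := Nat.cast_nonneg _
      nlinarith
    have e1 : L' = M.C0 * H + M.C0 * Real.log ((m : ℝ) + 1) + (M.C0 * (a + q + 1) + M.C0 * q) := by
      rw [hL']; ring
    rw [e1]
    linarith
  · have h6 : ε 0 = (c 0)⁻¹ := by
      have := h1 0
      rw [hp0] at this
      exact eq_inv_of_mul_eq_one_left this.symm
    rw [h6, M.l_inv]
    have h7 := M.CW_l _ _ (h3 0 (Nat.zero_le _))
    refine h7.trans ?_
    rw [zero_add, mul_one]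
    have : 0 ≤ M.C0 * (a + H + (q + Real.log ((m : ℝ) + 1)) + 1) := by positivity
    rw [hL']
    linarith
  · exact (h5 i hi).1
  · exact M.E_normal.conj_mem _ (h5 i hi).2.1 _
  · refine (M.con _ (c i) (h3 i hi.le) (e i) (h5 i hi).2.1).trans ?_
    have h6 : Real.log (((q * (i + 1) : ℕ) : ℝ) + 1) ≤ q + Real.log ((m : ℝ) + 1) :=
      nat_log_le hexpm i hi.le
    have h7 := (h5 i hi).2.2.1
    have h8 : ‖M.θ (c i)‖ ≤ H := by rw [h4]; exact hθ i hi.le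
    have h9 : M.C0 * (M.l (e i) + ‖M.θ (c i)‖ + Real.log (((q * (i + 1) : ℕ) : ℝ) + 1) + 1) ≤
        M.C0 * (a + H + (q + Real.log ((m : ℝ) + 1)) + 1) := by
      refine mul_le_mul_of_nonneg_left ?_ hC.le
      linarith
    have h10 : 0 ≤ M.C0 * q := by positivity
    rw [hL']
    linarith

end NM

section

open Vale.Agent.P188.Z1 Vale.Agent.P188.Z1.RModel Vale.Agent.P188.Z1.DB

variable {S : Type} [Group S] [MeasurableSpace S] {Γ : Type} [Group Γ]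
  {V : Type} [AddCommGroup V] [Module ℝ V] {k : ℕ} (M : RModel S Γ V k)

/-- path containment in the real model -/
theorem path_R (hX : M.Extra) : ∃ C : ℝ, 1 ≤ C ∧ ∀ A : ℕ, ∃ K : ℕ, 1 ≤ K ∧
    ∀ (z : ℕ → S) (m : ℕ) (H : ℝ), 0 ≤ H → (∀ i < m, M.l ((z i)⁻¹ * z (i + 1)) ≤ A) →
    (∀ i ≤ m, ‖M.θ (z i) - M.θ (z 0)‖ ≤ H) →
    ∃ e ∈ M.E, ∃ c ∈ M.CB (K * (m + 1)), (z 0)⁻¹ * z m = e * c ∧
      (M.l e : ℝ) ≤ C * (H + Real.log ((m : ℝ) + 1) + K) := by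
  obtain ⟨N, hNl, hNθ, hNG, hNf, hNE, hNC⟩ := exists_NM M hX
  have hC1 := N.one_le_C0
  refine ⟨N.C0 * (N.C0 + 1), by nlinarith, fun A => ?_⟩
  obtain ⟨K, hK, h⟩ := N.path_cont (L := A) (Nat.cast_nonneg _)
  refine ⟨⌈N.C0 * A⌉₊ + ⌈K⌉₊ + 1, by omega, fun z m H hH hz hθ => ?_⟩
  obtain ⟨e, he, c, hc, h1, h2⟩ := h (fun i => (z 0)⁻¹ * z i) m H hH (by simp) (fun i hi => by
    have e1 : ((z 0)⁻¹ * z i)⁻¹ * ((z 0)⁻¹ * z (i + 1)) = (z i)⁻¹ * z (i + 1) := by group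
    rw [e1, hNl]
    exact_mod_cast hz i hi) (fun i hi => by
    rw [hNθ, M.θ_inv_mul]
    exact hθ i hi)
  refine ⟨e, hNE ▸ he, c, ?_, h1, ?_⟩
  · have h3 : c ∈ N.CW ((⌈N.C0 * A⌉₊ + ⌈K⌉₊ + 1) * (m + 1)) :=
      N.CW_mono _ _ (Nat.mul_le_mul_right _ (by omega)) hc
    rw [hNC] at h3
    exact h3
  · rw [hNl] at h2
    refine h2.trans ?_
    have hlog : 0 ≤ Real.log ((m : ℝ) + 1) := Real.log_nonneg (by
      have : (0 : ℝ) ≤ m := Nat.cast_nonneg _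
      linarith)
    have h4 : K ≤ ⌈K⌉₊ := Nat.le_ceil K
    have h5 : (0 : ℝ) ≤ ⌈N.C0 * A⌉₊ := Nat.cast_nonneg _
    rw [mul_assoc]
    refine mul_le_mul_of_nonneg_left ?_ (by linarith)
    push_cast
    nlinarith

end

end Vale.Agent.P188.H754
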