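import Vale.Agent.P188.H754.NC5

/-!
# P188, route A, neutral comparison (hNC), part 6: displacements along slab paths
-/

set_option linter.all false

open MeasureTheory Set

namespace Vale.Agent.P188.H754

section

open Vale.Agent.P188.Z1 Vale.Agent.P188.Z1.RModel Vale.Agent.P188.Z1.DB

variable {S : Type} [Group S] [MeasurableSpace S] {Γ : Type} [Group Γ]
  {V : Type} [AddCommGroup V] [Module ℝ V] {k : ℕ} {M : RModel S Γ V k}

/-- the numerical estimates -/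
theorem nin_num0 {c K C0 R N : ℝ} (hK : 0 ≤ K) (hC0 : 1 ≤ C0) (hR : 1 ≤ R) (hc : 0 ≤ c)
    (hN0 : 0 ≤ N)
    (hN : N ≤ K * (Real.exp (c * R) + 1) + (C0 * (1 + 2 * R) + 1))
    (h1 : 2 * K ≤ Real.exp (c * R)) (h5 : 2 ≤ Real.exp (c * R))
    (h2 : (2 + K + 4 * C0) * (1 + R) ≤ Real.exp (c * R)) : 1 + N ≤ Real.exp (2 * c * R) := by
  have e1 : Real.exp (2 * c * R) = Real.exp (c * R) * Real.exp (c * R) := by
    rw [← Real.exp_add]; congr 1; ring
  obtain ⟨E, hE⟩ : ∃ E, E = Real.exp (c * R) := ⟨_, rfl⟩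
  rw [e1, ← hE]
  rw [← hE] at h1 h2 h5 hN
  have e2 : (2 * K) * E ≤ E * E := mul_le_mul_of_nonneg_right h1 (by linarith)
  have e3 : 2 * E ≤ E * E := mul_le_mul_of_nonneg_right h5 (by linarith)
  have e5 : 0 ≤ K * R := by positivity
  have e6 : 0 ≤ C0 * R := by positivity
  have e4 : 2 + K + C0 * (1 + 2 * R) ≤ E := by
    refine le_trans ?_ h2
    have : (2 + K + 4 * C0) * (1 + R) = 2 + K + 4 * C0 + 2 * R + K * R + 4 * (C0 * R) := by ring
    rw [this]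
    linarith
  linarith

theorem nin_num1 {C0 BC d : ℝ} (deg K : ℕ) (hC0 : 1 ≤ C0) (hBC : 1 ≤ BC) (hd : 0 < d) :
    ∃ R1 : ℝ, 1 ≤ R1 ∧ ∀ R : ℝ, R1 ≤ R → ∀ N : ℝ, 0 ≤ N →
      N ≤ K * (Real.exp (d / (2 * deg + 1) * R) + 1) + (C0 * (1 + 2 * R) + 1) →
      BC * (1 + C0 * (1 + N) ^ deg) ≤ Real.exp (d * R) := by
  obtain ⟨c, hc⟩ : ∃ c : ℝ, c = d / (2 * deg + 1) := ⟨_, rfl⟩
  have hdeg : (0 : ℝ) ≤ deg := Nat.cast_nonneg _
  have hc0 : 0 < c := by rw [hc]; positivity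
  have hcd : (2 * deg + 1) * c = d := by rw [hc]; field_simp
  obtain ⟨r1, h1⟩ := Filter.eventually_atTop.mp (ev_const (2 * K : ℝ) hc0)
  obtain ⟨r2, h2⟩ := Filter.eventually_atTop.mp (ev_poly (2 + K + 4 * C0) 1 hc0)
  obtain ⟨r3, h3⟩ := Filter.eventually_atTop.mp (ev_const (2 * BC * C0) hc0)
  obtain ⟨r5, h5⟩ := Filter.eventually_atTop.mp (ev_const (2 : ℝ) hc0)
  rw [← hc]
  refine ⟨max (max r1 r2) (max r3 (max r5 1)), ?_, ?_⟩
  · exact le_max_of_le_right (le_max_of_le_right (le_max_right _ _))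
  intro R hR N hN0 hN
  have b1 : r1 ≤ R := le_trans (by simp) hR
  have b2 : r2 ≤ R := le_trans (by simp) hR
  have b3 : r3 ≤ R := le_trans (by simp) hR
  have b5 : r5 ≤ R := le_trans (by simp) hR
  have b6 : 1 ≤ R := le_trans (by simp) hR
  have h2' := h2 R b2
  rw [pow_one] at h2'
  have hN1 := nin_num0 (Nat.cast_nonneg K) hC0 b6 hc0.le hN0 hN (h1 R b1) (h5 R b5) h2'
  have hpow : (1 + N) ^ deg ≤ Real.exp (2 * deg * c * R) := by
    calc (1 + N) ^ deg ≤ Real.exp (2 * c * R) ^ deg := pow_le_pow_left₀ (by linarith) hN1 _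
      _ = Real.exp (2 * deg * c * R) := by
          rw [← Real.exp_nat_mul]; congr 1; ring
  have hone : 1 ≤ Real.exp (2 * deg * c * R) := Real.one_le_exp (by positivity)
  obtain ⟨E, hE⟩ : ∃ E, E = Real.exp (2 * deg * c * R) := ⟨_, rfl⟩
  have hexp : Real.exp (c * R) * E = Real.exp (d * R) := by
    rw [hE, ← Real.exp_add, ← hcd]; congr 1; ring
  rw [← hE] at hpow hone
  have e1 : C0 * (1 + N) ^ deg ≤ C0 * E := mul_le_mul_of_nonneg_left hpow (by linarith)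
  have e2 : 1 * E ≤ C0 * E := mul_le_mul_of_nonneg_right hC0 (by linarith)
  calc BC * (1 + C0 * (1 + N) ^ deg) ≤ BC * (2 * C0 * E) := by
        refine mul_le_mul_of_nonneg_left ?_ (by linarith)
        linarith
    _ = (2 * BC * C0) * E := by ring
    _ ≤ Real.exp (c * R) * E := mul_le_mul_of_nonneg_right (h3 R b3) (by linarith)
    _ = Real.exp (d * R) := hexp

theorem nin_num2 {C0 BC C : ℝ} (K : ℕ) (hC0 : 1 ≤ C0) (hBC : 1 ≤ BC) (hC : 1 ≤ C) :
    ∃ R1 : ℝ, 1 ≤ R1 ∧ ∀ R : ℝ, R1 ≤ R → ∀ le : ℝ, le ≤ C * (4 * R + (R + 1) + K) →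
        BC * (1 + Real.exp (C0 * (1 + le))) ≤ Real.exp (6 * C0 * C * R) := by
  obtain ⟨r4, h4⟩ := Filter.eventually_atTop.mp (ev_const (2 * BC) (half_pos one_pos))
  refine ⟨max r4 (max 1 (2 * (C0 + C0 * C * (1 + K)))), le_max_of_le_right (le_max_left _ _), ?_⟩
  intro R hR le hle
  have b4 : r4 ≤ R := le_trans (by simp) hR
  have b6 : 1 ≤ R := le_trans (by simp) hR
  have b7 : 2 * (C0 + C0 * C * (1 + K)) ≤ R := le_trans (by simp) hR
  have h4' := h4 R b4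
  have hCC : 1 ≤ C0 * C := by nlinarith
  have h8 : R ≤ C0 * C * R := by nlinarith
  have h6 : C0 * (1 + le) ≤ 6 * C0 * C * R - 1 / 2 * R := by
    have h7 : C0 * (1 + le) ≤ C0 * (1 + C * (4 * R + (R + 1) + K)) := by
      apply mul_le_mul_of_nonneg_left _ (by linarith)
      linarith
    have e1 : C0 * (1 + C * (4 * R + (R + 1) + K)) =
        5 * (C0 * C * R) + (C0 + C0 * C * (1 + K)) := by ring
    have e2 : 6 * C0 * C * R = 6 * (C0 * C * R) := by ring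
    rw [e1] at h7
    rw [e2]
    linarith
  have h9 : 1 ≤ Real.exp (6 * C0 * C * R - 1 / 2 * R) := by
    refine Real.one_le_exp ?_
    have e2 : 6 * C0 * C * R = 6 * (C0 * C * R) := by ring
    rw [e2]
    linarith
  have h10 : Real.exp (C0 * (1 + le)) ≤ Real.exp (6 * C0 * C * R - 1 / 2 * R) :=
    Real.exp_le_exp.2 h6
  calc BC * (1 + Real.exp (C0 * (1 + le))) ≤ BC * (2 * Real.exp (6 * C0 * C * R - 1 / 2 * R)) := by
        apply mul_le_mul_of_nonneg_left _ (by linarith)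
        linarith
    _ = (2 * BC) * Real.exp (6 * C0 * C * R - 1 / 2 * R) := by ring
    _ ≤ Real.exp (1 / 2 * R) * Real.exp (6 * C0 * C * R - 1 / 2 * R) :=
        mul_le_mul_of_nonneg_right h4' (Real.exp_pos _).le
    _ = _ := by rw [← Real.exp_add]; congr 1; ring

/-- **Displacements along slab paths are in the long boxes.** -/
theorem nin_LB (hX : M.Extra) (B : M.NatBox) : ∃ C2 : ℝ, 1 ≤ C2 ∧ ∀ (A : ℕ) (d : ℝ), 0 < d → d ≤ 1 →
    ∃ c : ℝ, 0 < c ∧ ∃ R1 : ℝ, 1 ≤ R1 ∧ ∀ R : ℝ, R1 ≤ R → ∀ s : ℝ, C2 * R ≤ s →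
    ∀ (z : ℕ → S) (m : ℕ), (m : ℝ) ≤ Real.exp (c * R) →
    (∀ i < m, M.l ((z i)⁻¹ * z (i + 1)) ≤ A) → (∀ i ≤ m, ‖M.θ (z i) - M.θ (z 0)‖ ≤ 2 * R) →
    ∃ n ∈ LB B B.C d s, ∃ w : Fin k → ℤ, (∀ i, |(w i : ℝ)| ≤ 2 * R) ∧ z 0 = z m * n * M.τ w := by
  obtain ⟨C, hC, hpath⟩ := path_R M hX
  have hC0 := M.one_le_C0
  have hB := B.one_le
  have hCC : 1 ≤ M.C0 * C := by nlinarith
  refine ⟨6 * M.C0 * C, by nlinarith, fun A d hd hd1 => ?_⟩
  obtain ⟨K, hK, hp⟩ := hpath A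
  obtain ⟨r1, hr1, hnum1⟩ := nin_num1 M.deg K hC0 hB hd
  obtain ⟨r2, hr2, hnum2⟩ := nin_num2 K hC0 hB hC
  have hdeg : (0 : ℝ) ≤ M.deg := Nat.cast_nonneg _
  refine ⟨d / (2 * M.deg + 1), by positivity, max r1 r2, le_max_of_le_left hr1,
    fun R hR s hs z m hm hstep hθ => ?_⟩
  have hRr1 : r1 ≤ R := (le_max_left _ _).trans hR
  have hRr2 : r2 ≤ R := (le_max_right _ _).trans hR
  have hR0 : 1 ≤ R := hr1.trans hRr1
  have hs0 : R ≤ s := by nlinarith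
  have hcd : d / (2 * M.deg + 1) ≤ 1 := by
    rw [div_le_one (by positivity)]
    linarith
  obtain ⟨e, he, c, hc, h1, h2⟩ := hp (fun i => z (m - i)) m (4 * R) (by linarith) (fun i hi => by
    have e1 : m - i = m - (i + 1) + 1 := by omega
    have h3 := hstep (m - (i + 1)) (by omega)
    have e2 : (z (m - i))⁻¹ * z (m - (i + 1)) = ((z (m - (i + 1)))⁻¹ * z (m - (i + 1) + 1))⁻¹ := by
      rw [e1]; group
    show M.l ((z (m - i))⁻¹ * z (m - (i + 1))) ≤ A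
    rw [e2, M.len.inv]
    exact h3) (fun i hi => by
    have h3 := hθ (m - i) (Nat.sub_le _ _)
    have h4 := hθ m le_rfl
    have e1 : M.θ (z (m - i)) - M.θ (z m) =
        (M.θ (z (m - i)) - M.θ (z 0)) - (M.θ (z m) - M.θ (z 0)) := by abel
    simp only [Nat.sub_zero]
    rw [e1]
    exact (norm_sub_le _ _).trans (by linarith))
  simp only [Nat.sub_zero, Nat.sub_self] at h1
  -- the heights
  obtain ⟨ve, hve, rfl⟩ := (M.mem_E e).1 he
  set w : Fin k → ℤ := Multiplicative.toAdd (M.η c) with hw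
  have hθc : M.θ c = M.θ (z 0) - M.θ (z m) := by
    rw [← M.θ_inv_mul, h1, M.θ_mul, M.θ_ex, zero_add]
  have hwn : ‖(fun i => (w i : ℝ))‖ ≤ 2 * R := by
    have e1 : (fun i => (w i : ℝ)) = M.θ c := rfl
    rw [e1, hθc, ← norm_neg, neg_sub]
    exact hθ m le_rfl
  have hwi : ∀ i, |(w i : ℝ)| ≤ 2 * R := fun i => by
    have := norm_le_pi_norm (fun i => (w i : ℝ)) i
    rw [Real.norm_eq_abs] at this
    exact this.trans hwn
  -- the neutral part
  have hν1 : M.η (c * (M.τ w)⁻¹) = 1 := by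
    rw [map_mul, map_inv, M.η_τ, hw]
    exact mul_inv_cancel _
  obtain ⟨v, hv, hve', hvn⟩ := M.C_ker _ _ (M.CB_mul hc (M.CB_inv (M.τ_CB w))) hν1
  have hNle : ((K * (m + 1) + ⌈M.C0 * (1 + ‖(fun i => (w i : ℝ))‖)⌉₊ : ℕ) : ℝ) ≤
      K * (Real.exp (d / (2 * M.deg + 1) * R) + 1) + (M.C0 * (1 + 2 * R) + 1) := by
    push_cast
    have h3 : (⌈M.C0 * (1 + ‖(fun i => (w i : ℝ))‖)⌉₊ : ℝ) ≤
        M.C0 * (1 + ‖(fun i => (w i : ℝ))‖) + 1 := (Nat.ceil_lt_add_one (by positivity)).le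
    have h4 : M.C0 * (1 + ‖(fun i => (w i : ℝ))‖) ≤ M.C0 * (1 + 2 * R) := by
      apply mul_le_mul_of_nonneg_left _ (by linarith)
      linarith
    have h5 : (K : ℝ) * ((m : ℝ) + 1) ≤ K * (Real.exp (d / (2 * M.deg + 1) * R) + 1) := by
      apply mul_le_mul_of_nonneg_left _ (Nat.cast_nonneg _)
      linarith
    linarith
  have hn1 := hnum1 R hRr1 _ (Nat.cast_nonneg _) hNle
  have hlogm : Real.log ((m : ℝ) + 1) ≤ R + 1 := by
    rw [Real.log_le_iff_le_exp (by positivity), Real.exp_add]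
    have h3 : (m : ℝ) ≤ Real.exp R := by
      refine hm.trans (Real.exp_le_exp.2 ?_)
      nlinarith
    have h4 : (2 : ℝ) ≤ Real.exp 1 := by have := Real.add_one_le_exp (1 : ℝ); linarith
    have h5 : 1 ≤ Real.exp R := Real.one_le_exp (by linarith)
    nlinarith
  have hle := hnum2 R hRr2 (M.l (M.ex ve)) (h2.trans (by
    apply mul_le_mul_of_nonneg_left _ (by linarith)
    linarith))
  have m1 : M.ex ve ∈ LB B 1 d s := by
    refine ex_mem_LB B hve le_rfl hd.le (by linarith) ?_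
    rw [one_mul]
    have h3 := M.met_lo ve
    calc B.C * (1 + M.nm ve) ≤ B.C * (1 + Real.exp (M.C0 * (1 + M.l (M.ex ve)))) := by
          apply mul_le_mul_of_nonneg_left _ (by linarith)
          linarith
      _ ≤ Real.exp (6 * M.C0 * C * R) := hle
      _ ≤ Real.exp s := Real.exp_le_exp.2 hs
  have m2 : M.ex v ∈ LB B 1 d s := by
    refine ex_mem_LB0 B hv le_rfl hd.le (by linarith) ?_
    rw [one_mul]
    calc B.C * (1 + M.nm v) ≤ B.C * (1 + M.C0 * (1 +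
          ((K * (m + 1) + ⌈M.C0 * (1 + ‖(fun i => (w i : ℝ))‖)⌉₊ : ℕ) : ℝ)) ^ M.deg) := by
          apply mul_le_mul_of_nonneg_left _ (by linarith)
          linarith
      _ ≤ Real.exp (d * R) := hn1
      _ ≤ Real.exp (d * s) := Real.exp_le_exp.2 (mul_le_mul_of_nonneg_left hs0 hd.le)
  have m3 := LB_mul B zero_le_one m1 m2
  rw [mul_one] at m3
  refine ⟨_, m3, w, hwi, ?_⟩
  rw [hve']
  have e1 : z m * (M.ex ve * (c * (M.τ w)⁻¹)) * M.τ w = z m * (M.ex ve * c) := by group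
  rw [e1, ← h1, mul_inv_cancel_left]

end

end Vale.Agent.P188.H754
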