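import Vale.Agent.P188.H754.NC6
import Vale.Agent.P188.H382.RouteA2

/-!
# P188, route A, neutral comparison (hNC), part 7: the comparison
-/

set_option linter.all false

open MeasureTheory Set

namespace Vale.Agent.P188.H754

open Vale.Agent.P188.Z1 Vale.Agent.P188.Z1.RModel Vale.Agent.P188.Z1.DB
open Vale.Agent.P188.H382 (NCat GoodS selfAct)

section

variable {S : Type} [Group S] [MeasurableSpace S] {Γ : Type} [Group Γ]
  {V : Type} [AddCommGroup V] [Module ℝ V] {k : ℕ} {M : RModel S Γ V k}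

/-- **Comparison of two good points.** -/
theorem two_good (B : M.NatBox) {Λ d s τ : ℝ} {F : Γ → Γ} (hΛ : B.C * B.C ≤ Λ) (hd : 0 ≤ d) (hs : 0 ≤ s)
    {z₀ z₁ z' n : S} (hn : n ∈ LB B B.C d s) (hz : z' = z₁ * n)
    (h₁ : M.μ {a | a ∈ LB B Λ d s ∧ τ < ‖wF M F (z₁ * a) - wF M F z₁‖} ≤
      ENNReal.ofReal (1 / 4) * M.μ (LB B 1 d s))
    (h₀ : M.μ {a | a ∈ LB B Λ d s ∧ τ < ‖wF M F (z' * a) - wF M F z₀‖} ≤
      ENNReal.ofReal (1 / 4) * M.μ (LB B 1 d s)) : ‖wF M F z₁ - wF M F z₀‖ ≤ 2 * τ := by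
  have hB := B.one_le
  have hpos : M.μ (LB B 1 d s) ≠ 0 := B.pos _ fun i => by
    have := szh_pos (M := M) (fun _ => 1) d s i
    positivity
  have hfin := LB_fin B 1 d s
  obtain ⟨a, ha, ha1, ha2⟩ : ∃ a ∈ LB B 1 d s,
      a ∉ {a | a ∈ LB B Λ d s ∧ τ < ‖wF M F (z₁ * a) - wF M F z₁‖} ∧
      n⁻¹ * a ∉ {a | a ∈ LB B Λ d s ∧ τ < ‖wF M F (z' * a) - wF M F z₀‖} := by
    by_contra hcon
    push Not at hcon
    have h2 : LB B 1 d s ⊆ {a | a ∈ LB B Λ d s ∧ τ < ‖wF M F (z₁ * a) - wF M F z₁‖} ∪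
        {a | n⁻¹ * a ∈ {a | a ∈ LB B Λ d s ∧ τ < ‖wF M F (z' * a) - wF M F z₀‖}} := by
      intro a ha
      by_cases h3 : a ∈ {a | a ∈ LB B Λ d s ∧ τ < ‖wF M F (z₁ * a) - wF M F z₁‖}
      · exact Or.inl h3
      · exact Or.inr (hcon a ha h3)
    have h3 := (measure_mono (μ := M.μ) h2).trans (measure_union_le _ _)
    have h4 := preimage_left_le M n⁻¹ {a | a ∈ LB B Λ d s ∧ τ < ‖wF M F (z' * a) - wF M F z₀‖}
    have h5 : M.μ (LB B 1 d s) ≤ ENNReal.ofReal (1 / 2) * M.μ (LB B 1 d s) := by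
      refine h3.trans ((add_le_add h₁ (h4.trans h₀)).trans ?_)
      rw [← add_mul, ← ENNReal.ofReal_add (by norm_num) (by norm_num)]
      norm_num
    have h6 : ENNReal.ofReal (1 / 2) * M.μ (LB B 1 d s) < 1 * M.μ (LB B 1 d s) :=
      ENNReal.mul_lt_mul_left hpos hfin (by
        rw [← ENNReal.ofReal_one]
        exact (ENNReal.ofReal_lt_ofReal_iff one_pos).2 (by norm_num))
    rw [one_mul] at h6
    exact absurd h5 (not_le.2 h6)
  have hΛ1 : 1 ≤ Λ := le_trans (by nlinarith) hΛ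
  have m1 : a ∈ LB B Λ d s := LB_mono B zero_le_one hΛ1 le_rfl le_rfl ha
  have m2 : n⁻¹ * a ∈ LB B Λ d s := by
    refine LB_mono B (by positivity) hΛ le_rfl le_rfl ?_
    exact LB_mul B (by linarith) (LB_inv B hn) (LB_mono B zero_le_one hB le_rfl le_rfl ha)
  have e1 : ‖wF M F (z₁ * a) - wF M F z₁‖ ≤ τ := by
    by_contra h
    exact ha1 ⟨m1, not_le.1 h⟩
  have e2 : ‖wF M F (z' * (n⁻¹ * a)) - wF M F z₀‖ ≤ τ := by
    by_contra h
    exact ha2 ⟨m2, not_le.1 h⟩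
  have e3 : z' * (n⁻¹ * a) = z₁ * a := by rw [hz]; group
  rw [e3] at e2
  have e4 : wF M F z₁ - wF M F z₀ = (wF M F (z₁ * a) - wF M F z₀) - (wF M F (z₁ * a) - wF M F z₁) := by
    abel
  rw [e4]
  exact (norm_sub_le _ _).trans (by linarith)

/-- from good points (counting) to the measure of the bad set -/
theorem good_measure (B : M.NatBox) {K : ℝ} {F F' : Γ → Γ} (hF : M.QIm K F F') {Λ d s L LU Cb : ℝ}
    {X : Finset S} (hX : (X.card : ENNReal) * M.μ (UB B 1) ≤ M.μ (LB B (B.C * Λ) d s))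
    (hcov : ∀ u ∈ SB B Λ d s L, ∃ x ∈ X, ∃ β ∈ UB B B.C, u = x * β)
    (hCb : M.μ (UB B B.C) ≤ ENNReal.ofReal Cb * M.μ (UB B 1))
    (hLU : ∀ x ∈ UB B B.C, (M.l x : ℝ) ≤ LU) {θ τ θ' : ℝ} (hθ : 0 ≤ θ) (hθ' : θ * Cb ≤ θ') {z' : S}
    {c : Z1.Ht k} (Xb : Finset S) (hXb : ∀ x ∈ X, τ < ‖wF M F (z' * x) - c‖ → x ∈ Xb)
    (hcount : (Xb.card : ℝ) ≤ θ * X.card) :
    M.μ {u | u ∈ SB B Λ d s L ∧ τ + Cw M K * (LU + 1) < ‖wF M F (z' * u) - c‖} ≤
      ENNReal.ofReal θ' * M.μ (LB B (B.C * Λ) d s) := by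
  refine (count_measure B hX hcov hCb (g := fun u => ‖wF M F (z' * u) - c‖)
    (c := Cw M K * (LU + 1)) (fun x β hβ => ?_) hθ Xb hXb hcount).trans
    (mul_le_mul' (ENNReal.ofReal_le_ofReal hθ') le_rfl)
  have h1 := wF_lip hF (z' * x) β
  have h2 := mul_le_mul_of_nonneg_left (add_le_add_left (hLU β hβ) 1) (Cw_nonneg M K)
  have e : wF M F (z' * (x * β)) - c = (wF M F (z' * x) - c) +
      (wF M F (z' * x * β) - wF M F (z' * x)) := by
    rw [mul_assoc]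
    abel
  show ‖wF M F (z' * (x * β)) - c‖ ≤ _
  rw [e]
  refine (norm_add_le _ _).trans ?_
  linarith

end

end Vale.Agent.P188.H754
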