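import Vale.Agent.P188.H754.NC7

/-!
# P188, route A, neutral comparison (hNC), part 8: the theorem
-/

set_option linter.all false

open MeasureTheory Set

namespace Vale.Agent.P188.H754

open Vale.Agent.P188.Z1 Vale.Agent.P188.Z1.RModel Vale.Agent.P188.Z1.DB
open Vale.Agent.P188.H382 (NCat GoodS selfAct)

section

variable {S : Type} [Group S] [MeasurableSpace S] {Γ : Type} [Group Γ]
  {V : Type} [AddCommGroup V] [Module ℝ V] {k : ℕ} {M : RModel S Γ V k}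

/-- the indices of the shapes -/
noncomputable def Kf (k R : ℕ) : Finset (Option (Fin k → ℤ)) :=
  if R = 0 then ∅ else
    Finset.insertNone (Fintype.piFinset fun _ => Finset.Icc (-(2 * R : ℤ)) (2 * R))

theorem none_mem_Kf {R : ℕ} (hR : R ≠ 0) : none ∈ Kf k R := by
  unfold Kf
  rw [if_neg hR]
  exact Finset.none_mem_insertNone

theorem some_mem_Kf {R : ℕ} (hR : R ≠ 0) {w : Fin k → ℤ} :
    some w ∈ Kf k R ↔ ∀ i, |(w i : ℝ)| ≤ 2 * R := by
  unfold Kf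
  rw [if_neg hR, Finset.some_mem_insertNone, Fintype.mem_piFinset]
  refine forall_congr' fun i => ?_
  rw [Finset.mem_Icc, ← abs_le]
  constructor
  · intro h
    have : ((|w i| : ℤ) : ℝ) ≤ ((2 * R : ℤ) : ℝ) := by exact_mod_cast h
    rw [Int.cast_abs] at this
    push_cast at this
    exact this
  · intro h
    have : ((|w i| : ℤ) : ℝ) ≤ ((2 * R : ℤ) : ℝ) := by
      rw [Int.cast_abs]
      push_cast
      exact h
    exact_mod_cast this

theorem Kf_pos {R : ℕ} {o : Option (Fin k → ℤ)} (h : o ∈ Kf k R) : R ≠ 0 := by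
  intro h0
  unfold Kf at h
  rw [if_pos h0] at h
  simp at h

theorem Kf_card (k : ℕ) {ε : ℝ} (hε : 0 < ε) : ∃ C : ℝ, ∀ R : ℕ,
    ((Kf k R).card : ℝ) ≤ C * Real.exp (ε * R) := by
  obtain ⟨r, hr⟩ := Filter.eventually_atTop.mp (ev_poly (2 * 4 ^ k) k hε)
  have h1 : ∀ R : ℕ, ((Kf k R).card : ℝ) ≤ 2 * 4 ^ k * (1 + R) ^ k := by
    intro R
    unfold Kf
    split_ifs with h
    · simp only [Finset.card_empty, Nat.cast_zero]
      positivity
    · rw [Finset.card_insertNone, Fintype.card_piFinset]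
      simp only [Int.card_Icc, Finset.prod_const, Finset.card_univ, Fintype.card_fin]
      have e : (2 * (R : ℤ) + 1 - -(2 * R)).toNat = 4 * R + 1 := by omega
      rw [e]
      push_cast
      have h2 : (4 * (R : ℝ) + 1) ^ k ≤ 4 ^ k * (1 + R) ^ k := by
        rw [← mul_pow]
        refine pow_le_pow_left₀ (by positivity) ?_ _
        linarith
      have h3 : (1 : ℝ) ≤ 4 ^ k * (1 + R) ^ k := by
        rw [← mul_pow]
        refine one_le_pow₀ ?_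
        have : (0 : ℝ) ≤ R := Nat.cast_nonneg _
        linarith
      linarith
  refine ⟨max 1 (2 * 4 ^ k * (1 + |r|) ^ k), fun R => ?_⟩
  have hE : 1 ≤ Real.exp (ε * R) := Real.one_le_exp (by positivity)
  by_cases h : r ≤ R
  · refine (h1 R).trans ((hr R h).trans ?_)
    exact le_mul_of_one_le_left (Real.exp_pos _).le (le_max_left _ _)
  · push Not at h
    have h2 : (R : ℝ) ≤ |r| := h.le.trans (le_abs_self r)
    calc ((Kf k R).card : ℝ) ≤ 2 * 4 ^ k * (1 + R) ^ k := h1 R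
      _ ≤ 2 * 4 ^ k * (1 + |r|) ^ k := by gcongr
      _ ≤ max 1 (2 * 4 ^ k * (1 + |r|) ^ k) := le_max_right _ _
      _ ≤ _ := le_mul_of_one_le_right (le_trans zero_le_one (le_max_left _ _)) hE

/-- the shapes -/
noncomputable def shp (M : RModel S Γ V k) (o : Option (Fin k → ℤ)) (u : S) : S :=
  match o with
  | none => u
  | some w => (M.τ w)⁻¹ * u

/-- the comparison, one path -/
theorem nc_path (B : M.NatBox) {K : ℝ} {F F' : Γ → Γ} (hF : M.QIm K F F')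
    {Λ Λ₁ d d₁ s L LU Cb : ℝ} (hΛ : B.C * B.C ≤ Λ) (hd : 0 ≤ d) (hs : 0 ≤ s)
    {X : Finset S} (hX : (X.card : ENNReal) * M.μ (UB B 1) ≤ M.μ (LB B (B.C * Λ₁) d₁ s))
    (hcov : ∀ u ∈ SB B Λ₁ d₁ s L, ∃ x ∈ X, ∃ β ∈ UB B B.C, u = x * β)
    (hCb : M.μ (UB B B.C) ≤ ENNReal.ofReal Cb * M.μ (UB B 1))
    (hLU : ∀ x ∈ UB B B.C, (M.l x : ℝ) ≤ LU) {θ θ' τ ε : ℝ} (hθ : 0 ≤ θ) (hθ' : θ * Cb ≤ θ')
    (hlong : ∀ (z' : S) (c : Z1.Ht k) (τ : ℝ),
      M.μ {u | u ∈ SB B Λ₁ d₁ s L ∧ τ < ‖wF M F (z' * u) - c‖} ≤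
        ENNReal.ofReal θ' * M.μ (LB B (B.C * Λ₁) d₁ s) →
      M.μ {a | a ∈ LB B Λ d s ∧ τ + 2 * (ε * s) < ‖wF M F (z' * a) - c‖} ≤
        ENNReal.ofReal (1 / 4) * M.μ (LB B 1 d s))
    {z₀ z₁ n : S} {w : Fin k → ℤ} (hn : n ∈ LB B B.C d s) (hz : z₀ = z₁ * n * M.τ w)
    {Kf : Finset (Option (Fin k → ℤ))} (h0 : none ∈ Kf) (hw : some w ∈ Kf)
    (hg₀ : GoodS (selfAct S) (wF M F) τ θ Kf (fun _ => X) (shp M) z₀)
    (hg₁ : GoodS (selfAct S) (wF M F) τ θ Kf (fun _ => X) (shp M) z₁) :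
    ‖wF M F z₁ - wF M F z₀‖ ≤ 2 * (τ + Cw M K * (LU + 1) + 2 * (ε * s)) := by
  have h1 := hlong z₁ (wF M F z₁) _ (good_measure B hF hX hcov hCb hLU hθ hθ' _
    (fun x hx h => Finset.mem_filter.2 ⟨hx, h⟩) (hg₁ none h0))
  have h2 := hlong (z₀ * (M.τ w)⁻¹) (wF M F z₀) _ (good_measure B hF hX hcov hCb hLU hθ hθ' _
    (fun x hx h => Finset.mem_filter.2 ⟨hx, by
      show τ < ‖wF M F (z₀ * ((M.τ w)⁻¹ * x)) - wF M F z₀‖
      rw [← mul_assoc]
      exact h⟩) (hg₀ (some w) hw))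
  refine two_good B hΛ hd hs hn ?_ h1 h2
  rw [hz, mul_inv_cancel_right]

/-- **The neutral comparison of route A.** -/
theorem hNC (hX : M.Extra) (B : M.NatBox) (hB : B.Fine) (K : ℝ) : ∃ CR : ℕ, 1 ≤ CR ∧
    ∀ c' : ℝ, 0 < c' → ∃ (Lam : ℕ → Option (Fin k → ℤ) → Finset S)
      (ψ : ℕ → Option (Fin k → ℤ) → S → S),
      (∀ R, ∀ κ ∈ Kf k R, ∀ i ∈ Lam R κ, M.l (ψ R κ i) ≤ CR * R) ∧
      ∀ A : ℕ, ∃ c : ℝ, 0 < c ∧ ∃ R1 : ℕ, ∀ R, R1 ≤ R → ∀ j : ℕ, (j : ℝ) ≤ Real.exp (c * R) →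
        ∀ F F' : Γ → Γ, M.QIm K F F' →
          NCat M.l (fun s => M.θ (M.inG (M.fl s))) (wF M F) A j R (1 / 64)
            (Real.exp (-(c' * R))) (Kf k R) (Lam R) (ψ R) := by
  classical
  have hBC := B.one_le
  have hC0 := M.one_le_C0
  obtain ⟨C2, hC2, hnin⟩ := nin_LB hX B
  obtain ⟨A₀, C3, hA₀, hC3, hlong⟩ := long_typ B (M.neut_holds B hB)
  obtain ⟨Cτ, hCτ, hlτ⟩ := M.l_τ
  obtain ⟨Cv, a, hCv, hvol⟩ := dbl_poly B
  obtain ⟨LU, hLU0, hLU⟩ := l_UB B B.C (by linarith)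
  have hC2p : 0 < C2 := by linarith
  refine ⟨⌈3 * Cτ + C3 * C2⌉₊, Nat.one_le_ceil_iff.2 (by positivity), fun c' hc' => ?_⟩
  obtain ⟨Λ, hΛdef⟩ : ∃ Λ : ℝ, Λ = B.C * B.C := ⟨_, rfl⟩
  have hΛ1 : 1 ≤ Λ := by rw [hΛdef]; nlinarith
  obtain ⟨Λ₁, hΛ₁def⟩ : ∃ Λ₁ : ℝ, Λ₁ = B.C * max Λ (2 * B.C) := ⟨_, rfl⟩
  have hΛ₁1 : 1 ≤ Λ₁ := by
    have : 1 ≤ max Λ (2 * B.C) := hΛ1.trans (le_max_left _ _)
    rw [hΛ₁def]; nlinarith
  obtain ⟨d, hd, hd1, s₀, hs₀, hlong'⟩ := hlong Λ hΛ1 K (1 / (128 * C2)) (by positivity)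
    (c' / (2 * C2)) (by positivity)
  rw [← hΛ₁def] at hlong'
  have hd₁ : 0 ≤ A₀ * d := by positivity
  choose X hX1 hX2 hX3 using fun R : ℕ => short_fam B (Λ := Λ₁) (d := A₀ * d)
    (s := C2 * R) (L := C3 * (C2 * R)) hΛ₁1 hd₁ (by positivity)
  refine ⟨fun R _ => X R, fun _ => shp M, ?_, fun A => ?_⟩
  · -- lengths
    intro R κ hκ u hu
    have hR0 := Kf_pos hκ
    have hR1 : (1 : ℝ) ≤ R := by exact_mod_cast Nat.one_le_iff_ne_zero.2 hR0
    have h1 := (hX1 R u hu).2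
    have h2 : (3 * Cτ + C3 * C2) * R ≤ (⌈3 * Cτ + C3 * C2⌉₊ * R : ℕ) := by
      push_cast
      exact mul_le_mul_of_nonneg_right (Nat.le_ceil _) (by linarith)
    have h3 : (M.l (shp M κ u) : ℝ) ≤ (3 * Cτ + C3 * C2) * R := by
      rcases κ with _ | w
      · show (M.l u : ℝ) ≤ _
        refine h1.trans ?_
        have : 0 ≤ 3 * Cτ * R := by positivity
        nlinarith
      · show (M.l ((M.τ w)⁻¹ * u) : ℝ) ≤ _
        have h4 := hlτ w (2 * R) (by linarith) ((some_mem_Kf hR0).1 hκ)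
        have h5 : (M.l ((M.τ w)⁻¹ * u) : ℝ) ≤ M.l (M.τ w) + M.l u := by
          rw [← M.len.inv (M.τ w)]
          exact_mod_cast M.len.mul _ _
        have h6 : Cτ * (1 + 2 * R) ≤ Cτ * (3 * R) := by
          apply mul_le_mul_of_nonneg_left _ (by linarith)
          linarith
        nlinarith
    exact_mod_cast h3.trans h2
  · -- the comparison
    obtain ⟨c, hc, r1, hr1, hnin'⟩ := hnin A d hd hd1
    obtain ⟨r2, hr2⟩ := Filter.eventually_atTop.mp (ev_const (Cv * B.C ^ a) (half_pos hc'))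
    obtain ⟨R1, hR1⟩ := exists_nat_ge (max (max r1 (s₀ / C2)) (max (max r2 (2 * (M.C0 * M.C0)))
      (64 * (Cw M K * (LU + 1)))))
    refine ⟨c, hc, R1, fun R hR j hj F F' hF z hstep hgood hconf b => ?_⟩
    have hR' : max (max r1 (s₀ / C2)) (max (max r2 (2 * (M.C0 * M.C0)))
      (64 * (Cw M K * (LU + 1)))) ≤ (R : ℝ) := hR1.trans (by exact_mod_cast hR)
    have b1 : r1 ≤ R := le_trans (by simp) hR'
    have b2 : s₀ / C2 ≤ R := le_trans (by simp) hR'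
    have b3 : r2 ≤ R := le_trans (by simp) hR'
    have b4 : 2 * (M.C0 * M.C0) ≤ R := le_trans (by simp) hR'
    have b5 : 64 * (Cw M K * (LU + 1)) ≤ R := le_trans (by simp) hR'
    clear hR' hR1
    have hR1 : (1 : ℝ) ≤ R := hr1.trans b1
    have hRne : R ≠ 0 := by
      rintro rfl
      norm_num at hR1
    rw [div_le_iff₀ hC2p] at b2
    have hθ : ∀ i ≤ j, ‖M.θ (z i) - M.θ (z 0)‖ ≤ 2 * R := by
      intro i hi
      have h1 : ‖M.θ (M.inG (M.fl (z i))) - M.θ (M.inG (M.fl (z 0)))‖ ≤ R :=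
        (pi_norm_le_iff_of_nonneg (by linarith)).2 fun a => hconf i hi a
      have h2 := θfl_le M (z i)
      have h3 := θfl_le M (z 0)
      have e : M.θ (z i) - M.θ (z 0) = (M.θ (M.inG (M.fl (z i))) - M.θ (M.inG (M.fl (z 0)))) +
          ((M.θ (z i) - M.θ (M.inG (M.fl (z i)))) - (M.θ (z 0) - M.θ (M.inG (M.fl (z 0))))) := by
        abel
      rw [e]
      refine (norm_add_le _ _).trans ?_
      have h4 := norm_sub_le (M.θ (z i) - M.θ (M.inG (M.fl (z i))))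
        (M.θ (z 0) - M.θ (M.inG (M.fl (z 0))))
      linarith
    obtain ⟨n, hn, w, hw, hzn⟩ := hnin' R b1 (C2 * R) le_rfl z j hj hstep hθ
    have hCb : M.μ (UB B B.C) ≤ ENNReal.ofReal (Cv * B.C ^ a) * M.μ (UB B 1) := by
      have h1 := hvol B.C hBC (fun _ => 1) fun _ => one_pos
      have e : (fun i : M.ι => B.C * (1 : ℝ)) = fun _ => B.C := by funext i; ring
      rw [e] at h1
      exact h1
    have hθ' : Real.exp (-(c' * R)) * (Cv * B.C ^ a) ≤ Real.exp (-(c' / (2 * C2) * (C2 * R))) := by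
      have e : c' / (2 * C2) * (C2 * R) = c' / 2 * R := by field_simp
      rw [e]
      calc Real.exp (-(c' * R)) * (Cv * B.C ^ a) ≤ Real.exp (-(c' * R)) * Real.exp (c' / 2 * R) :=
            mul_le_mul_of_nonneg_left (hr2 R b3) (Real.exp_pos _).le
        _ = _ := by rw [← Real.exp_add]; congr 1; ring
    have hmain := nc_path B hF (Λ := Λ) (Λ₁ := Λ₁) (d₁ := A₀ * d) (s := C2 * R) (L := C3 * (C2 * R))
      (ε := 1 / (128 * C2)) (τ := 1 / 64 * R) hΛdef.ge hd.le (by positivity) (hX2 R) (hX3 R) hCb hLU (Real.exp_pos _).le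
      hθ' (fun z' c τ => hlong' (C2 * R) (by linarith) F F' hF z' c τ) hn hzn
      (none_mem_Kf hRne) ((some_mem_Kf hRne).2 hw) (hgood 0 (Nat.zero_le _)) (hgood j le_rfl)
    have hco := norm_le_pi_norm (wF M F (z j) - wF M F (z 0)) b
    rw [Pi.sub_apply, Real.norm_eq_abs] at hco
    refine hco.trans (hmain.trans ?_)
    have e : 1 / (128 * C2) * (C2 * R) = R / 128 := by field_simp
    rw [e]
    linarith

end

end Vale.Agent.P188.H754
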