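import Vale.Agent.P188.Z1.Fat

/-!
# P188, block NEU: paths of polynomial length in the Cartan group

Every Cartan word `c ∈ CB n` is joined to `1` by a path with at most `C (n+1)^D` bounded steps,
inside the ball of radius `C (n+1)`, with heights at most `C ‖θ c‖`.
-/

set_option linter.all false

open Set
open Agent.P188.H428 (IsLen)
open Vale.Agent.P188.H530 (hgt hgt_mul)
open Vale.Agent.P188.Z1

namespace Vale.Agent.P188.H754

variable {S : Type} [Group S] [MeasurableSpace S] {Γ : Type} [Group Γ]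
  {V : Type} [AddCommGroup V] [Module ℝ V] {k : ℕ} (M : RModel S Γ V k)

/-- paths from `1` to `g` with `m` steps of length at most `C`, in the ball of radius `r`, heights
at most `h` -/
def NP (C r h : ℝ) (m : ℕ) (g : S) : Prop :=
  ∃ p : ℕ → S, p 0 = 1 ∧ p m = g ∧ (∀ i < m, (M.l ((p i)⁻¹ * p (i + 1)) : ℝ) ≤ C) ∧
    ∀ i ≤ m, (M.l (p i) : ℝ) ≤ r ∧ ‖M.θ (p i)‖ ≤ h

variable {M}

theorem NP.mono {C C' r r' h h' : ℝ} {m : ℕ} {g : S} (H : NP M C r h m g) (hC : C ≤ C')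
    (hr : r ≤ r') (hh : h ≤ h') : NP M C' r' h' m g := by
  obtain ⟨p, h0, h1, h2, h3⟩ := H
  exact ⟨p, h0, h1, fun i hi => (h2 i hi).trans hC,
    fun i hi => ⟨(h3 i hi).1.trans hr, (h3 i hi).2.trans hh⟩⟩

theorem NP.len_le {C r h : ℝ} {m : ℕ} {g : S} (H : NP M C r h m g) : (M.l g : ℝ) ≤ r := by
  obtain ⟨p, h0, h1, h2, h3⟩ := H
  rw [← h1]; exact (h3 m le_rfl).1

theorem NP.θ_le {C r h : ℝ} {m : ℕ} {g : S} (H : NP M C r h m g) : ‖M.θ g‖ ≤ h := by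
  obtain ⟨p, h0, h1, h2, h3⟩ := H
  rw [← h1]; exact (h3 m le_rfl).2

theorem NP.extend {C r h : ℝ} {m m' : ℕ} {g : S} (hC : 0 ≤ C) (H : NP M C r h m g) (hm : m ≤ m') :
    NP M C r h m' g := by
  obtain ⟨p, h0, h1, h2, h3⟩ := H
  refine ⟨fun i => p (min i m), by simp [h0], by simp only [min_eq_right hm, h1], ?_, ?_⟩
  · intro i hi
    beta_reduce
    rcases lt_or_ge i m with h | h
    · rw [min_eq_left h.le, min_eq_left (Nat.succ_le_of_lt h)]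
      exact h2 i h
    · rw [min_eq_right h, min_eq_right (h.trans (Nat.le_succ i)), inv_mul_cancel, M.len.one]
      simpa using hC
  · intro i _
    exact h3 _ (min_le_right _ _)

variable (M)

theorem NP.one {C r h : ℝ} (hr : 0 ≤ r) (hh : 0 ≤ h) : NP M C r h 0 1 :=
  ⟨fun _ => 1, rfl, rfl, fun i hi => absurd hi (Nat.not_lt_zero _), fun i _ =>
    ⟨by simp [M.len.one, hr], by simp [M.θ_one, hh]⟩⟩

variable {M}

theorem NP.mul {C r₁ r₂ r h₁ h₂ h : ℝ} {m₁ m₂ : ℕ} {g₁ g₂ : S} (H₁ : NP M C r₁ h₁ m₁ g₁)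
    (H₂ : NP M C r₂ h₂ m₂ g₂) (hr₁ : r₁ ≤ r) (hr₂ : M.l g₁ + r₂ ≤ r) (hh₁ : h₁ ≤ h)
    (hh₂ : ‖M.θ g₁‖ + h₂ ≤ h) : NP M C r h (m₁ + m₂) (g₁ * g₂) := by
  obtain ⟨p, a0, a1, a2, a3⟩ := H₁
  obtain ⟨q, b0, b1, b2, b3⟩ := H₂
  obtain ⟨s, hs1, hs2⟩ : ∃ s : ℕ → S, (∀ i ≤ m₁, s i = p i) ∧ ∀ i, s (m₁ + i) = g₁ * q i := by
    refine ⟨fun i => if i ≤ m₁ then p i else g₁ * q (i - m₁), fun i hi => if_pos hi, fun i => ?_⟩
    rcases Nat.eq_zero_or_pos i with rfl | hi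
    · simp only [add_zero, le_refl, if_true]
      rw [a1, b0, mul_one]
    · simp only
      rw [if_neg (by omega), Nat.add_sub_cancel_left]
  refine ⟨s, by rw [hs1 0 (Nat.zero_le _), a0], by rw [hs2, b1], ?_, ?_⟩
  · intro i hi
    rcases lt_or_ge i m₁ with h | h
    · rw [hs1 i h.le, hs1 (i + 1) h]
      exact a2 i h
    · obtain ⟨j, rfl⟩ := Nat.exists_eq_add_of_le h
      have e : s (m₁ + j + 1) = g₁ * q (j + 1) := by rw [add_assoc, hs2]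
      rw [e, hs2]
      have e2 : (g₁ * q j)⁻¹ * (g₁ * q (j + 1)) = (q j)⁻¹ * q (j + 1) := by group
      rw [e2]
      exact b2 j (by omega)
  · intro i hi
    rcases le_or_gt i m₁ with h | h
    · rw [hs1 i h]
      exact ⟨(a3 i h).1.trans hr₁, (a3 i h).2.trans hh₁⟩
    · obtain ⟨j, rfl⟩ := Nat.exists_eq_add_of_le h.le
      rw [hs2]
      have h5 : (M.l (g₁ * q j) : ℝ) ≤ M.l g₁ + M.l (q j) := by exact_mod_cast M.len.mul _ _
      refine ⟨?_, ?_⟩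
      · linarith [(b3 j (by omega)).1]
      · rw [M.θ_mul]
        refine (norm_add_le _ _).trans ?_
        linarith [(b3 j (by omega)).2]

/-- the version with sums -/
theorem NP.mul' {C r₁ r₂ h₁ h₂ : ℝ} {m₁ m₂ : ℕ} {g₁ g₂ : S} (H₁ : NP M C r₁ h₁ m₁ g₁)
    (H₂ : NP M C r₂ h₂ m₂ g₂) (hr₂ : 0 ≤ r₂) (hh₂ : 0 ≤ h₂) :
    NP M C (r₁ + r₂) (h₁ + h₂) (m₁ + m₂) (g₁ * g₂) :=
  H₁.mul H₂ (by linarith) (by linarith [H₁.len_le]) (by linarith) (by linarith [H₁.θ_le])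

variable (M)

/-- number of steps for conjugates of bounded neutral elements -/
noncomputable def bd (U : ℝ) (n : ℕ) : ℕ := ⌈M.C0 * (1 + n) ^ M.deg * U⌉₊ + 1

theorem bd_mono {U : ℝ} (hU : 0 ≤ U) {n n' : ℕ} (h : n ≤ n') : bd M U n ≤ bd M U n' := by
  unfold bd
  have hC := M.C0_pos
  have h1 : (n : ℝ) ≤ n' := by exact_mod_cast h
  have : M.C0 * (1 + n) ^ M.deg * U ≤ M.C0 * (1 + n') ^ M.deg * U := by gcongr
  exact Nat.add_le_add_right (Nat.ceil_mono this) 1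

/-- conjugates of bounded neutral elements -/
theorem NP.conj {Cl : ℝ} (hl : ∀ n, ∀ c ∈ M.CB n, (M.l c : ℝ) ≤ Cl * n) {U : ℝ} (hU : 0 ≤ U)
    {n : ℕ} {g : S} (hg : g ∈ M.CB n) {u : V} (hu : u ∈ M.Vw 0) (hn : M.nm u ≤ U) :
    NP M (2 * M.C0) (2 * (Cl * n) + M.C0 * (1 + U)) 0 (bd M U n) (g * M.ex u * g⁻¹) := by
  obtain ⟨m, hm⟩ : ∃ m, m = bd M U n := ⟨_, rfl⟩
  have hm1 : 1 ≤ m := by rw [hm]; unfold bd; omega
  have hm0 : (0 : ℝ) < m := by exact_mod_cast hm1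
  have hC := M.C0_pos
  have hmU : M.C0 * (1 + n) ^ M.deg * U ≤ m := by
    rw [hm]; unfold bd; push_cast
    have := Nat.le_ceil (M.C0 * (1 + n) ^ M.deg * U)
    linarith
  rw [← hm]
  have hp : ∀ i : ℕ, g * M.ex (((i : ℝ) / m) • u) * g⁻¹ = M.ex (((i : ℝ) / m) • M.Ad g u) := by
    intro i
    rw [← M.ex_Ad, map_smul]
  refine ⟨fun i => g * M.ex (((i : ℝ) / m) • u) * g⁻¹, ?_, ?_, ?_, ?_⟩
  · simp [M.ex_zero]
  · beta_reduce
    rw [div_self hm0.ne', one_smul]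
  · intro i _
    beta_reduce
    have e : (g * M.ex (((i : ℝ) / m) • u) * g⁻¹)⁻¹ * (g * M.ex ((((i + 1 : ℕ) : ℝ) / m) • u) * g⁻¹)
        = M.ex ((1 / (m : ℝ)) • M.Ad g u) := by
      rw [hp, hp, ← M.ex_neg, ← neg_smul, ← M.ex_add]
      congr 2
      push_cast
      ring
    rw [e]
    refine (M.met_V _).trans ?_
    rw [map_smul_eq_mul, Real.norm_of_nonneg (by positivity)]
    have h1 := M.Ad_CB_0 hg hu
    have h2 : M.nm (M.Ad g u) ≤ m := by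
      refine h1.trans (le_trans ?_ hmU)
      gcongr
    have h3 : 1 / (m : ℝ) * M.nm (M.Ad g u) ≤ 1 := by
      rw [one_div, inv_mul_le_iff₀ hm0, mul_one]
      exact h2
    nlinarith
  · intro i hi
    have h1 : (M.l g : ℝ) ≤ Cl * n := hl n g hg
    have hi' : (i : ℝ) ≤ m := by exact_mod_cast hi
    have h2 : (M.l (g * M.ex (((i : ℝ) / m) • u) * g⁻¹) : ℝ) ≤
        M.l g + M.l (M.ex (((i : ℝ) / m) • u)) + M.l g := by
      have a1 := M.len.mul (g * M.ex (((i : ℝ) / m) • u)) g⁻¹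
      have a2 := M.len.mul g (M.ex (((i : ℝ) / m) • u))
      rw [M.len.inv] at a1
      exact_mod_cast a1.trans (Nat.add_le_add_right a2 _)
    have h3 := M.met_V (((i : ℝ) / m) • u)
    rw [map_smul_eq_mul, Real.norm_of_nonneg (by positivity)] at h3
    have h4 : (i : ℝ) / m * M.nm u ≤ U := by
      have : (i : ℝ) / m ≤ 1 := by rw [div_le_one hm0]; exact hi'
      have h5 := M.nm_nonneg u
      nlinarith
    refine ⟨?_, ?_⟩
    · have : M.C0 * (1 + (i : ℝ) / m * M.nm u) ≤ M.C0 * (1 + U) := by gcongr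
      linarith
    · beta_reduce
      rw [hp, M.θ_ex, norm_zero]

/-- neutral Cartan words -/
theorem neutral_word {n : ℕ} {c : S} (hc : c ∈ M.CB n) (h1 : M.η c = 1) {U : ℝ}
    (hU : M.C0 * (1 + n) ^ M.deg ≤ U) : ∃ u ∈ M.Vw 0, M.ex u = c ∧ M.nm u ≤ U := by
  obtain ⟨v, hv, hv2, hv3⟩ := M.C_ker n c hc h1
  exact ⟨v, hv, hv2, hv3.trans hU⟩

/-- **commutators of powers** -/
theorem NP.comm {Cl : ℝ} (hCl : 1 ≤ Cl) (hl : ∀ n, ∀ c ∈ M.CB n, (M.l c : ℝ) ≤ Cl * n) {U : ℝ}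
    (hU : M.C0 * (1 + (4 : ℕ)) ^ M.deg ≤ U) {t x : S} (ht : t ∈ M.CB 1) (hx : x ∈ M.CB 1)
    (q : ℕ) : ∀ (n : ℕ) (g : S), g ∈ M.CB n →
    NP M (2 * M.C0) ((4 * Cl + M.C0 * (1 + U)) * (n + q + 1)) 0 (q * bd M U (n + q))
      (g * (t ^ q * x * (t ^ q)⁻¹ * x⁻¹) * g⁻¹) := by
  have hC := M.C0_pos
  have hU0 : 0 ≤ U := le_trans (by positivity) hU
  have hA : 0 ≤ 4 * Cl + M.C0 * (1 + U) := by positivity
  induction q with
  | zero =>
    intro n g _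
    have e : g * (t ^ 0 * x * (t ^ 0)⁻¹ * x⁻¹) * g⁻¹ = 1 := by simp
    rw [e, Nat.zero_mul]
    exact NP.one M (by positivity) le_rfl
  | succ q ih =>
    intro n g hg
    have hgt : g * t ∈ M.CB (n + 1) := M.CB_mul hg ht
    have h1 := ih (n + 1) (g * t) hgt
    obtain ⟨u, hu, hu2, hu3⟩ := neutral_word M (n := 4) (c := t * x * t⁻¹ * x⁻¹)
      (M.CB_mul (M.CB_mul (M.CB_mul ht hx) (M.CB_inv ht)) (M.CB_inv hx))
      (by simp only [map_mul, map_inv]; rw [mul_comm (M.η t)]; simp) hU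
    have h2 := NP.conj M hl hU0 hg hu hu3
    have e : g * (t ^ (q + 1) * x * (t ^ (q + 1))⁻¹ * x⁻¹) * g⁻¹ =
        (g * t) * (t ^ q * x * (t ^ q)⁻¹ * x⁻¹) * (g * t)⁻¹ * (g * M.ex u * g⁻¹) := by
      rw [hu2, pow_succ']; group
    rw [e]
    have hlen : (M.l ((g * t) * (t ^ q * x * (t ^ q)⁻¹ * x⁻¹) * (g * t)⁻¹) : ℝ) ≤
        Cl * (2 * (n + 1) + 2 * q + 2) := by
      have h3 : (g * t) * (t ^ q * x * (t ^ q)⁻¹ * x⁻¹) * (g * t)⁻¹ ∈
          M.CB (n + 1 + (q * 1 + 1 + q * 1 + 1) + (n + 1)) :=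
        M.CB_mul (M.CB_mul hgt (M.CB_mul (M.CB_mul (M.CB_mul (M.CB_pow ht q) hx)
          (M.CB_inv (M.CB_pow ht q))) (M.CB_inv hx))) (M.CB_inv hgt)
      refine (hl _ _ h3).trans (le_of_eq ?_)
      push_cast; ring
    have hn0 : (0 : ℝ) ≤ n := Nat.cast_nonneg _
    have hq0 : (0 : ℝ) ≤ q := Nat.cast_nonneg _
    have h4 := h1.mul h2 (r := (4 * Cl + M.C0 * (1 + U)) * (n + (q + 1 : ℕ) + 1)) (h := 0)
      (le_of_eq (by push_cast; ring)) (by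
        push_cast
        have a1 : M.C0 * (1 + U) ≤ M.C0 * (1 + U) * (n + (q + 1) + 1) :=
          le_mul_of_one_le_right (by positivity) (by linarith)
        have a2 : Cl * (2 * (n + 1) + 2 * q + 2) + 2 * (Cl * n) ≤ 4 * Cl * (n + (q + 1) + 1) := by
          have : 0 ≤ Cl * q := by positivity
          nlinarith
        linarith) le_rfl (by have := h1.θ_le; linarith)
    refine h4.extend (by positivity) ?_
    have a1 : bd M U (n + 1 + q) = bd M U (n + (q + 1)) := by congr 1; omega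
    have a2 : bd M U n ≤ bd M U (n + (q + 1)) := bd_mono M hU0 (by omega)
    rw [a1]
    calc q * bd M U (n + (q + 1)) + bd M U n ≤ q * bd M U (n + (q + 1)) + bd M U (n + (q + 1)) :=
          Nat.add_le_add_left a2 _
      _ = _ := by ring

/-- integral powers -/
theorem NP.zcomm {Cl : ℝ} (hCl : 1 ≤ Cl) (hl : ∀ n, ∀ c ∈ M.CB n, (M.l c : ℝ) ≤ Cl * n) {U : ℝ}
    (hU : M.C0 * (1 + (4 : ℕ)) ^ M.deg ≤ U) {t x : S} (ht : t ∈ M.CB 1) (hx : x ∈ M.CB 1)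
    (z : ℤ) (n : ℕ) (g : S) (hg : g ∈ M.CB n) :
    NP M (2 * M.C0) ((4 * Cl + M.C0 * (1 + U)) * (n + z.natAbs + 1)) 0
      (z.natAbs * bd M U (n + z.natAbs)) (g * (t ^ z * x * (t ^ z)⁻¹ * x⁻¹) * g⁻¹) := by
  rcases Int.natAbs_eq z with h | h
  · have e : t ^ z = t ^ z.natAbs := by
      conv_lhs => rw [h]
      rw [zpow_natCast]
    rw [e]
    exact NP.comm M hCl hl hU ht hx _ n g hg
  · have e : t ^ z = t⁻¹ ^ z.natAbs := by
      conv_lhs => rw [h]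
      rw [zpow_neg, zpow_natCast, inv_pow]
    rw [e]
    exact NP.comm M hCl hl hU (M.CB_inv ht) hx _ n g hg

end Vale.Agent.P188.H754
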