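import Vale.Agent.P188.H754.NPath

/-!
# P188, block NEU: sorted words in the Cartan group
-/

set_option linter.all false

open Set
open Agent.P188.H428 (IsLen)
open Vale.Agent.P188.H530 (hgt hgt_mul)
open Vale.Agent.P188.Z1

namespace Vale.Agent.P188.H754

variable {S : Type} [Group S] [MeasurableSpace S] {Γ : Type} [Group Γ]
  {V : Type} [AddCommGroup V] [Module ℝ V] {k : ℕ} (M : RModel S Γ V k)

/-- the letters `τ e_i` -/
def lt (i : ℕ) : S := if h : i < k then M.τ (Pi.single ⟨i, h⟩ 1) else 1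

theorem lt_CB (i : ℕ) : lt M i ∈ M.CB 1 := by
  unfold lt
  split_ifs with h
  · refine ⟨[M.τ (Pi.single ⟨i, h⟩ 1)], by simp, by simp, ?_⟩
    intro a ha
    rw [List.mem_singleton] at ha
    subst ha
    refine Or.inr ⟨Pi.single ⟨i, h⟩ 1, fun j => ?_, Or.inl rfl⟩
    by_cases hj : j = ⟨i, h⟩
    · subst hj; simp
    · rw [Pi.single_eq_of_ne hj]; simp
  · exact M.one_mem_CB 1

theorem lt_zpow_CB (i : ℕ) (z : ℤ) : lt M i ^ z ∈ M.CB z.natAbs := by
  rcases Int.natAbs_eq z with h | h
  · have e : lt M i ^ z = lt M i ^ z.natAbs := by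
      conv_lhs => rw [h]
      rw [zpow_natCast]
    rw [e]
    simpa using M.CB_pow (lt_CB M i) z.natAbs
  · have e : lt M i ^ z = (lt M i)⁻¹ ^ z.natAbs := by
      conv_lhs => rw [h]
      rw [zpow_neg, zpow_natCast, inv_pow]
    rw [e]
    simpa using M.CB_pow (M.CB_inv (lt_CB M i)) z.natAbs

/-- sorted words -/
def sw (q : ℕ → ℤ) : ℕ → S
  | 0 => 1
  | j + 1 => sw q j * lt M j ^ q j

theorem sw_congr {q q' : ℕ → ℤ} {j : ℕ} (h : ∀ i < j, q i = q' i) : sw M q j = sw M q' j := by
  induction j with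
  | zero => rfl
  | succ j ih => rw [sw, sw, ih fun i hi => h i (by omega), h j (by omega)]

theorem sw_CB {q : ℕ → ℤ} {N : ℕ} (hq : ∀ i, (q i).natAbs ≤ N) (j : ℕ) :
    sw M q j ∈ M.CB (j * N) := by
  induction j with
  | zero => simpa [sw] using M.one_mem_CB 0
  | succ j ih =>
    rw [sw, Nat.succ_mul]
    exact M.CB_mul ih (M.CB_mono (hq j) (lt_zpow_CB M j (q j)))

theorem η_sw (q : ℕ → ℤ) : ∀ j ≤ k, M.η (sw M q j) =
    Multiplicative.ofAdd (fun i : Fin k => if (i : ℕ) < j then q i else 0) := by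
  intro j
  induction j with
  | zero =>
    intro _
    rw [sw, map_one]
    rw [← ofAdd_zero]
    congr 1
  | succ j ih =>
    intro hj
    have hj' : j < k := hj
    rw [sw, map_mul, map_zpow, ih (by omega)]
    have e : M.η (lt M j) = Multiplicative.ofAdd (Pi.single ⟨j, hj'⟩ 1) := by
      unfold lt
      rw [dif_pos hj', M.η_τ]
    rw [e, ← ofAdd_zsmul, ← ofAdd_add]
    congr 1
    funext i
    rw [Pi.add_apply, Pi.smul_apply, smul_eq_mul]
    by_cases h : i = ⟨j, hj'⟩
    · subst h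
      simp
    · rw [Pi.single_eq_of_ne h, mul_zero, add_zero]
      have h2 : (i : ℕ) ≠ j := fun h3 => h (Fin.ext h3)
      by_cases h3 : (i : ℕ) < j
      · rw [if_pos h3, if_pos (by omega)]
      · rw [if_neg h3, if_neg (by omega)]

variable {M}

theorem NP.zero_ext {C r : ℝ} (hC : 0 ≤ C) (hr : 0 ≤ r) (m : ℕ) : NP M C r 0 m 1 :=
  (NP.one M hr le_rfl).extend hC (Nat.zero_le _)

variable (M)

/-- **one letter into a sorted word** -/
theorem NP.sorted_step {Cl : ℝ} (hCl : 1 ≤ Cl) (hl : ∀ n, ∀ c ∈ M.CB n, (M.l c : ℝ) ≤ Cl * n)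
    {U : ℝ} (hU : M.C0 * (1 + (4 : ℕ)) ^ M.deg ≤ U) {q : ℕ → ℤ} {N : ℕ}
    (hq : ∀ i, (q i).natAbs ≤ N) {i : ℕ} {ε : ℤ} (hε : ε.natAbs ≤ 1) :
    ∀ j ≤ k, i < j → NP M (2 * M.C0) (j * ((4 * Cl + M.C0 * (1 + U)) * (k * N + N + 1))) 0
      (j * (N * bd M U (k * N + N)))
      (sw M q j * lt M i ^ ε * (sw M (Function.update q i (q i + ε)) j)⁻¹) := by
  have hC := M.C0_pos
  have hU0 : 0 ≤ U := le_trans (by positivity) hU
  have hA : 0 ≤ (4 * Cl + M.C0 * (1 + U)) * ((k : ℝ) * N + N + 1) := by positivity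
  intro j
  induction j with
  | zero => intro _ h; omega
  | succ j ih =>
    intro hj hij
    rcases Nat.lt_succ_iff_lt_or_eq.1 hij with hlt | heq
    · have h1 := ih (by omega) hlt
      have hx : lt M i ^ ε ∈ M.CB 1 := M.CB_mono hε (lt_zpow_CB M i ε)
      have h2 := NP.zcomm M hCl hl hU (lt_CB M j) hx (q j) (j * N) (sw M q j) (sw_CB M hq j)
      have e : sw M q (j + 1) * lt M i ^ ε *
          (sw M (Function.update q i (q i + ε)) (j + 1))⁻¹ =
          (sw M q j * (lt M j ^ q j * lt M i ^ ε * (lt M j ^ q j)⁻¹ * (lt M i ^ ε)⁻¹) *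
            (sw M q j)⁻¹) *
          (sw M q j * lt M i ^ ε * (sw M (Function.update q i (q i + ε)) j)⁻¹) := by
        rw [sw, sw, Function.update_of_ne (by omega : j ≠ i)]
        group
      rw [e]
      have hjN : j * N ≤ k * N := Nat.mul_le_mul_right _ (by omega)
      have h3 : NP M (2 * M.C0) ((4 * Cl + M.C0 * (1 + U)) * (k * N + N + 1)) 0
          (N * bd M U (k * N + N))
          (sw M q j * (lt M j ^ q j * lt M i ^ ε * (lt M j ^ q j)⁻¹ * (lt M i ^ ε)⁻¹) *
            (sw M q j)⁻¹) := by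
        refine (h2.mono le_rfl ?_ le_rfl).extend (by positivity) ?_
        · refine mul_le_mul_of_nonneg_left ?_ (by positivity)
          have a1 : ((j * N : ℕ) : ℝ) ≤ ((k * N : ℕ) : ℝ) := by exact_mod_cast hjN
          have a2 : ((q j).natAbs : ℝ) ≤ N := by exact_mod_cast hq j
          push_cast at a1 ⊢
          linarith
        · exact Nat.mul_le_mul (hq j) (bd_mono M hU0 (Nat.add_le_add hjN (hq j)))
      have h4 := h3.mul' h1 (by positivity) le_rfl
      refine (h4.mono le_rfl (le_of_eq ?_) (by simp)).extend (by positivity) (le_of_eq ?_)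
      · push_cast; ring
      · ring
    · subst heq
      have e : sw M q (i + 1) * lt M i ^ ε *
          (sw M (Function.update q i (q i + ε)) (i + 1))⁻¹ = 1 := by
        rw [sw, sw, Function.update_self,
          sw_congr M (q := Function.update q i (q i + ε)) (q' := q)
            (fun t ht => Function.update_of_ne (by omega) _ _), zpow_add]
        group
      rw [e]
      exact NP.zero_ext (by positivity) (by positivity) _

/-- the extension of a vector by zero -/
def exz (u : Fin k → ℤ) (i : ℕ) : ℤ := if h : i < k then u ⟨i, h⟩ else 0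

theorem exz_natAbs {u : Fin k → ℤ} {N : ℕ} (hu : ∀ i, (u i).natAbs ≤ N) (i : ℕ) :
    (exz u i).natAbs ≤ N := by
  unfold exz
  split_ifs with h
  · exact hu _
  · simp

theorem η_sw_exz (u : Fin k → ℤ) : M.η (sw M (exz u) k) = Multiplicative.ofAdd u := by
  rw [η_sw M _ k le_rfl]
  congr 1
  funext i
  rw [if_pos i.2]
  unfold exz
  rw [dif_pos i.2]

/-- **one Cartan letter** -/
theorem NP.letter {Cl : ℝ} (hCl : 1 ≤ Cl) (hl : ∀ n, ∀ c ∈ M.CB n, (M.l c : ℝ) ≤ Cl * n)
    {U : ℝ} (hU : M.C0 * (1 + (4 : ℕ)) ^ M.deg ≤ U) (hU2 : M.C0 * (1 + (1 + k : ℕ)) ^ M.deg ≤ U)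
    {w u : Fin k → ℤ} {N : ℕ} (hw : ∀ i, (w i).natAbs ≤ N) (hu : ∀ i, (u i).natAbs ≤ 1)
    {x : S} (hx : x ∈ M.CB 1) (hxu : M.η x = Multiplicative.ofAdd u) :
    NP M (2 * M.C0) (2 * (Cl * (k * (N + 1))) + M.C0 * (1 + U) +
      k * (k * ((4 * Cl + M.C0 * (1 + U)) * (k * (N + 1 : ℕ) + (N + 1 : ℕ) + 1)))) 0
      (bd M U (k * (N + 1)) + k * (k * ((N + 1) * bd M U (k * (N + 1) + (N + 1)))))
      (sw M (exz w) k * x * (sw M (exz (w + u)) k)⁻¹) := by
  have hC := M.C0_pos
  have hU0 : 0 ≤ U := le_trans (by positivity) hU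
  -- the neutral part of the letter
  obtain ⟨y, hy, hy2, hy3⟩ := neutral_word M (n := 1 + k) (c := x * (sw M (exz u) k)⁻¹)
    (M.CB_mul hx (M.CB_inv (by simpa using sw_CB M (exz_natAbs hu) k)))
    (by rw [map_mul, map_inv, hxu, η_sw_exz, mul_inv_cancel]) hU2
  have hσ : sw M (exz w) k ∈ M.CB (k * (N + 1)) :=
    sw_CB M (fun i => (exz_natAbs hw i).trans (Nat.le_succ N)) k
  have h1 := NP.conj M hl hU0 hσ hy hy3
  -- the intermediate sorted words
  obtain ⟨Q, hQ⟩ : ∃ Q : ℕ → ℕ → ℤ, ∀ j i, Q j i = exz w i + if i < j then exz u i else 0 :=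
    ⟨fun j i => exz w i + if i < j then exz u i else 0, fun _ _ => rfl⟩
  have hQN : ∀ j i, (Q j i).natAbs ≤ N + 1 := by
    intro j i
    rw [hQ]
    refine (Int.natAbs_add_le _ _).trans (Nat.add_le_add (exz_natAbs hw i) ?_)
    split_ifs
    · exact exz_natAbs hu i
    · simp
  have hΔ : ∀ j ≤ k, NP M (2 * M.C0)
      (j * (k * ((4 * Cl + M.C0 * (1 + U)) * (k * (N + 1 : ℕ) + (N + 1 : ℕ) + 1)))) 0
      (j * (k * ((N + 1) * bd M U (k * (N + 1) + (N + 1)))))
      (sw M (exz w) k * sw M (exz u) j * (sw M (Q j) k)⁻¹) := by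
    intro j
    induction j with
    | zero =>
      intro _
      have e : sw M (exz w) k * sw M (exz u) 0 * (sw M (Q 0) k)⁻¹ = 1 := by
        have e2 : sw M (Q 0) k = sw M (exz w) k := sw_congr M fun i _ => by rw [hQ]; simp
        rw [e2, sw]; group
      rw [e]
      exact NP.zero_ext (by positivity) (by simp) _
    | succ j ih =>
      intro hj
      have a1 := ih (by omega)
      have a2 := NP.sorted_step M hCl hl hU (hQN j) (i := j) (exz_natAbs hu j) k le_rfl hj
      have e1 : sw M (Function.update (Q j) j (Q j j + exz u j)) k = sw M (Q (j + 1)) k := by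
        refine sw_congr M fun i _ => ?_
        by_cases h : i = j
        · subst h
          rw [Function.update_self, hQ, hQ, if_neg (lt_irrefl _), if_pos (Nat.lt_succ_self _),
            add_zero]
        · rw [Function.update_of_ne h, hQ, hQ]
          congr 1
          by_cases h2 : i < j
          · rw [if_pos h2, if_pos (by omega)]
          · rw [if_neg h2, if_neg (by omega)]
      rw [e1] at a2
      have e : sw M (exz w) k * sw M (exz u) (j + 1) * (sw M (Q (j + 1)) k)⁻¹ =
          (sw M (exz w) k * sw M (exz u) j * (sw M (Q j) k)⁻¹) *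
          (sw M (Q j) k * lt M j ^ exz u j * (sw M (Q (j + 1)) k)⁻¹) := by
        rw [sw]; group
      rw [e]
      have a3 := a1.mul' a2 (by positivity) le_rfl
      refine (a3.mono le_rfl (le_of_eq ?_) (by simp)).extend (by positivity) (le_of_eq ?_)
      · push_cast; ring
      · ring
  have h2 := hΔ k le_rfl
  have e1 : sw M (Q k) k = sw M (exz (w + u)) k := by
    refine sw_congr M fun i hi => ?_
    rw [hQ, if_pos hi]
    unfold exz
    rw [dif_pos hi, dif_pos hi, dif_pos hi, Pi.add_apply]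
  rw [e1] at h2
  have e : sw M (exz w) k * x * (sw M (exz (w + u)) k)⁻¹ =
      (sw M (exz w) k * M.ex y * (sw M (exz w) k)⁻¹) *
      (sw M (exz w) k * sw M (exz u) k * (sw M (exz (w + u)) k)⁻¹) := by
    rw [hy2]; group
  rw [e]
  have h3 := h1.mul' h2 (by positivity) le_rfl
  refine h3.mono le_rfl (le_of_eq ?_) (by simp)
  push_cast
  ring

/-- heights of Cartan words -/
theorem natAbs_CB {n : ℕ} {c : S} (hc : c ∈ M.CB n) (i : Fin k) :
    (Multiplicative.toAdd (M.η c) i).natAbs ≤ n := by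
  obtain ⟨L, h1, rfl, h3⟩ := hc
  refine le_trans ?_ h1
  clear h1
  induction L with
  | nil => simp
  | cons a L ih =>
    rw [List.prod_cons, map_mul, toAdd_mul, Pi.add_apply, List.length_cons, add_comm L.length]
    refine (Int.natAbs_add_le _ _).trans (Nat.add_le_add ?_ (ih fun b hb =>
      h3 b (List.mem_cons_of_mem _ hb)))
    rcases h3 a (by simp) with ⟨v, _, _, rfl⟩ | ⟨w, hw, h | h⟩
    · rw [M.η_ex]; simp
    · rw [← h, M.η_τ, toAdd_ofAdd]
      have := hw i
      rw [Int.abs_eq_natAbs] at this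
      exact_mod_cast this
    · rw [← h, map_inv, M.η_τ, toAdd_inv, toAdd_ofAdd, Pi.neg_apply, Int.natAbs_neg]
      have := hw i
      rw [Int.abs_eq_natAbs] at this
      exact_mod_cast this

/-- **the neutral part of a Cartan word** -/
theorem NP.neutral {Cl : ℝ} (hCl : 1 ≤ Cl) (hl : ∀ n, ∀ c ∈ M.CB n, (M.l c : ℝ) ≤ Cl * n)
    {U : ℝ} (hU : M.C0 * (1 + (4 : ℕ)) ^ M.deg ≤ U) (hU2 : M.C0 * (1 + (1 + k : ℕ)) ^ M.deg ≤ U)
    (n : ℕ) : ∀ L : List S, L.length ≤ n → (∀ a ∈ L, a ∈ M.CB 1) →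
    NP M (2 * M.C0) (Cl * (n + k * n) + (2 * (Cl * (k * (n + 1))) + M.C0 * (1 + U) +
      k * (k * ((4 * Cl + M.C0 * (1 + U)) * (k * (n + 1 : ℕ) + (n + 1 : ℕ) + 1))))) 0
      (L.length * (bd M U (k * (n + 1)) + k * (k * ((n + 1) * bd M U (k * (n + 1) + (n + 1))))))
      (L.prod * (sw M (exz (Multiplicative.toAdd (M.η L.prod))) k)⁻¹) := by
  have hC := M.C0_pos
  have hU0 : 0 ≤ U := le_trans (by positivity) hU
  intro L
  induction L using List.reverseRecOn with
  | nil =>
    intro _ _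
    have e : sw M (exz (Multiplicative.toAdd (M.η ([] : List S).prod))) k = 1 := by
      rw [List.prod_nil, map_one, toAdd_one]
      have : ∀ j, sw M (exz (0 : Fin k → ℤ)) j = 1 := by
        intro j
        induction j with
        | zero => rfl
        | succ j ih =>
          rw [sw, ih]
          have : exz (0 : Fin k → ℤ) j = 0 := by unfold exz; split_ifs <;> simp
          rw [this, zpow_zero, one_mul]
      exact this k
    rw [e, List.prod_nil, inv_one, mul_one]
    exact NP.zero_ext (by positivity) (by positivity) _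
  | append_singleton L x ih =>
    intro hn hL
    rw [List.length_append, List.length_singleton] at hn ⊢
    have hx : x ∈ M.CB 1 := hL x (by simp)
    have hLm : ∀ a ∈ L, a ∈ M.CB 1 := fun a ha => hL a (by simp [ha])
    have h1 := ih (by omega) hLm
    have hprod : ∀ L : List S, (∀ a ∈ L, a ∈ M.CB 1) → L.prod ∈ M.CB L.length := by
      intro L
      induction L with
      | nil => intro _; simpa using M.one_mem_CB 0
      | cons a L ih =>
        intro h
        rw [List.prod_cons, List.length_cons, add_comm]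
        exact M.CB_mul (h a (by simp)) (ih fun b hb => h b (List.mem_cons_of_mem _ hb))
    have hLp : L.prod ∈ M.CB n := M.CB_mono (by omega) (hprod L hLm)
    have hwn := natAbs_CB M hLp
    have h2 := NP.letter M hCl hl hU hU2 hwn (natAbs_CB M hx) hx
      (u := Multiplicative.toAdd (M.η x)) rfl
    have e : (L ++ [x]).prod * (sw M (exz (Multiplicative.toAdd (M.η (L ++ [x]).prod))) k)⁻¹ =
        (L.prod * (sw M (exz (Multiplicative.toAdd (M.η L.prod))) k)⁻¹) *
        (sw M (exz (Multiplicative.toAdd (M.η L.prod))) k * x *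
          (sw M (exz (Multiplicative.toAdd (M.η L.prod) + Multiplicative.toAdd (M.η x))) k)⁻¹) := by
      rw [List.prod_append, List.prod_singleton, map_mul, toAdd_mul]
      group
    rw [e]
    have hlen : (M.l (L.prod * (sw M (exz (Multiplicative.toAdd (M.η L.prod))) k)⁻¹) : ℝ) ≤
        Cl * (n + k * n) := by
      refine (hl _ _ (M.CB_mul hLp (M.CB_inv (sw_CB M (exz_natAbs hwn) k)))).trans (le_of_eq ?_)
      push_cast; ring
    have h3 := h1.mul h2 le_rfl (add_le_add_left hlen _) le_rfl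
      (by have := h1.θ_le; linarith)
    refine h3.extend (by positivity) (le_of_eq ?_)
    ring

/-- powers of a letter -/
theorem NP.pow {Cl : ℝ} (hl : ∀ n, ∀ c ∈ M.CB n, (M.l c : ℝ) ≤ Cl * n) {t : S} (ht : t ∈ M.CB 1)
    (ht1 : ‖M.θ t‖ ≤ 1) (m : ℕ) : NP M Cl (Cl * m) m m (t ^ m) := by
  have hCl : 0 ≤ Cl := by
    have := hl 1 t ht
    have h2 : (0 : ℝ) ≤ M.l t := Nat.cast_nonneg _
    rw [Nat.cast_one, mul_one] at this
    linarith
  refine ⟨fun i => t ^ i, by simp, rfl, ?_, ?_⟩
  · intro i _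
    have e : (t ^ i)⁻¹ * t ^ (i + 1) = t := by rw [pow_succ]; group
    rw [e]
    simpa using hl 1 t ht
  · intro i hi
    have hi' : (i : ℝ) ≤ m := by exact_mod_cast hi
    refine ⟨?_, ?_⟩
    · refine (hl i _ (by simpa using M.CB_pow ht i)).trans ?_
      gcongr
    · refine le_trans ?_ hi'
      have : ∀ j : ℕ, ‖M.θ (t ^ j)‖ ≤ j := by
        intro j
        induction j with
        | zero => simp [M.θ_one]
        | succ j ih =>
          rw [pow_succ, M.θ_mul]
          push_cast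
          exact (norm_add_le _ _).trans (add_le_add ih ht1)
      exact this i

theorem θ_lt_le (i : ℕ) : ‖M.θ (lt M i)‖ ≤ 1 := by
  rw [pi_norm_le_iff_of_nonneg zero_le_one]
  intro j
  have h := natAbs_CB M (lt_CB M i) j
  rw [Real.norm_eq_abs]
  unfold RModel.θ hgt
  rw [← Int.cast_abs]
  have h2 : |Multiplicative.toAdd (M.η (lt M i)) j| ≤ 1 := by
    rw [Int.abs_eq_natAbs]; exact_mod_cast h
  exact_mod_cast h2

/-- **the sorted word** -/
theorem NP.sw_path {Cl : ℝ} (hl : ∀ n, ∀ c ∈ M.CB n, (M.l c : ℝ) ≤ Cl * n) {q : ℕ → ℤ} {N : ℕ}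
    (hq : ∀ i, (q i).natAbs ≤ N) (j : ℕ) :
    NP M Cl (j * (Cl * N)) (j * N) (j * N) (sw M q j) := by
  have hCl : 0 ≤ Cl := by
    have := hl 1 _ (lt_CB M 0)
    have h2 : (0 : ℝ) ≤ M.l (lt M 0) := Nat.cast_nonneg _
    rw [Nat.cast_one, mul_one] at this
    linarith
  induction j with
  | zero => simpa [sw] using NP.one M (C := Cl) (r := 0) (h := 0) le_rfl le_rfl
  | succ j ih =>
    have h1 : NP M Cl (Cl * N) N N (lt M j ^ q j) := by
      have hN : ((q j).natAbs : ℝ) ≤ N := by exact_mod_cast hq j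
      have h2 : NP M Cl (Cl * (q j).natAbs) (q j).natAbs (q j).natAbs (lt M j ^ q j) := by
        rcases Int.natAbs_eq (q j) with h | h
        · have e : lt M j ^ q j = lt M j ^ (q j).natAbs := by
            conv_lhs => rw [h]
            rw [zpow_natCast]
          rw [e]
          exact NP.pow M hl (lt_CB M j) (θ_lt_le M j) _
        · have e : lt M j ^ q j = (lt M j)⁻¹ ^ (q j).natAbs := by
            conv_lhs => rw [h]
            rw [zpow_neg, zpow_natCast, inv_pow]
          rw [e]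
          refine NP.pow M hl (M.CB_inv (lt_CB M j)) ?_ _
          have e2 : M.θ (lt M j)⁻¹ = - M.θ (lt M j) := by
            have h3 := M.θ_mul (lt M j) (lt M j)⁻¹
            rw [mul_inv_cancel, M.θ_one] at h3
            exact (neg_eq_of_add_eq_zero_right h3.symm).symm
          rw [e2, norm_neg]
          exact θ_lt_le M j
      exact (h2.mono le_rfl (by gcongr) hN).extend hCl (hq j)
    rw [sw]
    have h2 := ih.mul' h1 (by positivity) (Nat.cast_nonneg _)
    refine (h2.mono le_rfl (le_of_eq ?_) (le_of_eq ?_)).extend hCl (le_of_eq ?_)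
    · push_cast; ring
    · push_cast; ring
    · ring

end Vale.Agent.P188.H754
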