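import Vale.Agent.P188.H530.Growth

/-!
# P188, block NEU, part 1: the abstract model and the displacement lemmas

`NM` lists the facts on the real group `S`, the exponential radical `E`, the Cartan words `CW n`
and the lattice `Γ` which are used in the comparison along paths with bounded heights (`NEU`).
-/

set_option linter.all false

universe u v w

open Real

namespace Vale.Agent.P188.H754

open Vale.Agent.P188.H530 (Crossed)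

/-- the abstract model for `NEU` -/
structure NM (S : Type u) (Γ : Type v) (Ht : Type w) [Group S] [Group Γ]
    [NormedAddCommGroup Ht] [NormedSpace ℝ Ht] where
  C0 : ℝ
  one_le_C0 : 1 ≤ C0
  -- length
  l : S → ℝ
  l_nonneg : ∀ x, 0 ≤ l x
  l_one : l 1 = 0
  l_inv : ∀ x, l x⁻¹ = l x
  l_mul : ∀ x y, l (x * y) ≤ l x + l y
  l_path : ∀ x, ∃ (n : ℕ) (p : ℕ → S), (n : ℝ) ≤ C0 * (l x + 1) ∧ p 0 = 1 ∧ p n = x ∧
    (∀ i < n, l ((p i)⁻¹ * p (i + 1)) ≤ C0) ∧ ∀ i ≤ n, l (p i) ≤ C0 * (l x + 1)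
  -- heights
  θ : S → Ht
  θ_mul : ∀ x y, θ (x * y) = θ x + θ y
  θ_le : ∀ x, ‖θ x‖ ≤ C0 * l x
  -- the exponential radical
  E : Subgroup S
  E_normal : E.Normal
  θ_E : ∀ e ∈ E, θ e = 0
  E_prod : ∀ (L : ℝ) (es : List S), 0 ≤ L → (∀ e ∈ es, e ∈ E ∧ l e ≤ L) →
    l es.prod ≤ C0 * (L + log (es.length + 1) + 1)
  -- Cartan words
  CW : ℕ → Set S
  CW_mul : ∀ m n, ∀ c ∈ CW m, ∀ d ∈ CW n, c * d ∈ CW (m + n)
  CW_inv : ∀ n, ∀ c ∈ CW n, c⁻¹ ∈ CW n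
  CW_mono : ∀ m n, m ≤ n → CW m ⊆ CW n
  CW_l : ∀ n : ℕ, ∀ c ∈ CW n, l c ≤ C0 * n
  dec : ∀ s, ∃ e ∈ E, ∃ c ∈ CW ⌈C0 * l s⌉₊, s = e * c
  con : ∀ n : ℕ, ∀ c ∈ CW n, ∀ e ∈ E, l (c * e * c⁻¹) ≤ C0 * (l e + ‖θ c‖ + log (n + 1) + 1)
  cpath : ∀ n : ℕ, ∀ c ∈ CW n, ∃ (m : ℕ) (p : ℕ → S), (m : ℝ) ≤ C0 * ((n : ℝ) + 1) ^ C0 ∧
    p 0 = 1 ∧ p m = c ∧ (∀ i < m, l ((p i)⁻¹ * p (i + 1)) ≤ C0) ∧
    ∀ i ≤ m, l (p i) ≤ C0 * (n + 1) ∧ ‖θ (p i)‖ ≤ C0 * (‖θ c‖ + 1)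
  sec : ∀ s, ∃ t ∈ CW ⌈C0 * (‖θ s‖ + 1)⌉₊, θ t = θ s
  -- the lattice
  inG : Γ →* S
  fl : S → Γ
  fl_mul : ∀ g z, fl (inG g * z) = g * fl z
  fl_close : ∀ z, l ((inG (fl z))⁻¹ * z) ≤ C0
  seg : ∀ u : Ht, ∃ (n : ℕ) (g : ℕ → Γ), (n : ℝ) ≤ C0 * (‖u‖ + 1) ∧ g 0 = 1 ∧
    (∀ i < n, l (inG ((g i)⁻¹ * g (i + 1))) ≤ C0) ∧
    (∀ i ≤ n, ∃ s ∈ Set.Icc (0 : ℝ) 1, ‖θ (inG (g i)) - s • u‖ ≤ C0) ∧
    ‖θ (inG (g n)) - u‖ ≤ C0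
  -- the generating weights
  Φ : Finset (Ht →L[ℝ] ℝ)
  Φ_ne : ∀ b ∈ Φ, b ≠ 0
  cr : ∀ b : Φ, Crossed (fun g => θ (inG g)) (b : Ht →L[ℝ] ℝ)
  cr_le : ∀ (b : Φ) (L : ℝ), ∃ A : ℝ, ∀ g, l (inG g) ≤ L → ‖(cr b).D g‖ ≤ A
  hw : (Ht →L[ℝ] ℝ) → ℝ
  hw_pos : ∀ b ∈ Φ, 0 < hw b
  hw_sum : ∀ v, ∑ b ∈ Φ, hw b * b v = 0
  Φ_norm : ∀ v (r : ℝ), 0 ≤ r → (∀ b ∈ Φ, |b v| ≤ r) → ‖v‖ ≤ C0 * r

namespace NM

variable {S : Type u} {Γ : Type v} {Ht : Type w} [Group S] [Group Γ]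
  [NormedAddCommGroup Ht] [NormedSpace ℝ Ht] (M : NM S Γ Ht)

theorem C0_pos : 0 < M.C0 := lt_of_lt_of_le one_pos M.one_le_C0

theorem θ_one : M.θ 1 = 0 := by
  have := M.θ_mul 1 1
  rw [mul_one] at this
  simpa using this

theorem θ_inv (x : S) : M.θ x⁻¹ = - M.θ x := by
  have := M.θ_mul x x⁻¹
  rw [mul_inv_cancel, M.θ_one] at this
  exact (neg_eq_of_add_eq_zero_right this.symm).symm

/-- Quasi-isometries -/
structure QI (K : ℝ) (F F' : Γ → Γ) : Prop where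
  lip : ∀ g y, M.l (M.inG ((F g)⁻¹ * F (g * y))) ≤ K * (M.l (M.inG y) + 1)
  lip' : ∀ g y, M.l (M.inG ((F' g)⁻¹ * F' (g * y))) ≤ K * (M.l (M.inG y) + 1)
  inv : ∀ g, M.l (M.inG (g⁻¹ * F' (F g))) ≤ K
  inv' : ∀ g, M.l (M.inG (g⁻¹ * F (F' g))) ≤ K

variable {M}

theorem QI.symm {K : ℝ} {F F' : Γ → Γ} (h : M.QI K F F') : M.QI K F' F :=
  ⟨h.lip', h.lip, h.inv', h.inv⟩

theorem QI.nonneg {K : ℝ} {F F' : Γ → Γ} (h : M.QI K F F') : 0 ≤ K :=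
  (M.l_nonneg _).trans (h.inv 1)

variable (M)

/-- the map on `S` -/
def Ψ (F : Γ → Γ) (z : S) : Γ := F (M.fl z)

/-- the heights of the images -/
def f (F : Γ → Γ) (z : S) : Ht := M.θ (M.inG (F (M.fl z)))

theorem fl_lip (z x : S) : M.l (M.inG ((M.fl z)⁻¹ * M.fl (z * x))) ≤ M.l x + 2 * M.C0 := by
  have e : M.inG ((M.fl z)⁻¹ * M.fl (z * x)) =
      ((M.inG (M.fl z))⁻¹ * z) * (x * ((M.inG (M.fl (z * x)))⁻¹ * (z * x))⁻¹) := by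
    rw [map_mul, map_inv]
    group
  rw [e]
  have h1 := M.l_mul ((M.inG (M.fl z))⁻¹ * z) (x * ((M.inG (M.fl (z * x)))⁻¹ * (z * x))⁻¹)
  have h2 := M.l_mul x ((M.inG (M.fl (z * x)))⁻¹ * (z * x))⁻¹
  rw [M.l_inv] at h2
  linarith [M.fl_close z, M.fl_close (z * x)]

theorem fl_inG (g : Γ) : M.fl (M.inG g) = g * M.fl 1 := by
  rw [← M.fl_mul, mul_one]

theorem l_fl_one : M.l (M.inG (M.fl 1)) ≤ M.C0 := by
  have := M.fl_close 1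
  rwa [mul_one, M.l_inv] at this

variable {M}

theorem QI.Ψ_lip {K : ℝ} {F F' : Γ → Γ} (h : M.QI K F F') (z x : S) :
    M.l (M.inG ((M.Ψ F z)⁻¹ * M.Ψ F (z * x))) ≤ K * (M.l x + 2 * M.C0 + 1) := by
  have h1 := h.lip (M.fl z) ((M.fl z)⁻¹ * M.fl (z * x))
  rw [mul_inv_cancel_left] at h1
  exact h1.trans (mul_le_mul_of_nonneg_left (by linarith [M.fl_lip z x]) h.nonneg)

theorem QI.f_lip {K : ℝ} {F F' : Γ → Γ} (h : M.QI K F F') (z x : S) :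
    ‖M.f F (z * x) - M.f F z‖ ≤ M.C0 * (K * (M.l x + 2 * M.C0 + 1)) := by
  have e : M.f F (z * x) - M.f F z = M.θ (M.inG ((M.Ψ F z)⁻¹ * M.Ψ F (z * x))) := by
    rw [map_mul, map_inv, M.θ_mul, M.θ_inv]
    unfold f Ψ
    abel
  rw [e]
  exact (M.θ_le _).trans (mul_le_mul_of_nonneg_left (h.Ψ_lip z x) M.C0_pos.le)

variable (M)

theorem norm_ρ (b : M.Φ) (F : Γ → Γ) (z : S) :
    ‖(M.cr b).ρ (M.Ψ F z)‖ = exp ((b : Ht →L[ℝ] ℝ) (M.f F z)) := (M.cr b).norm_ρ _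

/-- **Displacement along a path.** -/
theorem disp (K L : ℝ) : ∃ A : ℝ, 0 ≤ A ∧ ∀ F F' : Γ → Γ, M.QI K F F' → ∀ (b : M.Φ) (p : ℕ → S)
    (n : ℕ) (H : ℝ), (∀ i < n, M.l ((p i)⁻¹ * p (i + 1)) ≤ L) →
    (∀ i < n, (b : Ht →L[ℝ] ℝ) (M.f F (p i)) ≤ H) →
    ‖(M.cr b).D (M.Ψ F (p n)) - (M.cr b).D (M.Ψ F (p 0))‖ ≤ n * (A * exp H) := by
  classical
  choose A hA using fun b : M.Φ => M.cr_le b (K * (L + 2 * M.C0 + 1))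
  refine ⟨∑ b : M.Φ, |A b|, Finset.sum_nonneg fun _ _ => abs_nonneg _, ?_⟩
  intro F F' hF b p n H hp hH
  have hAb : A b ≤ ∑ b : M.Φ, |A b| := (le_abs_self _).trans
    (Finset.single_le_sum (f := fun b : M.Φ => |A b|) (fun _ _ => abs_nonneg _)
      (Finset.mem_univ b))
  induction n with
  | zero => simp
  | succ n ih =>
    have h1 := ih (fun i hi => hp i (by omega)) (fun i hi => hH i (by omega))
    have h2 := hF.Ψ_lip (p n) ((p n)⁻¹ * p (n + 1))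
    rw [mul_inv_cancel_left] at h2
    have h3 : M.l (M.inG ((M.Ψ F (p n))⁻¹ * M.Ψ F (p (n + 1)))) ≤ K * (L + 2 * M.C0 + 1) :=
      h2.trans (mul_le_mul_of_nonneg_left (by linarith [hp n (by omega)]) hF.nonneg)
    have h4 := hA b _ h3
    have e : (M.cr b).D (M.Ψ F (p (n + 1))) = (M.cr b).D (M.Ψ F (p n)) +
        (M.cr b).ρ (M.Ψ F (p n)) * (M.cr b).D ((M.Ψ F (p n))⁻¹ * M.Ψ F (p (n + 1))) := by
      rw [← (M.cr b).D_mul, mul_inv_cancel_left]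
    have e2 : (M.cr b).D (M.Ψ F (p (n + 1))) - (M.cr b).D (M.Ψ F (p 0)) =
        ((M.cr b).D (M.Ψ F (p n)) - (M.cr b).D (M.Ψ F (p 0))) +
        (M.cr b).ρ (M.Ψ F (p n)) * (M.cr b).D ((M.Ψ F (p n))⁻¹ * M.Ψ F (p (n + 1))) := by
      rw [e]; ring
    rw [e2]
    refine (norm_add_le _ _).trans ?_
    rw [norm_mul, M.norm_ρ]
    have h5 : exp ((b : Ht →L[ℝ] ℝ) (M.f F (p n))) *
        ‖(M.cr b).D ((M.Ψ F (p n))⁻¹ * M.Ψ F (p (n + 1)))‖ ≤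
        exp H * ∑ b : M.Φ, |A b| :=
      mul_le_mul (exp_le_exp.2 (hH n (by omega))) (h4.trans hAb) (norm_nonneg _) (exp_pos _).le
    push_cast
    linarith

theorem exists_Cb : ∃ C : ℝ, 1 ≤ C ∧ ∀ b : M.Φ, ‖(b : Ht →L[ℝ] ℝ)‖ ≤ C := by
  classical
  refine ⟨1 + ∑ b : M.Φ, ‖(b : Ht →L[ℝ] ℝ)‖, ?_, fun b => ?_⟩
  · have : 0 ≤ ∑ b : M.Φ, ‖(b : Ht →L[ℝ] ℝ)‖ := Finset.sum_nonneg fun _ _ => norm_nonneg _
    linarith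
  · have := Finset.single_le_sum (f := fun b : M.Φ => ‖(b : Ht →L[ℝ] ℝ)‖)
      (fun _ _ => norm_nonneg _) (Finset.mem_univ b)
    linarith

theorem b_le {C : ℝ} {b : Ht →L[ℝ] ℝ} (hb : ‖b‖ ≤ C) {v w : Ht} {r : ℝ} (h : ‖v - w‖ ≤ r) :
    b v ≤ b w + C * r := by
  have h1 : |b (v - w)| ≤ C * r := by
    rw [← Real.norm_eq_abs]
    refine (b.le_opNorm _).trans ?_
    have : 0 ≤ C := (norm_nonneg _).trans hb
    gcongr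
  have h2 := le_abs_self (b (v - w))
  rw [map_sub] at h1 h2
  linarith

/-- **Short displacement.** -/
theorem disp_short (K : ℝ) : ∃ A : ℝ, 0 ≤ A ∧ ∀ F F' : Γ → Γ, M.QI K F F' → ∀ (b : M.Φ) (z x : S),
    ‖(M.cr b).D (M.Ψ F (z * x)) - (M.cr b).D (M.Ψ F z)‖ ≤
      exp ((b : Ht →L[ℝ] ℝ) (M.f F z) + A * (M.l x + 1)) := by
  obtain ⟨A, hA0, hA⟩ := M.disp K M.C0
  obtain ⟨Cb, hCb1, hCb⟩ := M.exists_Cb
  have hC := M.C0_pos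
  refine ⟨M.C0 + A + Cb * (M.C0 * (|K| * (3 * M.C0 + 1))), by positivity, ?_⟩
  intro F F' hF b z x
  obtain ⟨n, p, hn, h0, h1, h2, h3⟩ := M.l_path x
  have hx := M.l_nonneg x
  have hK := hF.nonneg
  have hH : ∀ i < n, (b : Ht →L[ℝ] ℝ) (M.f F (z * p i)) ≤ (b : Ht →L[ℝ] ℝ) (M.f F z) +
      Cb * (M.C0 * (|K| * (3 * M.C0 + 1))) * (M.l x + 1) := by
    intro i hi
    have h4 := hF.f_lip z (p i)
    have h5 : M.C0 * (K * (M.l (p i) + 2 * M.C0 + 1)) ≤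
        M.C0 * (|K| * ((3 * M.C0 + 1) * (M.l x + 1))) := by
      rw [abs_of_nonneg hK]
      have h6 := h3 i hi.le
      have : M.l (p i) + 2 * M.C0 + 1 ≤ (3 * M.C0 + 1) * (M.l x + 1) := by nlinarith
      gcongr
    have h6 := b_le (hCb b) (h4.trans h5)
    refine h6.trans (le_of_eq ?_)
    ring
  have h4 := hA F F' hF b (fun i => z * p i) n _ (fun i hi => by
    have e : (z * p i)⁻¹ * (z * p (i + 1)) = (p i)⁻¹ * p (i + 1) := by group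
    rw [e]; exact h2 i hi) hH
  simp only [h0, h1, mul_one] at h4
  refine h4.trans ?_
  have h5 : (n : ℝ) ≤ exp (M.C0 * (M.l x + 1)) := hn.trans
    ((by linarith : M.C0 * (M.l x + 1) ≤ M.C0 * (M.l x + 1) + 1).trans (add_one_le_exp _))
  have h6 : A ≤ exp (A * (M.l x + 1)) := by
    have : A ≤ A * (M.l x + 1) := by nlinarith
    exact this.trans ((by linarith : A * (M.l x + 1) ≤ A * (M.l x + 1) + 1).trans
      (add_one_le_exp _))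
  calc (n : ℝ) * (A * exp ((b : Ht →L[ℝ] ℝ) (M.f F z) +
        Cb * (M.C0 * (|K| * (3 * M.C0 + 1))) * (M.l x + 1))) ≤
      exp (M.C0 * (M.l x + 1)) * (exp (A * (M.l x + 1)) * exp ((b : Ht →L[ℝ] ℝ) (M.f F z) +
        Cb * (M.C0 * (|K| * (3 * M.C0 + 1))) * (M.l x + 1))) := by gcongr
    _ = _ := by
      rw [← exp_add, ← exp_add]
      congr 1
      ring

/-- **Decomposition of a path.** -/
theorem pc (p : ℕ → S) : ∃ ε c e d : ℕ → S, (∀ i, p i = ε i * c i) ∧ (∀ i, ε i ∈ M.E) ∧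
    c 0 ∈ M.CW ⌈M.C0 * M.l (p 0)⌉₊ ∧
    ∀ i, ε (i + 1) = ε i * (c i * e i * (c i)⁻¹) ∧ c (i + 1) = c i * d i ∧ e i ∈ M.E ∧
      d i ∈ M.CW ⌈M.C0 * M.l ((p i)⁻¹ * p (i + 1))⌉₊ ∧ (p i)⁻¹ * p (i + 1) = e i * d i := by
  choose ee hee dd hdd hed using M.dec
  let c : ℕ → S := fun i => Nat.rec (dd (p 0)) (fun i r => r * dd ((p i)⁻¹ * p (i + 1))) i
  have hc0 : c 0 = dd (p 0) := rfl
  have hcs : ∀ i, c (i + 1) = c i * dd ((p i)⁻¹ * p (i + 1)) := fun i => rfl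
  have hN := M.E_normal
  have hεs : ∀ i, p (i + 1) * (c (i + 1))⁻¹ = p i * (c i)⁻¹ *
      (c i * ee ((p i)⁻¹ * p (i + 1)) * (c i)⁻¹) := by
    intro i
    have h1 := hed ((p i)⁻¹ * p (i + 1))
    have h2 : ee ((p i)⁻¹ * p (i + 1)) = (p i)⁻¹ * p (i + 1) *
        (dd ((p i)⁻¹ * p (i + 1)))⁻¹ := eq_mul_inv_of_mul_eq h1.symm
    rw [hcs, h2]
    group
  refine ⟨fun i => p i * (c i)⁻¹, c, fun i => ee ((p i)⁻¹ * p (i + 1)),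
    fun i => dd ((p i)⁻¹ * p (i + 1)), fun i => by group, ?_, hdd _, fun i =>
    ⟨hεs i, hcs i, hee _, hdd _, hed _⟩⟩
  intro i
  induction i with
  | zero =>
    have h1 := hed (p 0)
    have h2 : p 0 * (c 0)⁻¹ = ee (p 0) := by
      rw [hc0]
      exact mul_inv_eq_of_eq_mul h1
    change p 0 * (c 0)⁻¹ ∈ M.E
    rw [h2]
    exact hee _
  | succ i ih =>
    change p (i + 1) * (c (i + 1))⁻¹ ∈ M.E
    rw [hεs i]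
    exact M.E.mul_mem ih (hN.conj_mem _ (hee _) _)

/-- the bounded version -/
theorem pc_le {L : ℝ} (hL : 0 ≤ L) (p : ℕ → S) (N : ℕ) (h0 : M.l (p 0) ≤ L)
    (hp : ∀ i < N, M.l ((p i)⁻¹ * p (i + 1)) ≤ L) :
    ∃ ε c e : ℕ → S, (∀ i, p i = ε i * c i) ∧ (∀ i, ε i ∈ M.E) ∧
    (∀ i ≤ N, c i ∈ M.CW (⌈M.C0 * L⌉₊ * (i + 1))) ∧ (∀ i, M.θ (c i) = M.θ (p i)) ∧
    ∀ i < N, ε (i + 1) = ε i * (c i * e i * (c i)⁻¹) ∧ e i ∈ M.E ∧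
      M.l (e i) ≤ L + M.C0 * ⌈M.C0 * L⌉₊ ∧ M.l ((c i)⁻¹ * c (i + 1)) ≤ M.C0 * ⌈M.C0 * L⌉₊ := by
  obtain ⟨ε, c, e, d, h1, h2, h3, h4⟩ := M.pc p
  have hC := M.C0_pos
  refine ⟨ε, c, e, h1, h2, ?_, ?_, ?_⟩
  · intro i
    induction i with
    | zero =>
      intro _
      refine M.CW_mono _ _ ?_ h3
      rw [zero_add, mul_one]
      exact Nat.ceil_le_ceil (by gcongr)
    | succ i ih =>
      intro hi
      rw [(h4 i).2.1]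
      have e1 : ⌈M.C0 * L⌉₊ * (i + 1 + 1) = ⌈M.C0 * L⌉₊ * (i + 1) + ⌈M.C0 * L⌉₊ := by ring
      rw [e1]
      refine M.CW_mul _ _ _ (ih (by omega)) _ (M.CW_mono _ _ ?_ (h4 i).2.2.2.1)
      exact Nat.ceil_le_ceil (mul_le_mul_of_nonneg_left (hp i (by omega)) hC.le)
  · intro i
    rw [h1 i, M.θ_mul, M.θ_E _ (h2 i), zero_add]
  · intro i hi
    obtain ⟨a1, a2, a3, a4, a5⟩ := h4 i
    have hd : M.l (d i) ≤ M.C0 * ⌈M.C0 * L⌉₊ := M.CW_l _ _ (M.CW_mono _ _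
      (Nat.ceil_le_ceil (mul_le_mul_of_nonneg_left (hp i hi) hC.le)) a4)
    refine ⟨a1, a3, ?_, ?_⟩
    · have e1 : e i = (p i)⁻¹ * p (i + 1) * (d i)⁻¹ := eq_mul_inv_of_mul_eq a5.symm
      rw [e1]
      refine (M.l_mul _ _).trans ?_
      rw [M.l_inv]
      exact add_le_add (hp i hi) hd
    · rw [a2, inv_mul_cancel_left]
      exact hd

end NM

end Vale.Agent.P188.H754
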