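import Vale.Agent.P188.H754.Neu1

/-!
# P188, block NEU, part 2: transport of short elements of `E` along a path
-/

set_option linter.all false

universe u v w

open Real

namespace Vale.Agent.P188.H754

open Vale.Agent.P188.H530 (Crossed)

namespace NM

variable {S : Type u} {Γ : Type v} {Ht : Type w} [Group S] [Group Γ]
  [NormedAddCommGroup Ht] [NormedSpace ℝ Ht] (M : NM S Γ Ht)

/-- products of elements of `E` -/
theorem eps_len {L : ℝ} (hL : 0 ≤ L) (ε κ : ℕ → S) (n : ℕ) (h0 : ε 0 ∈ M.E ∧ M.l (ε 0) ≤ L)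
    (hs : ∀ i < n, ε (i + 1) = ε i * κ i ∧ κ i ∈ M.E ∧ M.l (κ i) ≤ L) :
    ∀ i ≤ n, M.l (ε i) ≤ M.C0 * (L + log ((i : ℝ) + 1 + 1) + 1) := by
  have key : ∀ i ≤ n, ∃ es : List S, es.length = i + 1 ∧ es.prod = ε i ∧
      ∀ e ∈ es, e ∈ M.E ∧ M.l e ≤ L := by
    intro i
    induction i with
    | zero =>
      intro _
      refine ⟨[ε 0], rfl, by simp, fun e he => ?_⟩
      rw [List.mem_singleton] at he
      rw [he]; exact h0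
    | succ i ih =>
      intro hi
      obtain ⟨es, h1, h2, h3⟩ := ih (by omega)
      refine ⟨es ++ [κ i], by simp [h1], ?_, fun e he => ?_⟩
      · rw [List.prod_append, h2, List.prod_singleton, (hs i (by omega)).1]
      · rcases List.mem_append.1 he with h | h
        · exact h3 e h
        · rw [List.mem_singleton] at h
          rw [h]; exact (hs i (by omega)).2
  intro i hi
  obtain ⟨es, h1, h2, h3⟩ := key i hi
  have h4 := M.E_prod L es hL h3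
  rw [h2, h1] at h4
  push_cast at h4
  exact h4

theorem nat_log_le {c n : ℕ} {δ : ℝ} (hn : (n : ℝ) + 1 ≤ exp δ) (i : ℕ) (hi : i ≤ n) :
    log (((c * (i + 1) : ℕ) : ℝ) + 1) ≤ c + δ := by
  rw [Real.log_le_iff_le_exp (by positivity), exp_add]
  push_cast
  have h1 : (c : ℝ) + 1 ≤ exp c := add_one_le_exp _
  have h2 : (i : ℝ) ≤ n := by exact_mod_cast hi
  have h3 : (0 : ℝ) ≤ c := Nat.cast_nonneg _
  have h4 : (0 : ℝ) ≤ i := Nat.cast_nonneg _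
  calc (c : ℝ) * (i + 1) + 1 ≤ (c + 1) * (n + 1) := by nlinarith
    _ ≤ exp c * exp δ := by gcongr

/-- **Transport, geometric part.** -/
theorem transport_geo (K : ℝ) {L0 : ℝ} (hL0 : 0 ≤ L0) : ∃ C9 : ℝ, 1 ≤ C9 ∧ ∀ C3 : ℝ, 0 ≤ C3 →
    ∃ B : ℝ, 1 ≤ B ∧ ∀ F F' : Γ → Γ, M.QI K F F' → ∀ (T : Ht →L[ℝ] Ht) (R δ : ℝ) (m : ℕ),
    1 ≤ δ → δ ≤ R → (m : ℝ) + 1 ≤ exp δ → R + 1 ≤ exp δ → ∀ z : ℕ → S,
    (∀ i ≤ m, ∀ x, M.l x ≤ B * R → ‖M.f F (z i * x) - M.f F (z i) - T (M.θ x)‖ ≤ δ) →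
    (∀ i < m, M.l ((z i)⁻¹ * z (i + 1)) ≤ L0) →
    (∀ i ≤ m, ‖M.θ (z i) - M.θ (z 0)‖ ≤ R) →
    (∀ i ≤ m, ‖M.f F (z i) - M.f F (z 0)‖ ≤ 2 * R) →
    ∃ (ζ y : S) (n : ℕ), z m = z 0 * ζ * y ∧ ζ ∈ M.CW n ∧ M.θ ζ = 0 ∧
      (n : ℝ) + 1 ≤ exp (C9 * δ) ∧ M.l y ≤ C9 * R ∧
      (∀ e ∈ M.E, z 0 * e * ((z 0)⁻¹ * z m) = z 0 * e * ζ * y) ∧
      ∀ e ∈ M.E, M.l e ≤ C3 * R → ∀ i ≤ m,
        ‖M.f F (z 0 * e * ((z 0)⁻¹ * z i)) - M.f F (z 0)‖ ≤ 3 * R := by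
  have hC1 := M.one_le_C0
  have hC := M.C0_pos
  obtain ⟨C1, hC1def⟩ : ∃ C1 : ℕ, C1 = ⌈M.C0 * L0⌉₊ := ⟨_, rfl⟩
  have hc1 : (0 : ℝ) ≤ C1 := Nat.cast_nonneg _
  obtain ⟨C6, hC6⟩ : ∃ C6 : ℝ, C6 = M.C0 * (L0 + M.C0 * C1 + C1 + 3) := ⟨_, rfl⟩
  obtain ⟨C7, hC7⟩ : ∃ C7 : ℝ, C7 = M.C0 * (C6 + 3) := ⟨_, rfl⟩
  obtain ⟨C8, hC8⟩ : ∃ C8 : ℝ, C8 = C1 + M.C0 + 4 := ⟨_, rfl⟩
  obtain ⟨C9, hC9⟩ : ∃ C9 : ℝ, C9 = 3 * M.C0 ^ 2 + M.C0 * (C7 + C8 + 1) := ⟨_, rfl⟩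
  have hC60 : 0 ≤ C6 := by rw [hC6]; positivity
  have hC70 : 0 ≤ C7 := by rw [hC7]; positivity
  have hC80 : 0 ≤ C8 := by rw [hC8]; positivity
  have hC90 : 0 ≤ C9 := by rw [hC9]; positivity
  refine ⟨C8 + C9, by rw [hC8]; linarith, fun C3 hC3 => ?_⟩
  refine ⟨M.C0 * (C3 + 2 * C7 + 3 + C1) + 1, ?_, ?_⟩
  · have : 0 ≤ M.C0 * (C3 + 2 * C7 + 3 + C1) := by positivity
    linarith
  intro F F' hF T R δ m hδ hδR hm hR z hES hstep hθ hf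
  have hR1 : 1 ≤ R := hδ.trans hδR
  obtain ⟨ε, c, e', h1, h2, h3, h4, h5⟩ := M.pc_le hL0 (fun i => (z 0)⁻¹ * z i) m
    (by rw [inv_mul_cancel, M.l_one]; exact hL0)
    (fun i hi => by
      have e : ((z 0)⁻¹ * z i)⁻¹ * ((z 0)⁻¹ * z (i + 1)) = (z i)⁻¹ * z (i + 1) := by group
      rw [e]; exact hstep i hi)
  rw [← hC1def] at h3 h5
  have hN := M.E_normal
  -- heights of the Cartan parts
  have hθc : ∀ i ≤ m, ‖M.θ (c i)‖ ≤ R := by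
    intro i hi
    have e : M.θ (c i) = M.θ (z i) - M.θ (z 0) := by
      rw [h4 i, M.θ_mul, M.θ_inv]; abel
    rw [e]; exact hθ i hi
  -- the factors
  have hκ : ∀ i < m, M.l (c i * e' i * (c i)⁻¹) ≤ C6 * R := by
    intro i hi
    have h6 := M.con _ _ (h3 i hi.le) _ (h5 i hi).2.1
    refine h6.trans ?_
    have h7 := nat_log_le (c := C1) hm i hi.le
    have h8 := (h5 i hi).2.2.1
    have h9 := hθc i hi.le
    rw [hC6, mul_assoc]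
    refine mul_le_mul_of_nonneg_left ?_ hC.le
    have h10 : L0 + M.C0 * C1 + C1 ≤ (L0 + M.C0 * C1 + C1) * R :=
      le_mul_of_one_le_right (by positivity) hR1
    linarith
  have hc0 : M.l (ε 0) ≤ C6 * R := by
    have e : ε 0 = (c 0)⁻¹ := by
      have := h1 0
      rw [inv_mul_cancel] at this
      exact eq_inv_of_mul_eq_one_left this.symm
    rw [e, M.l_inv]
    refine (M.CW_l _ _ (h3 0 (Nat.zero_le _))).trans ?_
    rw [zero_add, mul_one]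
    have h10 : M.C0 * C1 ≤ C6 := by
      rw [hC6]
      refine mul_le_mul_of_nonneg_left ?_ hC.le
      have : 0 ≤ M.C0 * C1 := by positivity
      linarith
    exact h10.trans (le_mul_of_one_le_right hC60 hR1)
  have hε : ∀ i ≤ m, M.l (ε i) ≤ C7 * R := by
    intro i hi
    have h6 := M.eps_len (by positivity : 0 ≤ C6 * R) ε (fun i => c i * e' i * (c i)⁻¹) m
      ⟨h2 0, hc0⟩ (fun i hi => ⟨(h5 i hi).1, hN.conj_mem _ (h5 i hi).2.1 _, hκ i hi⟩) i hi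
    refine h6.trans ?_
    have h7 : log ((i : ℝ) + 1 + 1) ≤ 1 + δ := by
      have := nat_log_le (c := 1) hm i hi
      push_cast at this
      rwa [one_mul] at this
    rw [hC7, mul_assoc]
    refine mul_le_mul_of_nonneg_left ?_ hC.le
    linarith
  -- the section
  obtain ⟨t, ht1, ht2⟩ := M.sec (c m)
  have hθcm := hθc m le_rfl
  have hceil : ((⌈M.C0 * (‖M.θ (c m)‖ + 1)⌉₊ : ℕ) : ℝ) ≤ M.C0 * (R + 1) + 1 := by
    refine (Nat.ceil_lt_add_one (by positivity)).le.trans ?_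
    gcongr
  have hlt : M.l t ≤ 3 * M.C0 ^ 2 * R := by
    refine (M.CW_l _ _ ht1).trans ?_
    calc M.C0 * ((⌈M.C0 * (‖M.θ (c m)‖ + 1)⌉₊ : ℕ) : ℝ) ≤ M.C0 * (M.C0 * (R + 1) + 1) := by gcongr
      _ ≤ M.C0 * (M.C0 * (R + R) + M.C0 * R) := by
          refine mul_le_mul_of_nonneg_left ?_ hC.le
          have : 1 ≤ M.C0 * R := by nlinarith
          have h2 : M.C0 * (R + 1) ≤ M.C0 * (R + R) := by gcongr
          linarith
      _ = _ := by ring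
  obtain ⟨n, hn⟩ : ∃ n : ℕ, n = C1 * (m + 1) + ⌈M.C0 * (‖M.θ (c m)‖ + 1)⌉₊ := ⟨_, rfl⟩
  have hζ : c m * t⁻¹ ∈ M.CW n := by
    rw [hn]
    exact M.CW_mul _ _ _ (h3 m le_rfl) _ (M.CW_inv _ _ ht1)
  have hn1 : (n : ℝ) + 1 ≤ exp (C8 * δ) := by
    have h6 : (n : ℝ) + 1 ≤ (C1 + M.C0 + 2) * ((m + 1) * (R + 1)) := by
      rw [hn]
      push_cast
      have hm0 : (0 : ℝ) ≤ m := Nat.cast_nonneg _
      have e1 : (C1 : ℝ) * (m + 1) ≤ C1 * ((m + 1) * (R + 1)) := by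
        refine mul_le_mul_of_nonneg_left ?_ hc1
        exact le_mul_of_one_le_right (by positivity) (by linarith)
      have e2 : M.C0 * (R + 1) ≤ M.C0 * ((m + 1) * (R + 1)) := by
        refine mul_le_mul_of_nonneg_left ?_ hC.le
        exact le_mul_of_one_le_left (by positivity) (by linarith)
      have e3 : 1 ≤ (m + 1) * (R + 1) := by nlinarith
      linarith
    refine h6.trans ?_
    have h7 : (C1 : ℝ) + M.C0 + 2 ≤ exp (C1 + M.C0 + 2) :=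
      (by linarith : (C1 : ℝ) + M.C0 + 2 ≤ (C1 + M.C0 + 2) + 1).trans (add_one_le_exp _)
    calc (C1 + M.C0 + 2) * ((m + 1) * (R + 1)) ≤ exp (C1 + M.C0 + 2) * (exp δ * exp δ) := by
          gcongr
      _ = exp (C1 + M.C0 + 2 + (δ + δ)) := by rw [exp_add (C1 + M.C0 + 2) (δ + δ), exp_add δ δ]
      _ ≤ _ := by
          rw [hC8]
          refine exp_le_exp.2 ?_
          have : (C1 : ℝ) + M.C0 + 2 ≤ (C1 + M.C0 + 2) * δ :=
            le_mul_of_one_le_right (by positivity) hδ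
          linarith
  have hlogn : log ((n : ℝ) + 1) ≤ C8 * δ := (Real.log_le_iff_le_exp (by positivity)).2 hn1
  have hθζ : M.θ (c m * t⁻¹) = 0 := by rw [M.θ_mul, M.θ_inv, ht2, add_neg_cancel]
  -- the connecting element
  have hy : M.l ((c m * t⁻¹)⁻¹ * ε m * (c m * t⁻¹) * t) ≤ C9 * R := by
    have h6 := M.con n _ (M.CW_inv _ _ hζ) _ (h2 m)
    rw [inv_inv, M.θ_inv, hθζ, neg_zero, norm_zero] at h6
    refine (M.l_mul _ _).trans ?_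
    have h7 : M.C0 * (M.l (ε m) + 0 + log ((n : ℝ) + 1) + 1) ≤ M.C0 * (C7 + C8 + 1) * R := by
      rw [mul_assoc]
      refine mul_le_mul_of_nonneg_left ?_ hC.le
      have := hε m le_rfl
      have h8 : C8 * δ ≤ C8 * R := by gcongr
      linarith
    rw [hC9, add_mul]
    linarith
  have hzm : z m = z 0 * (c m * t⁻¹) * ((c m * t⁻¹)⁻¹ * ε m * (c m * t⁻¹) * t) := by
    have h6 : z m = z 0 * (ε m * c m) := by rw [← h1 m]; group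
    rw [h6]; group
  refine ⟨c m * t⁻¹, _, n, hzm, hζ, hθζ, ?_, ?_, ?_, ?_⟩
  · refine hn1.trans (exp_le_exp.2 ?_)
    have : 0 ≤ C9 * δ := by positivity
    linarith
  · refine hy.trans ?_
    have : 0 ≤ C8 * R := by positivity
    linarith
  · intro e _
    have h6 : (z 0)⁻¹ * z m = (c m * t⁻¹) * ((c m * t⁻¹)⁻¹ * ε m * (c m * t⁻¹) * t) := by
      rw [h1 m]; group
    rw [h6]; group
  intro e he hle
  -- the transported path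
  have hlen : ∀ i ≤ m, M.l (((z 0)⁻¹ * z i)⁻¹ * e * ((z 0)⁻¹ * z i)) ≤
      (M.C0 * (C3 + 2 * C7 + 3 + C1) + 1) * R := by
    intro i hi
    have e1 : ((z 0)⁻¹ * z i)⁻¹ * e * ((z 0)⁻¹ * z i) =
        (c i)⁻¹ * ((ε i)⁻¹ * e * ε i) * ((c i)⁻¹)⁻¹ := by
      rw [h1 i]; group
    rw [e1]
    have hmem : (ε i)⁻¹ * e * ε i ∈ M.E := M.E.mul_mem (M.E.mul_mem (M.E.inv_mem (h2 i)) he) (h2 i)
    have h6 := M.con _ _ (M.CW_inv _ _ (h3 i hi)) _ hmem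
    rw [M.θ_inv, norm_neg] at h6
    refine h6.trans ?_
    have h7 := nat_log_le (c := C1) hm i hi
    have h8 : M.l ((ε i)⁻¹ * e * ε i) ≤ C3 * R + 2 * (C7 * R) := by
      have a1 := M.l_mul ((ε i)⁻¹ * e) (ε i)
      have a2 := M.l_mul (ε i)⁻¹ e
      rw [M.l_inv] at a2
      have a3 := hε i hi
      linarith
    have h9 := hθc i hi
    have h10 : (C1 : ℝ) ≤ C1 * R := le_mul_of_one_le_right hc1 hR1
    calc M.C0 * (M.l ((ε i)⁻¹ * e * ε i) + ‖M.θ (c i)‖ +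
          log (((C1 * (i + 1) : ℕ) : ℝ) + 1) + 1)
        ≤ M.C0 * ((C3 + 2 * C7 + 3 + C1) * R) := by
          refine mul_le_mul_of_nonneg_left ?_ hC.le
          linarith
      _ ≤ _ := by
          rw [add_mul _ (1 : ℝ) R, ← mul_assoc]
          linarith
  · intro i hi
    have h6 := hES i hi _ (hlen i hi)
    have e1 : M.θ (((z 0)⁻¹ * z i)⁻¹ * e * ((z 0)⁻¹ * z i)) = 0 := by
      rw [M.θ_mul, M.θ_mul, M.θ_inv, M.θ_E e he]; abel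
    have e2 : z i * (((z 0)⁻¹ * z i)⁻¹ * e * ((z 0)⁻¹ * z i)) =
        z 0 * e * ((z 0)⁻¹ * z i) := by group
    rw [e1, map_zero, sub_zero, e2] at h6
    have h7 := hf i hi
    have e3 : M.f F (z 0 * e * ((z 0)⁻¹ * z i)) - M.f F (z 0) =
        (M.f F (z 0 * e * ((z 0)⁻¹ * z i)) - M.f F (z i)) + (M.f F (z i) - M.f F (z 0)) := by
      abel
    rw [e3]
    refine (norm_add_le _ _).trans ?_
    linarith

/-- **Transport.** -/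
theorem transport (K : ℝ) {L0 : ℝ} (hL0 : 0 ≤ L0) : ∃ C4 : ℝ, 1 ≤ C4 ∧ ∀ C3 : ℝ, 0 ≤ C3 →
    ∃ B : ℝ, 1 ≤ B ∧ ∀ F F' : Γ → Γ, M.QI K F F' → ∀ (T : Ht →L[ℝ] Ht) (R δ : ℝ) (m : ℕ),
    1 ≤ δ → δ ≤ R → (m : ℝ) + 1 ≤ exp δ → R + 1 ≤ exp δ → ∀ z : ℕ → S,
    (∀ i ≤ m, ∀ x, M.l x ≤ B * R → ‖M.f F (z i * x) - M.f F (z i) - T (M.θ x)‖ ≤ δ) →
    (∀ i < m, M.l ((z i)⁻¹ * z (i + 1)) ≤ L0) →
    (∀ i ≤ m, ‖M.θ (z i) - M.θ (z 0)‖ ≤ R) →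
    (∀ i ≤ m, ‖M.f F (z i) - M.f F (z 0)‖ ≤ 2 * R) →
    ∃ (ζ y : S) (n : ℕ), z m = z 0 * ζ * y ∧ ζ ∈ M.CW n ∧ M.θ ζ = 0 ∧
      (n : ℝ) + 1 ≤ exp (C4 * δ) ∧ M.l y ≤ C4 * R ∧
      ∀ (b : M.Φ), ∀ e ∈ M.E, M.l e ≤ C3 * R →
        ‖(M.cr b).D (M.Ψ F (z 0 * e * ζ)) - (M.cr b).D (M.Ψ F (z 0 * e))‖ ≤
          exp ((b : Ht →L[ℝ] ℝ) (M.f F (z 0)) + C4 * R) := by
  obtain ⟨A₁, hA₁0, hA₁⟩ := M.disp K L0
  obtain ⟨A₂, hA₂0, hA₂⟩ := M.disp_short K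
  obtain ⟨Cb, hCb1, hCb⟩ := M.exists_Cb
  obtain ⟨C9, hC91, hgeo⟩ := M.transport_geo K hL0
  have hp2 : 0 ≤ A₂ * (C9 + 1) := by positivity
  obtain ⟨C4, hC4⟩ : ∃ C4 : ℝ, C4 = (3 * Cb + 1 + A₁) + A₂ * (C9 + 1) + 1 + C9 := ⟨_, rfl⟩
  refine ⟨C4, by rw [hC4]; linarith, fun C3 hC3 => ?_⟩
  obtain ⟨B, hB, hgeo⟩ := hgeo C3 hC3
  refine ⟨B, hB, ?_⟩
  intro F F' hF T R δ m hδ hδR hm hR z hES hstep hθ hf
  have hR1 : 1 ≤ R := hδ.trans hδR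
  obtain ⟨ζ, y, n, hzm, hζ, hθζ, hn, hy, hzme, hfx⟩ := hgeo F F' hF T R δ m hδ hδR hm hR z hES
    hstep hθ hf
  have hC94 : C9 ≤ C4 := by rw [hC4]; linarith
  refine ⟨ζ, y, n, hzm, hζ, hθζ, hn.trans (exp_le_exp.2 (by gcongr)),
    hy.trans (by gcongr), ?_⟩
  intro b e he hle
  have hbx : ∀ i ≤ m, (b : Ht →L[ℝ] ℝ) (M.f F (z 0 * e * ((z 0)⁻¹ * z i))) ≤
      (b : Ht →L[ℝ] ℝ) (M.f F (z 0)) + Cb * (3 * R) :=
    fun i hi => b_le (hCb b) (hfx e he hle i hi)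
  obtain ⟨h0, hh0⟩ : ∃ h0 : ℝ, h0 = (b : Ht →L[ℝ] ℝ) (M.f F (z 0)) := ⟨_, rfl⟩
  rw [← hh0] at hbx ⊢
  have hd1 := hA₁ F F' hF b (fun i => z 0 * e * ((z 0)⁻¹ * z i)) m _ (fun i hi => by
    have e1 : (z 0 * e * ((z 0)⁻¹ * z i))⁻¹ * (z 0 * e * ((z 0)⁻¹ * z (i + 1))) =
        (z i)⁻¹ * z (i + 1) := by group
    rw [e1]; exact hstep i hi) (fun i hi => hbx i hi.le)
  have e0 : z 0 * e * ((z 0)⁻¹ * z 0) = z 0 * e := by group
  rw [e0] at hd1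
  have hd2 := hA₂ F F' hF b (z 0 * e * ((z 0)⁻¹ * z m)) y⁻¹
  have e5 : z 0 * e * ((z 0)⁻¹ * z m) * y⁻¹ = z 0 * e * ζ := by
    rw [hzme e he]; group
  rw [e5, M.l_inv] at hd2
  generalize (M.cr b).D (M.Ψ F (z 0 * e * ((z 0)⁻¹ * z m))) = Dm at hd1 hd2
  generalize (M.cr b).D (M.Ψ F (z 0 * e * ζ)) = Dz at hd2 ⊢
  generalize (M.cr b).D (M.Ψ F (z 0 * e)) = D0 at hd1 ⊢
  -- sum up
  have hs1 : ‖Dm - D0‖ ≤ exp (h0 + (C4 - 1) * R) := by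
    refine hd1.trans ?_
    have h6 : (m : ℝ) ≤ exp R := (by linarith : (m : ℝ) ≤ exp δ).trans (exp_le_exp.2 hδR)
    have h7 : A₁ ≤ exp (A₁ * R) := by
      have : A₁ ≤ A₁ * R := le_mul_of_one_le_right hA₁0 hR1
      exact this.trans ((by linarith : A₁ * R ≤ A₁ * R + 1).trans (add_one_le_exp _))
    calc (m : ℝ) * (A₁ * exp (h0 + Cb * (3 * R))) ≤
        exp R * (exp (A₁ * R) * exp (h0 + Cb * (3 * R))) := by gcongr
      _ = exp (h0 + (3 * Cb + 1 + A₁) * R) := by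
          rw [← exp_add, ← exp_add]; congr 1; ring
      _ ≤ _ := by
          refine exp_le_exp.2 ?_
          have : 3 * Cb + 1 + A₁ ≤ C4 - 1 := by rw [hC4]; linarith
          have h8 : (3 * Cb + 1 + A₁) * R ≤ (C4 - 1) * R :=
            mul_le_mul_of_nonneg_right this (by linarith)
          linarith
  have hs2 : ‖Dz - Dm‖ ≤ exp (h0 + (C4 - 1) * R) := by
    refine hd2.trans (exp_le_exp.2 ?_)
    have h6 := hbx m le_rfl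
    have h7 : A₂ * (M.l y + 1) ≤ A₂ * (C9 + 1) * R := by
      rw [mul_assoc]
      refine mul_le_mul_of_nonneg_left ?_ hA₂0
      linarith
    have h8 : (3 * Cb + A₂ * (C9 + 1)) * R ≤ (C4 - 1) * R := by
      refine mul_le_mul_of_nonneg_right ?_ (by linarith)
      rw [hC4]; linarith
    linarith
  have e6 : Dz - D0 = (Dz - Dm) + (Dm - D0) := by ring
  rw [e6]
  refine (norm_add_le _ _).trans ((add_le_add hs2 hs1).trans ?_)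
  have h2e : (2 : ℝ) ≤ exp R := (by linarith : (2 : ℝ) ≤ R + 1).trans (add_one_le_exp _)
  calc exp (h0 + (C4 - 1) * R) + exp (h0 + (C4 - 1) * R)
      = 2 * exp (h0 + (C4 - 1) * R) := by ring
    _ ≤ exp R * exp (h0 + (C4 - 1) * R) := by gcongr
    _ = _ := by rw [← exp_add]; congr 1; ring

end NM

end Vale.Agent.P188.H754
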