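import Vale.Agent.P188.H754.Neu2

/-!
# P188, block NEU, part 3: a long loop in the target, pulled back to the source
-/

set_option linter.all false

universe u v w

open Real

namespace Vale.Agent.P188.H754

open Vale.Agent.P188.H530 (Crossed)

namespace NM

variable {S : Type u} {Γ : Type v} {Ht : Type w} [Group S] [Group Γ]
  [NormedAddCommGroup Ht] [NormedSpace ℝ Ht] (M : NM S Γ Ht)

theorem exists_Cv : ∃ C : ℝ, 1 ≤ C ∧ ∀ b : M.Φ, (∃ u : Ht, (b : Ht →L[ℝ] ℝ) u = 1 ∧ ‖u‖ ≤ C) ∧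
    M.l (M.inG (M.cr b).u) ≤ C ∧ exp (-C) ≤ ‖(M.cr b).D (M.cr b).u‖ := by
  classical
  have h1 : ∀ b : M.Φ, ∃ C : ℝ, 0 ≤ C ∧ ∀ C', C ≤ C' → (∃ u : Ht, (b : Ht →L[ℝ] ℝ) u = 1 ∧
      ‖u‖ ≤ C') ∧
      M.l (M.inG (M.cr b).u) ≤ C' ∧ exp (-C') ≤ ‖(M.cr b).D (M.cr b).u‖ := by
    intro b
    obtain ⟨v, hv⟩ : ∃ v : Ht, (b : Ht →L[ℝ] ℝ) v ≠ 0 := by
      by_contra h
      push Not at h
      exact M.Φ_ne b b.2 (ContinuousLinearMap.ext h)
    refine ⟨‖((b : Ht →L[ℝ] ℝ) v)⁻¹ • v‖ + M.l (M.inG (M.cr b).u) +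
      |log ‖(M.cr b).D (M.cr b).u‖|, ?_, fun C' hC' => ?_⟩
    · have := M.l_nonneg (M.inG (M.cr b).u)
      positivity
    have h2 := norm_nonneg (((b : Ht →L[ℝ] ℝ) v)⁻¹ • v)
    have h3 := M.l_nonneg (M.inG (M.cr b).u)
    have h4 := abs_nonneg (log ‖(M.cr b).D (M.cr b).u‖)
    refine ⟨⟨((b : Ht →L[ℝ] ℝ) v)⁻¹ • v, ?_, by linarith⟩, by linarith, ?_⟩
    · rw [map_smul, smul_eq_mul, inv_mul_cancel₀ hv]
    · have h5 : 0 < ‖(M.cr b).D (M.cr b).u‖ := norm_pos_iff.2 (M.cr b).D_u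
      rw [← Real.exp_log h5]
      refine exp_le_exp.2 ?_
      have := neg_abs_le (log ‖(M.cr b).D (M.cr b).u‖)
      linarith
  choose C hC0 hC using h1
  have h0 : 0 ≤ ∑ b : M.Φ, C b := Finset.sum_nonneg fun b _ => hC0 b
  refine ⟨1 + ∑ b : M.Φ, C b, by linarith, fun b => hC b _ ?_⟩
  have := Finset.single_le_sum (f := C) (fun b _ => hC0 b) (Finset.mem_univ b)
  linarith

/-- **A loop in the target.** -/
theorem loop_path : ∃ C : ℝ, 1 ≤ C ∧ ∀ (b : M.Φ) (ρ : ℝ), 1 ≤ ρ →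
    ∃ (u : Ht) (N : ℕ) (a : ℕ → Γ), (b : Ht →L[ℝ] ℝ) u = ρ ∧ (N : ℝ) ≤ C * ρ ∧ a 0 = 1 ∧
      (∀ i < N, M.l (M.inG ((a i)⁻¹ * a (i + 1))) ≤ C) ∧
      (∀ i ≤ N, ∃ s ∈ Set.Icc (0 : ℝ) 1, ‖M.θ (M.inG (a i)) - s • u‖ ≤ C) ∧
      M.θ (M.inG (a N)) = 0 ∧ exp (ρ - C) ≤ ‖(M.cr b).D (a N)‖ := by
  obtain ⟨Cb, hCb1, hCb⟩ := M.exists_Cb
  obtain ⟨Cv, hCv1, hCv⟩ := M.exists_Cv
  have hC1 := M.one_le_C0
  have hC := M.C0_pos
  refine ⟨2 * M.C0 * (Cv + 1) + 1 + M.C0 + Cv + Cb * M.C0, ?_, ?_⟩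
  · have : 0 ≤ 2 * M.C0 * (Cv + 1) := by positivity
    have h2 : 0 ≤ Cb * M.C0 := by positivity
    linarith
  intro b ρ hρ
  obtain ⟨⟨u0, hu0, hu0n⟩, hv1, hv2⟩ := hCv b
  obtain ⟨v, hv⟩ : ∃ v : Γ, v = (M.cr b).u := ⟨_, rfl⟩
  rw [← hv] at hv1 hv2
  have hθv : M.θ (M.inG v) = 0 := by rw [hv]; exact (M.cr b).θ_u
  obtain ⟨n, g, hn, hg0, hg1, hg2, hg3⟩ := M.seg (ρ • u0)
  have hun : ‖ρ • u0‖ ≤ Cv * ρ := by
    rw [norm_smul, Real.norm_eq_abs, abs_of_nonneg (by linarith), mul_comm]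
    gcongr
  have hn2 : (n : ℝ) ≤ M.C0 * (Cv + 1) * ρ := by
    refine hn.trans ?_
    rw [mul_assoc]
    refine mul_le_mul_of_nonneg_left ?_ hC.le
    linarith
  have hθg : ∀ x : Γ, M.θ (M.inG (g n * v * (g n)⁻¹ * x)) = M.θ (M.inG x) := by
    intro x
    simp only [map_mul, map_inv, M.θ_mul, M.θ_inv, hθv]
    abel
  have p1 : 0 ≤ 2 * M.C0 * (Cv + 1) := by positivity
  have p2 : 0 ≤ Cb * M.C0 := by positivity
  obtain ⟨a, hal, hag⟩ : ∃ a : ℕ → Γ, (∀ j ≤ n, a j = g j) ∧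
      ∀ j, ¬ j ≤ n → a j = g n * v * (g n)⁻¹ * g (2 * n + 1 - j) :=
    ⟨fun j => if j ≤ n then g j else g n * v * (g n)⁻¹ * g (2 * n + 1 - j),
      fun j hj => if_pos hj, fun j hj => if_neg hj⟩
  refine ⟨ρ • u0, 2 * n + 1, a, ?_, ?_, ?_, ?_, ?_, ?_, ?_⟩
  · rw [map_smul, hu0, smul_eq_mul, mul_one]
  · push_cast
    have h1 : 2 * (n : ℝ) + 1 ≤ (2 * M.C0 * (Cv + 1) + 1) * ρ := by linarith
    refine h1.trans (mul_le_mul_of_nonneg_right ?_ (by linarith))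
    linarith
  · rw [hal 0 (Nat.zero_le _), hg0]
  · intro i hi
    rcases lt_trichotomy i n with h | h | h
    · rw [hal i h.le, hal (i + 1) (by omega)]
      exact (hg1 i h).trans (by linarith)
    · subst h
      rw [hal i le_rfl, hag (i + 1) (by omega)]
      have e : 2 * i + 1 - (i + 1) = i := by omega
      rw [e]
      have e2 : (g i)⁻¹ * (g i * v * (g i)⁻¹ * g i) = v := by group
      rw [e2]
      exact hv1.trans (by linarith)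
    · rw [hag i (by omega), hag (i + 1) (by omega)]
      obtain ⟨j, hj⟩ : ∃ j, j = 2 * n + 1 - (i + 1) := ⟨_, rfl⟩
      have hj2 : 2 * n + 1 - i = j + 1 := by omega
      rw [hj2, ← hj]
      have e2 : (g n * v * (g n)⁻¹ * g (j + 1))⁻¹ * (g n * v * (g n)⁻¹ * g j) =
          ((g j)⁻¹ * g (j + 1))⁻¹ := by group
      rw [e2, map_inv, M.l_inv]
      exact (hg1 j (by omega)).trans (by linarith)
  · intro i hi
    by_cases h : i ≤ n
    · obtain ⟨s, hs, hs2⟩ := hg2 i h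
      refine ⟨s, hs, ?_⟩
      rw [hal i h]
      exact hs2.trans (by linarith)
    · obtain ⟨s, hs, hs2⟩ := hg2 (2 * n + 1 - i) (by omega)
      refine ⟨s, hs, ?_⟩
      rw [hag i h, hθg]
      exact hs2.trans (by linarith)
  · rw [hag _ (by omega : ¬ 2 * n + 1 ≤ n), hθg]
    simp [hg0, M.θ_one]
  · rw [hag _ (by omega : ¬ 2 * n + 1 ≤ n), Nat.sub_self, hg0, mul_one]
    have e : (M.cr b).D (g n * v * (g n)⁻¹) = (M.cr b).ρ (g n) * (M.cr b).D v := by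
      have h1 := (M.cr b).D_mul (g n) (g n)⁻¹
      rw [mul_inv_cancel, (M.cr b).D_one] at h1
      rw [(M.cr b).D_mul, (M.cr b).D_mul, (M.cr b).ρ_mul, (M.cr b).ρ_ker v hθv, mul_one]
      linear_combination -h1
    rw [e, norm_mul, (M.cr b).norm_ρ]
    have h2 : ρ ≤ (b : Ht →L[ℝ] ℝ) (M.θ (M.inG (g n))) + Cb * M.C0 := by
      have h3 := b_le (hCb b) (v := ρ • u0) (w := M.θ (M.inG (g n))) (r := M.C0)
        (by rw [norm_sub_rev]; exact hg3)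
      rwa [map_smul, hu0, smul_eq_mul, mul_one] at h3
    calc exp (ρ - (2 * M.C0 * (Cv + 1) + 1 + M.C0 + Cv + Cb * M.C0)) ≤
        exp ((b : Ht →L[ℝ] ℝ) (M.θ (M.inG (g n))) + -Cv) := exp_le_exp.2 (by linarith)
      _ = exp ((b : Ht →L[ℝ] ℝ) (M.θ (M.inG (g n)))) * exp (-Cv) := exp_add _ _
      _ ≤ _ := by gcongr

/-- **The loop pulled back.** -/
theorem inv_path {K CT : ℝ} (hCT : 0 ≤ CT) (hK : 0 ≤ K) : ∃ C : ℝ, 1 ≤ C ∧ ∀ F F' : Γ → Γ, M.QI K F F' →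
    ∀ T' : Ht →L[ℝ] Ht, ‖T'‖ ≤ CT → ∀ (b : M.Φ) (ρ δ : ℝ), 1 ≤ ρ → 1 ≤ δ → ∀ z : S,
    (∀ x, M.l x ≤ C * ρ → ‖M.f F' (M.inG (M.Ψ F z) * x) - M.f F' (M.inG (M.Ψ F z)) -
      T' (M.θ x)‖ ≤ δ) →
    ∃ (u : Ht) (N : ℕ) (y : ℕ → S), (b : Ht →L[ℝ] ℝ) u = ρ ∧ (N : ℝ) ≤ C * ρ ∧
      M.l (y 0) ≤ C ∧ (∀ i < N, M.l ((y i)⁻¹ * y (i + 1)) ≤ C) ∧
      (∀ i ≤ N, ∃ s ∈ Set.Icc (0 : ℝ) 1, ‖M.θ (y i) - s • T' u‖ ≤ C * δ) ∧
      ‖M.θ (y N)‖ ≤ C * δ ∧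
      exp ((b : Ht →L[ℝ] ℝ) (M.f F z) + ρ - C) ≤
        ‖(M.cr b).D (M.Ψ F (z * y N)) - (M.cr b).D (M.Ψ F z)‖ +
          exp ((b : Ht →L[ℝ] ℝ) (M.f F z) + C) := by
  classical
  obtain ⟨Cl, hCl1, hloop⟩ := M.loop_path
  choose A hA using fun b : M.Φ => M.cr_le b (K + K * (M.C0 + 1))
  have hA0 : 0 ≤ ∑ b : M.Φ, |A b| := Finset.sum_nonneg fun _ _ => abs_nonneg _
  have hC1 := M.one_le_C0
  have hC := M.C0_pos
  obtain ⟨C10, hC10⟩ : ∃ C10 : ℝ, C10 = M.C0 * (K * (M.C0 + 1)) := ⟨_, rfl⟩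
  have hC100 : 0 ≤ C10 := by rw [hC10]; positivity
  obtain ⟨C, hCdef⟩ : ∃ C : ℝ, C = Cl * Cl + Cl + (K + M.C0) + K * (Cl + 1) +
    (2 * C10 + 1 + M.C0 * K + M.C0 ^ 2 + CT * Cl) + ∑ b : M.Φ, |A b| := ⟨_, rfl⟩
  have q1 : 0 ≤ Cl * Cl := by positivity
  have q2 : 0 ≤ K * (Cl + 1) := by positivity
  have q3 : 0 ≤ M.C0 * K := by positivity
  have q4 : 0 ≤ M.C0 ^ 2 := by positivity
  have q5 : 0 ≤ CT * Cl := by positivity
  refine ⟨C, by rw [hCdef]; linarith, ?_⟩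
  intro F F' hF T' hT' b ρ δ hρ hδ z hES
  obtain ⟨u, N, a, hu, hN, ha0, ha1, ha2, ha3, ha4⟩ := hloop b ρ hρ
  obtain ⟨w, hw⟩ : ∃ w : Γ, w = M.Ψ F z := ⟨_, rfl⟩
  rw [← hw] at hES
  have hla : ∀ i ≤ N, M.l (M.inG (a i)) ≤ Cl * Cl * ρ := by
    have key : ∀ i ≤ N, M.l (M.inG (a i)) ≤ i * Cl := by
      intro i
      induction i with
      | zero => intro _; rw [ha0, map_one, M.l_one]; simp
      | succ i ih =>
        intro hi
        have e : a (i + 1) = a i * ((a i)⁻¹ * a (i + 1)) := by group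
        rw [e, map_mul]
        have h1 := M.l_mul (M.inG (a i)) (M.inG ((a i)⁻¹ * a (i + 1)))
        have h2 := ih (by omega)
        have h3 := ha1 i (by omega)
        push_cast
        linarith
    intro i hi
    refine (key i hi).trans ?_
    have h1 : (i : ℝ) ≤ Cl * ρ := (by exact_mod_cast hi : (i : ℝ) ≤ N).trans hN
    calc (i : ℝ) * Cl ≤ (Cl * ρ) * Cl := by gcongr
      _ = _ := by ring
  -- the heights
  have hf' : ∀ g : Γ, ‖M.f F' (M.inG g) - M.θ (M.inG (F' g))‖ ≤ C10 := by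
    intro g
    have e : M.f F' (M.inG g) - M.θ (M.inG (F' g)) =
        M.θ (M.inG ((F' g)⁻¹ * F' (g * M.fl 1))) := by
      unfold f
      rw [M.fl_inG, map_mul, map_inv, M.θ_mul, M.θ_inv]
      abel
    rw [e, hC10]
    refine (M.θ_le _).trans (mul_le_mul_of_nonneg_left ?_ hC.le)
    refine (hF.lip' _ _).trans (mul_le_mul_of_nonneg_left ?_ hK)
    linarith [M.l_fl_one]
  have hstart : ‖M.θ (M.inG (F' w)) - M.θ z‖ ≤ M.C0 * K + M.C0 ^ 2 := by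
    have h1 : ‖M.θ (M.inG (F' w)) - M.θ (M.inG (M.fl z))‖ ≤ M.C0 * K := by
      have e : M.θ (M.inG (F' w)) - M.θ (M.inG (M.fl z)) =
          M.θ (M.inG ((M.fl z)⁻¹ * F' (F (M.fl z)))) := by
        rw [map_mul, map_inv, M.θ_mul, M.θ_inv, hw]
        unfold Ψ
        abel
      rw [e]
      exact (M.θ_le _).trans (mul_le_mul_of_nonneg_left (hF.inv _) hC.le)
    have h2 : ‖M.θ (M.inG (M.fl z)) - M.θ z‖ ≤ M.C0 ^ 2 := by
      have e : M.θ (M.inG (M.fl z)) - M.θ z = - M.θ ((M.inG (M.fl z))⁻¹ * z) := by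
        rw [M.θ_mul, M.θ_inv]; abel
      rw [e, norm_neg, pow_two]
      exact (M.θ_le _).trans (mul_le_mul_of_nonneg_left (M.fl_close z) hC.le)
    have e : M.θ (M.inG (F' w)) - M.θ z = (M.θ (M.inG (F' w)) - M.θ (M.inG (M.fl z))) +
        (M.θ (M.inG (M.fl z)) - M.θ z) := by abel
    rw [e]
    exact (norm_add_le _ _).trans (add_le_add h1 h2)
  have hlstart : M.l (z⁻¹ * M.inG (F' w)) ≤ K + M.C0 := by
    have e : z⁻¹ * M.inG (F' w) = ((M.inG (M.fl z))⁻¹ * z)⁻¹ *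
        M.inG ((M.fl z)⁻¹ * F' (F (M.fl z))) := by
      rw [map_mul, map_inv, hw]
      unfold Ψ
      group
    rw [e]
    refine (M.l_mul _ _).trans ?_
    rw [M.l_inv]
    have := M.fl_close z
    have := hF.inv (M.fl z)
    linarith
  have hθy : ∀ i ≤ N, ‖M.θ (z⁻¹ * M.inG (F' (w * a i))) - T' (M.θ (M.inG (a i)))‖ ≤
      2 * C10 + δ + M.C0 * K + M.C0 ^ 2 := by
    intro i hi
    have h1 := hES (M.inG (a i)) ((hla i hi).trans (by
      refine mul_le_mul_of_nonneg_right ?_ (by linarith)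
      rw [hCdef]; linarith))
    have h2 := hf' (w * a i)
    rw [map_mul] at h2
    have h3 := hf' w
    have e : M.θ (z⁻¹ * M.inG (F' (w * a i))) - T' (M.θ (M.inG (a i))) =
        -(M.f F' (M.inG w * M.inG (a i)) - M.θ (M.inG (F' (w * a i)))) +
        ((M.f F' (M.inG w * M.inG (a i)) - M.f F' (M.inG w) - T' (M.θ (M.inG (a i)))) +
        ((M.f F' (M.inG w) - M.θ (M.inG (F' w))) + (M.θ (M.inG (F' w)) - M.θ z))) := by
      rw [M.θ_mul, M.θ_inv]; abel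
    rw [e]
    refine (norm_add_le _ _).trans ?_
    rw [norm_neg]
    have h5 := norm_add_le (M.f F' (M.inG w * M.inG (a i)) - M.f F' (M.inG w) -
      T' (M.θ (M.inG (a i)))) ((M.f F' (M.inG w) - M.θ (M.inG (F' w))) +
        (M.θ (M.inG (F' w)) - M.θ z))
    have h6 := norm_add_le (M.f F' (M.inG w) - M.θ (M.inG (F' w))) (M.θ (M.inG (F' w)) - M.θ z)
    linarith
  have hbig : 2 * C10 + δ + M.C0 * K + M.C0 ^ 2 + CT * Cl ≤ C * δ := by
    have h1 : (2 * C10 + 1 + M.C0 * K + M.C0 ^ 2 + CT * Cl) * δ ≤ C * δ := by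
      refine mul_le_mul_of_nonneg_right ?_ (by linarith)
      rw [hCdef]; linarith
    have h2 : 2 * C10 + M.C0 * K + M.C0 ^ 2 + CT * Cl ≤
        (2 * C10 + M.C0 * K + M.C0 ^ 2 + CT * Cl) * δ :=
      le_mul_of_one_le_right (by positivity) hδ
    linarith
  have hK2 : K * (Cl + 1) ≤ C := by rw [hCdef]; linarith
  refine ⟨u, N, fun i => z⁻¹ * M.inG (F' (w * a i)), hu, ?_, ?_, ?_, ?_, ?_, ?_⟩
  · refine hN.trans (mul_le_mul_of_nonneg_right ?_ (by linarith))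
    rw [hCdef]; linarith
  · beta_reduce
    rw [ha0, mul_one]
    refine hlstart.trans ?_
    rw [hCdef]; linarith
  · intro i hi
    have e : (z⁻¹ * M.inG (F' (w * a i)))⁻¹ * (z⁻¹ * M.inG (F' (w * a (i + 1)))) =
        M.inG ((F' (w * a i))⁻¹ * F' (w * a i * ((a i)⁻¹ * a (i + 1)))) := by
      have e2 : w * a i * ((a i)⁻¹ * a (i + 1)) = w * a (i + 1) := by group
      rw [e2, map_mul, map_inv]
      group
    rw [e]
    refine (hF.lip' _ _).trans (le_trans ?_ hK2)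
    exact mul_le_mul_of_nonneg_left (by linarith [ha1 i hi]) hK
  · intro i hi
    obtain ⟨s, hs, hs2⟩ := ha2 i hi
    refine ⟨s, hs, ?_⟩
    have h1 := hθy i hi
    have h2 : ‖T' (M.θ (M.inG (a i))) - s • T' u‖ ≤ CT * Cl := by
      rw [← map_smul, ← map_sub]
      refine (T'.le_opNorm _).trans ?_
      gcongr
    have e : M.θ (z⁻¹ * M.inG (F' (w * a i))) - s • T' u =
        (M.θ (z⁻¹ * M.inG (F' (w * a i))) - T' (M.θ (M.inG (a i)))) +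
        (T' (M.θ (M.inG (a i))) - s • T' u) := by abel
    rw [e]
    exact (norm_add_le _ _).trans (by linarith)
  · have h1 := hθy N le_rfl
    rw [ha3, map_zero, sub_zero] at h1
    linarith
  · -- the lower bound
    have e1 : M.Ψ F (z * (z⁻¹ * M.inG (F' (w * a N)))) =
        w * a N * ((w * a N)⁻¹ * F (F' (w * a N) * M.fl 1)) := by
      rw [mul_inv_cancel_left, mul_inv_cancel_left]
      unfold Ψ
      rw [M.fl_inG]
    have h1 : M.l (M.inG ((w * a N)⁻¹ * F (F' (w * a N) * M.fl 1))) ≤ K + K * (M.C0 + 1) := by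
      have e2 : (w * a N)⁻¹ * F (F' (w * a N) * M.fl 1) =
          ((w * a N)⁻¹ * F (F' (w * a N))) *
          ((F (F' (w * a N)))⁻¹ * F (F' (w * a N) * M.fl 1)) := by group
      rw [e2, map_mul]
      refine (M.l_mul _ _).trans (add_le_add (hF.inv' _) ((hF.lip _ _).trans ?_))
      exact mul_le_mul_of_nonneg_left (by linarith [M.l_fl_one]) hK
    have h2 := hA b _ h1
    have h3 : A b ≤ ∑ b : M.Φ, |A b| := (le_abs_self _).trans
      (Finset.single_le_sum (f := fun b : M.Φ => |A b|) (fun _ _ => abs_nonneg _)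
        (Finset.mem_univ b))
    obtain ⟨x, hx⟩ : ∃ x, x = (w * a N)⁻¹ * F (F' (w * a N) * M.fl 1) := ⟨_, rfl⟩
    rw [e1, ← hw, ← hx]
    rw [← hx] at h2
    have h4 : ‖(M.cr b).ρ w‖ = exp ((b : Ht →L[ℝ] ℝ) (M.f F z)) := by
      rw [hw]; exact M.norm_ρ b F z
    have h5 : (M.cr b).ρ (a N) = 1 := (M.cr b).ρ_ker _ ha3
    have e2 : (M.cr b).D (w * a N * x) - (M.cr b).D w =
        (M.cr b).ρ w * (M.cr b).D (a N) + (M.cr b).ρ w * (M.cr b).D x := by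
      rw [(M.cr b).D_mul, (M.cr b).D_mul, (M.cr b).ρ_mul, h5, mul_one]
      ring
    rw [e2]
    have h6 : ‖(M.cr b).ρ w * (M.cr b).D (a N)‖ ≤ ‖(M.cr b).ρ w * (M.cr b).D (a N) +
        (M.cr b).ρ w * (M.cr b).D x‖ + ‖(M.cr b).ρ w * (M.cr b).D x‖ := by
      have := norm_sub_le ((M.cr b).ρ w * (M.cr b).D (a N) +
        (M.cr b).ρ w * (M.cr b).D x) ((M.cr b).ρ w * (M.cr b).D x)
      rwa [add_sub_cancel_right] at this
    have h7 : ‖(M.cr b).ρ w * (M.cr b).D x‖ ≤ exp ((b : Ht →L[ℝ] ℝ) (M.f F z) + C) := by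
      rw [norm_mul, h4, exp_add]
      refine mul_le_mul_of_nonneg_left ?_ (exp_pos _).le
      refine (h2.trans h3).trans ?_
      have h8 : ∑ b : M.Φ, |A b| ≤ C := by rw [hCdef]; linarith
      exact h8.trans ((by linarith : C ≤ C + 1).trans (add_one_le_exp _))
    have h8 : exp ((b : Ht →L[ℝ] ℝ) (M.f F z) + ρ - C) ≤
        ‖(M.cr b).ρ w * (M.cr b).D (a N)‖ := by
      rw [norm_mul, h4]
      calc exp ((b : Ht →L[ℝ] ℝ) (M.f F z) + ρ - C) ≤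
          exp ((b : Ht →L[ℝ] ℝ) (M.f F z) + (ρ - Cl)) := by
            refine exp_le_exp.2 ?_
            have : Cl ≤ C := by rw [hCdef]; linarith
            linarith
        _ = exp ((b : Ht →L[ℝ] ℝ) (M.f F z)) * exp (ρ - Cl) := exp_add _ _
        _ ≤ _ := by gcongr
    linarith

end NM

end Vale.Agent.P188.H754
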