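import Vale.Agent.P188.H754.Neu3

/-!
# P188, block NEU, part 4: the upper bound at the transported point
-/

set_option linter.all false

universe u v w

open Real

namespace Vale.Agent.P188.H754

open Vale.Agent.P188.H530 (Crossed)

theorem le_exp_mul {a δ : ℝ} (ha : 0 ≤ a) (hδ : 1 ≤ δ) : a ≤ exp (a * δ) := by
  have h1 : a ≤ a * δ := le_mul_of_one_le_right ha hδ
  exact h1.trans ((by linarith : a * δ ≤ a * δ + 1).trans (add_one_le_exp _))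

namespace NM

variable {S : Type u} {Γ : Type v} {Ht : Type w} [Group S] [Group Γ]
  [NormedAddCommGroup Ht] [NormedSpace ℝ Ht] (M : NM S Γ Ht)

/-- **Cartan elements of small height move the target coordinates little.** -/
theorem small_c {K CT C5 : ℝ} (hK : 0 ≤ K) (hCT : 0 ≤ CT) (hC5 : 1 ≤ C5) : ∃ C : ℝ, 1 ≤ C ∧
    ∀ F F' : Γ → Γ, M.QI K F F' → ∀ T : Ht →L[ℝ] Ht, ‖T‖ ≤ CT → ∀ R δ : ℝ, 1 ≤ δ → δ ≤ R →
    R + 1 ≤ exp δ → ∀ (z ε c : S) (n : ℕ), ε ∈ M.E → M.l ε ≤ C5 * R → c ∈ M.CW n →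
    (n : ℝ) + 1 ≤ C5 * R → ‖M.θ c‖ ≤ C5 * δ →
    (∀ x, M.l x ≤ C * R → ‖M.f F (z * x) - M.f F z - T (M.θ x)‖ ≤ δ) → ∀ b : M.Φ,
    ‖(M.cr b).D (M.Ψ F (z * ε * c)) - (M.cr b).D (M.Ψ F (z * ε))‖ ≤
      exp ((b : Ht →L[ℝ] ℝ) (M.f F z) + C * δ) := by
  obtain ⟨A, hA0, hA⟩ := M.disp K M.C0
  obtain ⟨Cb, hCb1, hCb⟩ := M.exists_Cb
  have hC1 := M.one_le_C0
  have hC := M.C0_pos
  have p1 : 0 ≤ M.C0 * C5 := by positivity
  have p2 : 0 ≤ Cb * (1 + CT * (M.C0 * (C5 + 1))) := by positivity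
  have p3 : 0 ≤ M.C0 * (C5 + 1) := by positivity
  refine ⟨C5 + M.C0 * C5 + M.C0 + A + M.C0 * (C5 + 1) + Cb * (1 + CT * (M.C0 * (C5 + 1))),
    by linarith, ?_⟩
  intro F F' hF T hT R δ hδ hδR hR z ε c n hε hlε hc hn hθc hES b
  obtain ⟨m, p, hm, h0, h1, h2, h3⟩ := M.cpath n c hc
  have hR1 : 1 ≤ R := hδ.trans hδR
  have hpt : ∀ i ≤ m, (b : Ht →L[ℝ] ℝ) (M.f F (z * ε * p i)) ≤
      (b : Ht →L[ℝ] ℝ) (M.f F z) + Cb * ((1 + CT * (M.C0 * (C5 + 1))) * δ) := by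
    intro i hi
    refine b_le (hCb b) ?_
    have h4 := hES (ε * p i) (by
      refine (M.l_mul _ _).trans ?_
      have h5 := (h3 i hi).1
      have h6 : M.C0 * ((n : ℝ) + 1) ≤ M.C0 * (C5 * R) := by gcongr
      have h7 : 0 ≤ (M.C0 + A + M.C0 * (C5 + 1) + Cb * (1 + CT * (M.C0 * (C5 + 1)))) * R := by
        positivity
      linarith)
    rw [M.θ_mul, M.θ_E ε hε, zero_add, ← mul_assoc] at h4
    have h5 : ‖T (M.θ (p i))‖ ≤ CT * (M.C0 * (C5 + 1)) * δ := by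
      refine (T.le_opNorm _).trans ?_
      have h6 := (h3 i hi).2
      rw [mul_assoc]
      refine mul_le_mul hT (h6.trans ?_) (norm_nonneg _) hCT
      rw [mul_assoc]
      refine mul_le_mul_of_nonneg_left ?_ hC.le
      linarith
    have e : M.f F (z * ε * p i) - M.f F z = (M.f F (z * ε * p i) - M.f F z - T (M.θ (p i))) +
        T (M.θ (p i)) := by abel
    rw [e]
    refine (norm_add_le _ _).trans ?_
    linarith
  have h4 := hA F F' hF b (fun i => z * ε * p i) m _ (fun i hi => by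
    have e : (z * ε * p i)⁻¹ * (z * ε * p (i + 1)) = (p i)⁻¹ * p (i + 1) := by group
    rw [e]; exact h2 i hi) (fun i hi => hpt i hi.le)
  beta_reduce at h4
  rw [h0, h1, mul_one] at h4
  refine h4.trans ?_
  have h5 : (m : ℝ) ≤ exp (M.C0 * δ) * exp (M.C0 * (C5 + 1) * δ) := by
    refine hm.trans (mul_le_mul (le_exp_mul hC.le hδ) ?_ (by positivity) (exp_pos _).le)
    have h6 : (n : ℝ) + 1 ≤ exp ((C5 + 1) * δ) := by
      refine hn.trans ?_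
      calc C5 * R ≤ exp (C5 * δ) * exp δ := by
            have := le_exp_mul (by linarith : 0 ≤ C5) hδ
            have h8 : R ≤ exp δ := by linarith
            gcongr
        _ = _ := by rw [← exp_add]; congr 1; ring
    calc ((n : ℝ) + 1) ^ M.C0 ≤ (exp ((C5 + 1) * δ)) ^ M.C0 :=
          Real.rpow_le_rpow (by positivity) h6 hC.le
      _ = _ := by rw [← Real.exp_mul]; congr 1; ring
  have h6 : A ≤ exp (A * δ) := le_exp_mul hA0 hδ
  calc (m : ℝ) * (A * exp ((b : Ht →L[ℝ] ℝ) (M.f F z) +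
        Cb * ((1 + CT * (M.C0 * (C5 + 1))) * δ))) ≤
      (exp (M.C0 * δ) * exp (M.C0 * (C5 + 1) * δ)) * (exp (A * δ) *
        exp ((b : Ht →L[ℝ] ℝ) (M.f F z) + Cb * ((1 + CT * (M.C0 * (C5 + 1))) * δ))) := by gcongr
    _ = exp ((b : Ht →L[ℝ] ℝ) (M.f F z) + (M.C0 + A + M.C0 * (C5 + 1) +
        Cb * (1 + CT * (M.C0 * (C5 + 1)))) * δ) := by
      rw [← exp_add, ← exp_add, ← exp_add]; congr 1; ring
    _ ≤ _ := by
      refine exp_le_exp.2 ?_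
      have h7 : 0 ≤ (C5 + M.C0 * C5) * δ := by positivity
      linarith

/-- **Upper bound.** -/
theorem upper {K CT C5 : ℝ} (hK : 0 ≤ K) (hCT : 0 ≤ CT) (hC5 : 1 ≤ C5) (k : ℕ) :
    ∃ C : ℝ, 1 ≤ C ∧
    ∀ F F' : Γ → Γ, M.QI K F F' → ∀ T T' : Ht →L[ℝ] Ht, ‖T‖ ≤ CT → (∀ v, T (T' v) = v) →
    ∀ R δ ρ : ℝ, 1 ≤ δ → δ ≤ R → R + 1 ≤ exp δ → 0 ≤ ρ →
    ∀ (z ζ : S) (n : ℕ), ζ ∈ M.CW n → M.θ ζ = 0 → (n : ℝ) + 1 ≤ exp (C5 * δ) →
    (∀ x, M.l x ≤ C * R → ‖M.f F (z * ζ * x) - M.f F (z * ζ) - T (M.θ x)‖ ≤ 2 * δ) →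
    ∀ (b : M.Φ) (u : Ht), (b : Ht →L[ℝ] ℝ) u = ρ → ∀ (N : ℕ) (ε c e : ℕ → S), (N : ℝ) + 1 ≤ C5 * R →
    (∀ i, ε i ∈ M.E) → (∀ i ≤ N, c i ∈ M.CW (k * (i + 1))) → (∀ i ≤ N, M.l (ε i) ≤ C5 * R) →
    M.l (ε 0) ≤ C5 →
    (∀ i ≤ N, ∃ s ∈ Set.Icc (0 : ℝ) 1, ‖M.θ (c i) - s • T' u‖ ≤ C5 * δ) →
    (∀ i < N, ε (i + 1) = ε i * (c i * e i * (c i)⁻¹) ∧ e i ∈ M.E ∧ M.l (e i) ≤ C5 ∧
      M.l ((c i)⁻¹ * c (i + 1)) ≤ C5) →
    ‖(M.cr b).D (M.Ψ F (z * ε N * ζ)) - (M.cr b).D (M.Ψ F (z * ζ))‖ ≤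
      exp ((b : Ht →L[ℝ] ℝ) (M.f F (z * ζ)) + ρ + C * δ) := by
  obtain ⟨A, hA0, hA⟩ := M.disp K C5
  obtain ⟨A₂, hA₂0, hA₂⟩ := M.disp_short K
  obtain ⟨Cb, hCb1, hCb⟩ := M.exists_Cb
  have hC1 := M.one_le_C0
  have hC := M.C0_pos
  have hk : (0 : ℝ) ≤ k := Nat.cast_nonneg _
  -- radius
  obtain ⟨B, hB⟩ : ∃ B : ℝ, B = M.C0 * (C5 + C5 + 1) + M.C0 * (k * C5) := ⟨_, rfl⟩
  have hB0 : 0 ≤ B := by rw [hB]; positivity
  -- heights
  obtain ⟨C21, hC21⟩ : ∃ C21 : ℝ, C21 = Cb * (2 + CT * C5) := ⟨_, rfl⟩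
  have hC210 : 0 ≤ C21 := by rw [hC21]; positivity
  -- middle step
  obtain ⟨C23, hC23⟩ : ∃ C23 : ℝ, C23 = M.C0 * (C5 + (2 * k * C5 + 1 + 2 * C5 + 1) + 1) := ⟨_, rfl⟩
  have hC230 : 0 ≤ C23 := by rw [hC23]; positivity
  obtain ⟨C24, hC24⟩ : ∃ C24 : ℝ, C24 = C21 + A₂ * (C23 + 1) + A₂ * (M.C0 * k + 1) +
    A₂ * (M.C0 * (2 * C5 + 1) + 1) := ⟨_, rfl⟩
  have hC240 : 0 ≤ C24 := by rw [hC24]; positivity
  refine ⟨B + C24 + (2 * C5 + 2) + (2 * A + 3) + 1, by linarith, ?_⟩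
  intro F F' hF T T' hT hTT R δ ρ hδ hδR hR hρ z ζ n hζ hθζ hn hES b u hu N ε c e hN hε hc hlε hlε0
    hθc hstep
  have hR1 : 1 ≤ R := hδ.trans hδR
  obtain ⟨h1, hh1⟩ : ∃ h1 : ℝ, h1 = (b : Ht →L[ℝ] ℝ) (M.f F (z * ζ)) := ⟨_, rfl⟩
  rw [← hh1]
  have hlogn : log ((n : ℝ) + 1) ≤ C5 * δ := (Real.log_le_iff_le_exp (by positivity)).2 hn
  have hlc : ∀ i ≤ N, M.l (c i) ≤ M.C0 * (k * C5) * R := by
    intro i hi
    refine (M.CW_l _ _ (hc i hi)).trans ?_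
    rw [mul_assoc]
    refine mul_le_mul_of_nonneg_left ?_ hC.le
    push_cast
    rw [mul_assoc]
    refine mul_le_mul_of_nonneg_left ?_ hk
    have : (i : ℝ) ≤ N := by exact_mod_cast hi
    linarith
  have hconj : ∀ j ≤ N, M.l (ζ⁻¹ * ε j * ζ) ≤ M.C0 * (C5 + C5 + 1) * R := by
    intro j hj
    have h2 := M.con n _ (M.CW_inv _ _ hζ) _ (hε j)
    rw [inv_inv, M.θ_inv, hθζ, neg_zero, norm_zero] at h2
    refine h2.trans ?_
    rw [mul_assoc]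
    refine mul_le_mul_of_nonneg_left ?_ hC.le
    have h3 := hlε j hj
    have h4 : C5 * δ ≤ C5 * R := by gcongr
    linarith
  -- the heights along the paths
  have hpt : ∀ i ≤ N, ∀ j ≤ N, (b : Ht →L[ℝ] ℝ) (M.f F (z * ε j * ζ * c i)) ≤
      h1 + ρ + C21 * δ := by
    intro i hi j hj
    have h2 := hES (ζ⁻¹ * ε j * ζ * c i) (by
      refine (M.l_mul _ _).trans ?_
      have h3 := hconj j hj
      have h4 := hlc i hi
      have h5 : 0 ≤ (C24 + (2 * C5 + 2) + (2 * A + 3) + 1) * R := by positivity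
      have h6 : B * R = M.C0 * (C5 + C5 + 1) * R + M.C0 * (k * C5) * R := by rw [hB]; ring
      linarith)
    have e1 : z * ζ * (ζ⁻¹ * ε j * ζ * c i) = z * ε j * ζ * c i := by group
    have e2 : M.θ (ζ⁻¹ * ε j * ζ * c i) = M.θ (c i) := by
      rw [M.θ_mul, M.θ_mul, M.θ_mul, M.θ_inv, hθζ, M.θ_E _ (hε j)]; simp
    rw [e1, e2] at h2
    obtain ⟨s, hs, hs2⟩ := hθc i hi
    have h3 : ‖T (M.θ (c i)) - s • u‖ ≤ CT * (C5 * δ) := by
      have e3 : T (M.θ (c i)) - s • u = T (M.θ (c i) - s • T' u) := by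
        rw [map_sub, map_smul, hTT]
      rw [e3]
      refine (T.le_opNorm _).trans ?_
      gcongr
    have h4 : ‖M.f F (z * ε j * ζ * c i) - (M.f F (z * ζ) + s • u)‖ ≤ 2 * δ + CT * (C5 * δ) := by
      have e3 : M.f F (z * ε j * ζ * c i) - (M.f F (z * ζ) + s • u) =
          (M.f F (z * ε j * ζ * c i) - M.f F (z * ζ) - T (M.θ (c i))) +
          (T (M.θ (c i)) - s • u) := by abel
      rw [e3]
      exact (norm_add_le _ _).trans (add_le_add h2 h3)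
    have h5 := b_le (hCb b) h4
    rw [map_add, map_smul, hu, smul_eq_mul, ← hh1] at h5
    have h6 : s * ρ ≤ ρ := mul_le_of_le_one_left hρ hs.2
    have h7 : Cb * (2 * δ + CT * (C5 * δ)) = C21 * δ := by rw [hC21]; ring
    linarith
  obtain ⟨U, hU⟩ : ∃ U : ℝ, U = exp (h1 + ρ + C24 * δ) := ⟨_, rfl⟩
  have hU0 : 0 < U := by rw [hU]; exact exp_pos _
  have hCA : C21 * δ ≤ C24 * δ := by
    refine mul_le_mul_of_nonneg_right ?_ (by linarith)
    rw [hC24]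
    have : 0 ≤ A₂ * (C23 + 1) + A₂ * (M.C0 * k + 1) +
      A₂ * (M.C0 * (2 * C5 + 1) + 1) := by positivity
    linarith
  -- along the Cartan paths
  have hleg : ∀ j ≤ N, ∀ i ≤ N,
      ‖(M.cr b).D (M.Ψ F (z * ε j * ζ * c i)) - (M.cr b).D (M.Ψ F (z * ε j * ζ))‖ ≤
        (N * A + 1) * U := by
    intro j hj i hi
    have h2 := hA F F' hF b (fun t => z * ε j * ζ * c t) i (h1 + ρ + C21 * δ) (fun t ht => by
      have e1 : (z * ε j * ζ * c t)⁻¹ * (z * ε j * ζ * c (t + 1)) = (c t)⁻¹ * c (t + 1) := by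
        group
      rw [e1]; exact (hstep t (by omega)).2.2.2) (fun t ht => hpt t (by omega) j hj)
    beta_reduce at h2
    have h3 := hA₂ F F' hF b (z * ε j * ζ * c 0) (c 0)⁻¹
    rw [mul_inv_cancel_right, M.l_inv, norm_sub_rev] at h3
    have h4 : ‖(M.cr b).D (M.Ψ F (z * ε j * ζ * c 0)) - (M.cr b).D (M.Ψ F (z * ε j * ζ))‖ ≤ U := by
      refine h3.trans ?_
      rw [hU]
      refine exp_le_exp.2 ?_
      have h5 := hpt 0 (Nat.zero_le _) j hj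
      have h6 : M.l (c 0) ≤ M.C0 * k := by
        have := M.CW_l _ _ (hc 0 (Nat.zero_le _))
        rwa [zero_add, mul_one] at this
      have h7 : A₂ * (M.l (c 0) + 1) ≤ A₂ * (M.C0 * k + 1) * δ := by
        refine (mul_le_mul_of_nonneg_left (by linarith : M.l (c 0) + 1 ≤ M.C0 * k + 1)
          hA₂0).trans (le_mul_of_one_le_right (by positivity) hδ)
      have h8 : (C21 + A₂ * (M.C0 * k + 1)) * δ ≤ C24 * δ := by
        refine mul_le_mul_of_nonneg_right ?_ (by linarith)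
        rw [hC24]
        have : 0 ≤ A₂ * (C23 + 1) + A₂ * (M.C0 * (2 * C5 + 1) + 1) := by positivity
        linarith
      linarith
    have h5 : (i : ℝ) * (A * exp (h1 + ρ + C21 * δ)) ≤ (N : ℝ) * (A * U) := by
      have : (i : ℝ) ≤ N := by exact_mod_cast hi
      rw [hU]
      gcongr
    have e1 : (M.cr b).D (M.Ψ F (z * ε j * ζ * c i)) - (M.cr b).D (M.Ψ F (z * ε j * ζ)) =
        ((M.cr b).D (M.Ψ F (z * ε j * ζ * c i)) - (M.cr b).D (M.Ψ F (z * ε j * ζ * c 0))) +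
        ((M.cr b).D (M.Ψ F (z * ε j * ζ * c 0)) - (M.cr b).D (M.Ψ F (z * ε j * ζ))) := by ring
    rw [e1]
    refine (norm_add_le _ _).trans ?_
    linarith
  -- the middle step
  have hmid : ∀ j < N, ‖(M.cr b).D (M.Ψ F (z * ε (j + 1) * ζ * c j)) -
      (M.cr b).D (M.Ψ F (z * ε j * ζ * c j))‖ ≤ U := by
    intro j hj
    obtain ⟨a1, a2, a3, a4⟩ := hstep j hj
    have e1 : z * ε (j + 1) * ζ * c j = z * ε j * ζ * c j *
        (((c j)⁻¹ * ζ⁻¹ * c j) * e j * ((c j)⁻¹ * ζ⁻¹ * c j)⁻¹) := by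
      rw [a1]; group
    have h2 : (c j)⁻¹ * ζ⁻¹ * c j ∈ M.CW (k * (j + 1) + n + k * (j + 1)) :=
      M.CW_mul _ _ _ (M.CW_mul _ _ _ (M.CW_inv _ _ (hc j hj.le)) _ (M.CW_inv _ _ hζ)) _
        (hc j hj.le)
    have h3 := M.con _ _ h2 _ a2
    have e2 : M.θ ((c j)⁻¹ * ζ⁻¹ * c j) = 0 := by
      rw [M.θ_mul, M.θ_mul, M.θ_inv, M.θ_inv, hθζ]; simp
    rw [e2, norm_zero] at h3
    have h4 : log (((k * (j + 1) + n + k * (j + 1) : ℕ) : ℝ) + 1) ≤
        (2 * k * C5 + 1 + 2 * C5 + 1) * δ := by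
      rw [Real.log_le_iff_le_exp (by positivity)]
      push_cast
      have h5 : (j : ℝ) + 1 ≤ C5 * R := by
        have : (j : ℝ) ≤ N := by exact_mod_cast hj.le
        linarith
      have h6 : (k : ℝ) * (j + 1) ≤ k * (C5 * R) := by gcongr
      have h7 : R ≤ exp δ := by linarith
      have h8 : (2 * k * C5 : ℝ) ≤ exp (2 * k * C5 * δ) := le_exp_mul (by positivity) hδ
      have h9 : (0 : ℝ) < exp (C5 * δ) := exp_pos _
      calc (k : ℝ) * (j + 1) + n + k * (j + 1) + 1 ≤ 2 * k * C5 * R + exp (C5 * δ) := by linarith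
        _ ≤ exp (2 * k * C5 * δ) * exp δ + exp (C5 * δ) := by gcongr
        _ ≤ exp ((2 * k * C5 + 1 + C5) * δ) + exp ((2 * k * C5 + 1 + C5) * δ) := by
            refine add_le_add ?_ (exp_le_exp.2 ?_)
            · rw [← exp_add]
              refine exp_le_exp.2 ?_
              have : 0 ≤ C5 * δ := by positivity
              linarith
            · have : 0 ≤ (2 * k * C5 + 1) * δ := by positivity
              linarith
        _ = 2 * exp ((2 * k * C5 + 1 + C5) * δ) := by ring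
        _ ≤ exp (C5 * δ + 1) * exp ((2 * k * C5 + 1 + C5) * δ) := by
            have h10 : (2 : ℝ) ≤ exp (C5 * δ + 1) := by
              have := add_one_le_exp (C5 * δ + 1)
              have : 0 ≤ C5 * δ := by positivity
              linarith
            gcongr
        _ ≤ _ := by
            rw [← exp_add]
            refine exp_le_exp.2 ?_
            linarith
    have h5 : M.l (((c j)⁻¹ * ζ⁻¹ * c j) * e j * ((c j)⁻¹ * ζ⁻¹ * c j)⁻¹) ≤ C23 * δ := by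
      refine h3.trans ?_
      rw [hC23, mul_assoc]
      refine mul_le_mul_of_nonneg_left ?_ hC.le
      have : C5 ≤ C5 * δ := le_mul_of_one_le_right (by linarith) hδ
      linarith
    have h6 := hA₂ F F' hF b (z * ε j * ζ * c j)
      (((c j)⁻¹ * ζ⁻¹ * c j) * e j * ((c j)⁻¹ * ζ⁻¹ * c j)⁻¹)
    rw [← e1] at h6
    refine h6.trans ?_
    rw [hU]
    refine exp_le_exp.2 ?_
    have h7 := hpt j hj.le j hj.le
    have h8 : A₂ * (M.l (((c j)⁻¹ * ζ⁻¹ * c j) * e j * ((c j)⁻¹ * ζ⁻¹ * c j)⁻¹) + 1) ≤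
        A₂ * (C23 + 1) * δ := by
      rw [mul_assoc A₂ (C23 + 1) δ]
      refine mul_le_mul_of_nonneg_left ?_ hA₂0
      linarith
    have h9 : (C21 + A₂ * (C23 + 1)) * δ ≤ C24 * δ := by
      refine mul_le_mul_of_nonneg_right ?_ (by linarith)
      rw [hC24]
      have : 0 ≤ A₂ * (M.C0 * k + 1) + A₂ * (M.C0 * (2 * C5 + 1) + 1) := by positivity
      linarith
    linarith
  -- one step
  have hone : ∀ j < N, ‖(M.cr b).D (M.Ψ F (z * ε (j + 1) * ζ)) -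
      (M.cr b).D (M.Ψ F (z * ε j * ζ))‖ ≤ (2 * (N * A + 1) + 1) * U := by
    intro j hj
    have a1 := hleg (j + 1) (by omega) j hj.le
    have a2 := hleg j hj.le j hj.le
    have a3 := hmid j hj
    rw [norm_sub_rev] at a1
    have e1 : (M.cr b).D (M.Ψ F (z * ε (j + 1) * ζ)) - (M.cr b).D (M.Ψ F (z * ε j * ζ)) =
        ((M.cr b).D (M.Ψ F (z * ε (j + 1) * ζ)) -
          (M.cr b).D (M.Ψ F (z * ε (j + 1) * ζ * c j))) +
        (((M.cr b).D (M.Ψ F (z * ε (j + 1) * ζ * c j)) -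
          (M.cr b).D (M.Ψ F (z * ε j * ζ * c j))) +
        ((M.cr b).D (M.Ψ F (z * ε j * ζ * c j)) - (M.cr b).D (M.Ψ F (z * ε j * ζ)))) := by ring
    rw [e1]
    have h2 := norm_add_le ((M.cr b).D (M.Ψ F (z * ε (j + 1) * ζ)) -
          (M.cr b).D (M.Ψ F (z * ε (j + 1) * ζ * c j)))
      (((M.cr b).D (M.Ψ F (z * ε (j + 1) * ζ * c j)) -
          (M.cr b).D (M.Ψ F (z * ε j * ζ * c j))) +
        ((M.cr b).D (M.Ψ F (z * ε j * ζ * c j)) - (M.cr b).D (M.Ψ F (z * ε j * ζ))))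
    have h3 := norm_add_le ((M.cr b).D (M.Ψ F (z * ε (j + 1) * ζ * c j)) -
          (M.cr b).D (M.Ψ F (z * ε j * ζ * c j)))
        ((M.cr b).D (M.Ψ F (z * ε j * ζ * c j)) - (M.cr b).D (M.Ψ F (z * ε j * ζ)))
    linarith
  have hall : ∀ j ≤ N, ‖(M.cr b).D (M.Ψ F (z * ε j * ζ)) -
      (M.cr b).D (M.Ψ F (z * ε 0 * ζ))‖ ≤ j * ((2 * (N * A + 1) + 1) * U) := by
    intro j
    induction j with
    | zero => intro _; simp
    | succ j ih =>
      intro hj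
      have a1 := ih (by omega)
      have a2 := hone j (by omega)
      have h2 := norm_add_le ((M.cr b).D (M.Ψ F (z * ε (j + 1) * ζ)) -
        (M.cr b).D (M.Ψ F (z * ε j * ζ)))
        ((M.cr b).D (M.Ψ F (z * ε j * ζ)) - (M.cr b).D (M.Ψ F (z * ε 0 * ζ)))
      rw [sub_add_sub_cancel] at h2
      push_cast
      linarith
  have hfirst : ‖(M.cr b).D (M.Ψ F (z * ε 0 * ζ)) - (M.cr b).D (M.Ψ F (z * ζ))‖ ≤ U := by
    have e1 : z * ε 0 * ζ = z * ζ * (ζ⁻¹ * ε 0 * ζ) := by group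
    have h2 := hA₂ F F' hF b (z * ζ) (ζ⁻¹ * ε 0 * ζ)
    rw [← e1, ← hh1] at h2
    refine h2.trans ?_
    rw [hU]
    refine exp_le_exp.2 ?_
    have h3 := M.con n _ (M.CW_inv _ _ hζ) _ (hε 0)
    rw [inv_inv, M.θ_inv, hθζ, neg_zero, norm_zero] at h3
    have h4 : M.l (ζ⁻¹ * ε 0 * ζ) ≤ M.C0 * (2 * C5 + 1) * δ := by
      refine h3.trans ?_
      rw [mul_assoc]
      refine mul_le_mul_of_nonneg_left ?_ hC.le
      have : C5 ≤ C5 * δ := le_mul_of_one_le_right (by linarith) hδ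
      linarith
    have h5 : A₂ * (M.l (ζ⁻¹ * ε 0 * ζ) + 1) ≤ A₂ * (M.C0 * (2 * C5 + 1) + 1) * δ := by
      rw [mul_assoc A₂ _ δ]
      refine mul_le_mul_of_nonneg_left ?_ hA₂0
      linarith
    have h9 : A₂ * (M.C0 * (2 * C5 + 1) + 1) * δ ≤ C24 * δ := by
      refine mul_le_mul_of_nonneg_right ?_ (by linarith)
      rw [hC24]
      have : 0 ≤ C21 + A₂ * (C23 + 1) + A₂ * (M.C0 * k + 1) := by positivity
      linarith
    linarith
  have hfin := hall N le_rfl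
  have h2 := norm_add_le ((M.cr b).D (M.Ψ F (z * ε N * ζ)) - (M.cr b).D (M.Ψ F (z * ε 0 * ζ)))
    ((M.cr b).D (M.Ψ F (z * ε 0 * ζ)) - (M.cr b).D (M.Ψ F (z * ζ)))
  rw [sub_add_sub_cancel] at h2
  refine h2.trans ?_
  have hN1 : (N : ℝ) + 1 ≤ exp ((C5 + 1) * δ) := by
    refine hN.trans ?_
    calc C5 * R ≤ exp (C5 * δ) * exp δ := by
          have := le_exp_mul (by linarith : 0 ≤ C5) hδ
          have h8 : R ≤ exp δ := by linarith
          gcongr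
      _ = _ := by rw [← exp_add]; congr 1; ring
  have hN0 : (0 : ℝ) ≤ N := Nat.cast_nonneg _
  calc ‖(M.cr b).D (M.Ψ F (z * ε N * ζ)) - (M.cr b).D (M.Ψ F (z * ε 0 * ζ))‖ +
        ‖(M.cr b).D (M.Ψ F (z * ε 0 * ζ)) - (M.cr b).D (M.Ψ F (z * ζ))‖
      ≤ N * ((2 * (N * A + 1) + 1) * U) + U := add_le_add hfin hfirst
    _ ≤ ((N + 1) * (N + 1) * (2 * A + 3)) * U := by
        have h3 : (N : ℝ) * (2 * (N * A + 1) + 1) + 1 ≤ (N + 1) * (N + 1) * (2 * A + 3) := by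
          have h4 : 0 ≤ N * A := by positivity
          nlinarith
        calc (N : ℝ) * ((2 * (N * A + 1) + 1) * U) + U =
            ((N : ℝ) * (2 * (N * A + 1) + 1) + 1) * U := by ring
          _ ≤ _ := by gcongr
    _ ≤ (exp ((C5 + 1) * δ) * exp ((C5 + 1) * δ) * exp ((2 * A + 3) * δ)) *
        exp (h1 + ρ + C24 * δ) := by
        have := le_exp_mul (by positivity : 0 ≤ 2 * A + 3) hδ
        rw [hU]
        gcongr
    _ = exp (h1 + ρ + (C24 + (2 * C5 + 2) + (2 * A + 3)) * δ) := by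
        rw [← exp_add, ← exp_add, ← exp_add]; congr 1; ring
    _ ≤ _ := by
        refine exp_le_exp.2 ?_
        have : 0 ≤ (B + 1) * δ := by positivity
        linarith

end NM

end Vale.Agent.P188.H754
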